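import Crest.Agent.X212.Pj41.Pul
import Crest.Agent.X212.Met55.Vol
import Crest.Agent.X212.Eqv71.Cfg

/-!
# X212 / MDG (helper41): literal pull-back of frames, backgrounds, modules and configurations along
a local diffeomorphism (open subsets, open embeddings, coverings).
-/

set_option autoImplicit false
set_option linter.unusedSectionVars false

open Set Function Filter Topology MeasureTheory
open scoped ContDiff Manifold InnerProductSpace

namespace Crest.Agent.X212.Pj41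

open An Sob92 Met55
open Wz78 (nab curv dir lap)

noncomputable section

variable {E : Type} [NormedAddCommGroup E] [NormedSpace ℝ E] [FiniteDimensional ℝ E]
  [MeasurableSpace E] [BorelSpace E]
  {HM : Type} [TopologicalSpace HM] {I : ModelWithCorners ℝ E HM}
  {M : Type} [TopologicalSpace M] [ChartedSpace HM M] [IsManifold I ∞ M]
  [MeasurableSpace M] {ι : Type} [Fintype ι] {lam : Type} [Fintype lam]
  {E' : Type} [NormedAddCommGroup E'] [NormedSpace ℝ E'] [FiniteDimensional ℝ E']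
  [MeasurableSpace E'] [BorelSpace E']
  {HM' : Type} [TopologicalSpace HM'] {I' : ModelWithCorners ℝ E' HM'}
  {M' : Type} [TopologicalSpace M'] [ChartedSpace HM' M'] [IsManifold I' ∞ M']
  [MeasurableSpace M']
  {V : Type} [NormedAddCommGroup V] [NormedSpace ℝ V] {ψ : M → M'} {O : Set M} {x : M}

/-- the chain rule along a local diffeomorphism holds for every function -/
theorem dv_ld (h : IsLocalDiffeomorphAt I I' ∞ ψ x) {X : VF I M} {X' : VF I' M'}
    (hr : mfderiv I I' ψ x (X x) = X' (ψ x)) (u : M' → V) :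
    dv I X (fun y => u (ψ y)) x = dv I' X' u (ψ x) := by
  by_cases hu : MDifferentiableAt I' 𝓘(ℝ, V) u (ψ x)
  · exact dv_rel (h.contMDiffAt.mdifferentiableAt (by simp)) hr hu
  · have h2 : ¬ MDifferentiableAt I 𝓘(ℝ, V) (fun y => u (ψ y)) x := fun h1 => hu <| by
      have h3 : MDifferentiableAt I 𝓘(ℝ, V) (fun y => u (ψ y)) (h.localInverse (ψ x)) := by
        rwa [h.localInverse_left_inv h.localInverse_mem_target]
      refine (h3.comp (ψ x) (h.localInverse_contMDiffAt.mdifferentiableAt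
        (by simp))).congr_of_eventuallyEq ?_
      filter_upwards [h.localInverse_eventuallyEq_right] with y hy
      simp only [comp_apply] at hy ⊢
      rw [hy]; rfl
    unfold dv
    rw [mfderiv_zero_of_not_mdifferentiableAt hu, mfderiv_zero_of_not_mdifferentiableAt h2]
    rfl

/-- frames that are literally related by the local diffeomorphism `ψ` over the open set `O` -/
structure FRel (F : Fr I M ι) (F' : Fr I' M' ι) (ψ : M → M') (O : Set M) : Prop where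
  op : IsOpen O
  ld : ∀ x ∈ O, IsLocalDiffeomorphAt I I' ∞ ψ x
  e : ∀ a, ∀ x ∈ O, mfderiv I I' ψ x (F.e a x) = F'.e a (ψ x)

theorem fRel_of_iso {F : Fr I M ι} {F' : Fr I' M' ι} {φ : OpenPartialHomeomorph M M'}
    (h : Iso F.toPre F'.toPre φ) : FRel F F' φ φ.source :=
  ⟨φ.open_source, fun _ hx => ⟨⟨φ.toPartialEquiv, φ.open_source, φ.open_target, h.sm, h.sm'⟩, hx,
    fun _ _ => rfl⟩, h.e⟩

namespace FRel
variable {F : Fr I M ι} {F' : Fr I' M' ι} (h : FRel F F' ψ O) (hx : x ∈ O)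
include h

theorem mono {O₁ : Set M} (h1 : IsOpen O₁) (hs : O₁ ⊆ O) : FRel F F' ψ O₁ :=
  ⟨h1, fun x hx => h.ld x (hs hx), fun a x hx => h.e a x (hs hx)⟩

theorem trans {E'' HM'' M'' : Type} [NormedAddCommGroup E''] [NormedSpace ℝ E'']
    [FiniteDimensional ℝ E''] [MeasurableSpace E''] [BorelSpace E''] [TopologicalSpace HM'']
    {I'' : ModelWithCorners ℝ E'' HM''} [TopologicalSpace M''] [ChartedSpace HM'' M'']
    [IsManifold I'' ∞ M''] [MeasurableSpace M''] {F'' : Fr I'' M'' ι} {χ : M' → M''} {O' : Set M'}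
    (k : FRel F' F'' χ O') (hO : MapsTo ψ O O') : FRel F F'' (χ ∘ ψ) O :=
  ⟨h.op, fun x hx => Cyl58.ld_comp (k.ld _ (hO hx)) (h.ld x hx), fun a x hx => by
    rw [mfderiv_comp x ((k.ld _ (hO hx)).contMDiffAt.mdifferentiableAt (by simp))
      ((h.ld x hx).contMDiffAt.mdifferentiableAt (by simp))]
    exact (congrArg _ (h.e a x hx)).trans (k.e a _ (hO hx))⟩

include hx

theorem sm {u : M' → V} (hu : FSm I' u (ψ x)) : FSm I (fun y => u (ψ y)) x :=
  hu.comp x (h.ld x hx).contMDiffAt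

theorem D (a : ι) {u : M → V} {u' : M' → V} (e : ∀ᶠ y in 𝓝 x, u y = u' (ψ y)) :
    F.D a u x = F'.D a u' (ψ x) :=
  (dv_congr (v := fun y => u' (ψ y)) e).trans (dv_ld (h.ld x hx) (h.e a x hx) u')

theorem D_ev (a : ι) {u : M → V} {u' : M' → V} (e : ∀ᶠ y in 𝓝 x, u y = u' (ψ y)) :
    ∀ᶠ y in 𝓝 x, F.D a u y = F'.D a u' (ψ y) := by
  filter_upwards [h.op.mem_nhds hx, e.eventually_nhds] with y h1 h2 using h.D h1 a h2

theorem Dw_ev (w : List ι) {u : M → V} {u' : M' → V} (e : ∀ᶠ y in 𝓝 x, u y = u' (ψ y)) :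
    ∀ᶠ y in 𝓝 x, F.Dw w u y = F'.Dw w u' (ψ y) := by
  induction w generalizing u u' with
  | nil => exact e
  | cons a w ih => exact ih (h.D_ev hx a e)

theorem Dw (w : List ι) {u : M → V} {u' : M' → V} (e : ∀ᶠ y in 𝓝 x, u y = u' (ψ y)) :
    F.Dw w u x = F'.Dw w u' (ψ x) := (h.Dw_ev hx w e).self_of_nhds

theorem P (a b : ι) : F.P a b x = F'.P a b (ψ x) := by
  rw [fr_P, fr_P, fP_rel (h.ld x hx) (pre_sp _ x) fun a => h.e a x hx]

theorem nab {A : ι → M → V →L[ℝ] V} {A' : ι → M' → V →L[ℝ] V} (a : ι) {u : M → V} {u' : M' → V}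
    (hA : A a x = A' a (ψ x)) (e : ∀ᶠ y in 𝓝 x, u y = u' (ψ y)) :
    nab I F.e A a u x = nab I' F'.e A' a u' (ψ x) := by
  have := h.D hx a e
  simp only [Wz78.nab, Pre.D_def] at this ⊢
  rw [this, hA, e.self_of_nhds]

theorem dir {ρ A : ι → M → V →L[ℝ] V} {ρ' A' : ι → M' → V →L[ℝ] V} {u : M → V} {u' : M' → V}
    (hρ : ∀ a, ρ a x = ρ' a (ψ x)) (hA : ∀ a, A a x = A' a (ψ x))
    (e : ∀ᶠ y in 𝓝 x, u y = u' (ψ y)) : dir I F.e ρ A u x = dir I' F'.e ρ' A' u' (ψ x) :=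
  Finset.sum_congr rfl fun a _ => by rw [hρ a, h.nab hx a (hA a) e]

theorem Gam_of (hc : ∀ a b l, F.c a b l x = F'.c a b l (ψ x)) (a b k : ι) :
    F.Gam a b k x = F'.Gam a b k (ψ x) := by
  have := fun a b k => h.D hx a (u := F.P b k) (u' := F'.P b k)
    ((h.op.eventually_mem hx).mono fun y hy => h.P hy b k)
  simp only [Fr.Gam, this, hc]

variable [I.Boundaryless] [I'.Boundaryless]

theorem c (a b l : ι) : F.c a b l x = F'.c a b l (ψ x) := by
  have hr : ∀ a, ∀ᶠ y in 𝓝 x, mfderiv I I' ψ y (F.e a y) = F'.e a (ψ y) := fun a =>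
    (h.op.eventually_mem hx).mono fun y hy => h.e a y hy
  rw [fr_c, fr_c, fT_rel (h.ld x hx) (pre_sp _ x) (fun a => h.e a x hx)
    (br_rel (h.ld x hx).contMDiffAt (F.sm a x) (F.sm b x) (F'.sm a _) (F'.sm b _) (hr a) (hr b))]

theorem Gam (a b k : ι) : F.Gam a b k x = F'.Gam a b k (ψ x) := h.Gam_of hx (h.c hx) a b k

theorem curv {A : ι → M → V →L[ℝ] V} {A' : ι → M' → V →L[ℝ] V}
    (hA : ∀ a, ∀ᶠ y in 𝓝 x, A a y = A' a (ψ y)) (a b : ι) :
    curv I F.e F.c A a b x = curv I' F'.e F'.c A' a b (ψ x) := by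
  have := fun a b => h.D hx a (hA b)
  simp only [Pre.D_def] at this
  simp only [Wz78.curv, this, fun a => (hA a).self_of_nhds, h.c hx]

variable [BorelSpace M] [T2Space M] [BorelSpace M'] [T2Space M']

theorem dv (hv : F.IsVol) (hv' : F'.IsVol) (a : ι) : F.dv a x = F'.dv a (ψ x) := by
  simp only [dv_vol hv, dv_vol hv', h.c hx, h.P hx]

theorem lap (hv : F.IsVol) (hv' : F'.IsVol) {A : ι → M → V →L[ℝ] V} {A' : ι → M' → V →L[ℝ] V}
    {u : M → V} {u' : M' → V} (hA : ∀ a, ∀ᶠ y in 𝓝 x, A a y = A' a (ψ y))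
    (e : ∀ᶠ y in 𝓝 x, u y = u' (ψ y)) : lap I F.e F.dv A u x = lap I' F'.e F'.dv A' u' (ψ x) := by
  have h1 : ∀ a, ∀ᶠ y in 𝓝 x, Wz78.nab I F.e A a u y = Wz78.nab I' F'.e A' a u' (ψ y) := fun a => by
    filter_upwards [h.op.mem_nhds hx, e.eventually_nhds, hA a] with y h1 h2 h3
      using h.nab h1 a h3 h2
  simp only [Wz78.lap, h.dv hx hv hv', fun a => (h1 a).self_of_nhds,
    fun a => h.nab hx a (hA a).self_of_nhds (h1 a)]

end FRel

/-! ### backgrounds, modules, configurations -/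

/-- the pull-back of a base -/
@[reducible] def cmB (ψ : M → M') (B : Base M' ι lam) : Base M ι lam where
  P a b x := B.P a b (ψ x)
  o a b c d x := B.o a b c d (ψ x)
  l x := B.l (ψ x)
  il := B.il

/-- the pull-back of a module -/
@[reducible] def cmM (ψ : M → M') (m : Md M' ι lam) : Md M ι lam where
  N := m.N
  J := m.J
  p x := m.p (ψ x)
  ρ a x := m.ρ a (ψ x)
  j x := m.j (ψ x)

/-- the pull-back of a configuration -/
@[reducible] def cmC {r : ℕ} (ψ : M → M') (c : Cfg M' ι lam r) : Cfg M ι lam r where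
  m := cmM ψ c.m
  W a x := c.W a (ψ x)
  Φ x := c.Φ (ψ x)
  z := c.z

section alg
variable (ψ) (B : Base M' ι lam) (m : Md M' ι lam) (x)

theorem cm_st : (cmB ψ B).st x = B.st (ψ x) := rfl
theorem cm_sd : (cmB ψ B).sd x = B.sd (ψ x) := rfl
theorem cm_om : (cmM ψ m).om (cmB ψ B) x = m.om B (ψ x) := rfl
theorem cm_pp : (cmM ψ m).pp (cmB ψ B) x = m.pp B (ψ x) := rfl
theorem cm_pm : (cmM ψ m).pm (cmB ψ B) x = m.pm B (ψ x) := rfl
theorem cm_gS : (cmM ψ m).gS x = m.gS (ψ x) := rfl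
theorem cm_pg : (cmM ψ m).pg x = m.pg (ψ x) := rfl
theorem cm_p1 : (cmM ψ m).p1 (cmB ψ B) x = m.p1 B (ψ x) := rfl
theorem cm_p2 : (cmM ψ m).p2 (cmB ψ B) x = m.p2 B (ψ x) := rfl
theorem cm_q (u v : m.V) : (cmM ψ m).q x u v = m.q (ψ x) u v := rfl
theorem cm_mu (u v : m.V) : (cmM ψ m).mu (cmB ψ B) x u v = m.mu B (ψ x) u v := rfl

end alg

variable {B : Base M' ι lam} {m : Md M' ι lam} {O' : Set M'}

theorem cmB_ok (hψ : ContMDiff I I' ∞ ψ) (h : B.OK I') : (cmB ψ B).OK I :=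
  ⟨fun a b => (h.sP a b).comp hψ, fun a b c d => (h.so a b c d).comp hψ, h.sl.comp hψ,
    fun x => h.pr (ψ x), fun x => h.rk (ψ x), fun a b c d x => h.o12 a b c d (ψ x),
    fun a b c d x => h.o23 a b c d (ψ x), fun a b c d x => h.o34 a b c d (ψ x),
    fun a b c d x => h.oP a b c d (ψ x), fun x => h.onm (ψ x), fun x => h.lsym (ψ x),
    fun x => h.lidem (ψ x), fun x => h.lrk (ψ x), h.ilsq, h.ilsk, fun x => h.ill (ψ x)⟩

theorem cmM_okOn (hψ : ∀ x ∈ O, ContMDiffAt I I' ∞ ψ x) (hO : MapsTo ψ O O')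
    (h : OKOn I' B m O') : OKOn I (cmB ψ B) (cmM ψ m) O :=
  ⟨h.Jsq, h.Jsk, fun x hx => (h.sp _ (hO hx)).comp x (hψ x hx),
    fun a x hx => (h.sρ a _ (hO hx)).comp x (hψ x hx), fun x hx => (h.sj _ (hO hx)).comp x (hψ x hx),
    fun _ hx => h.psym _ (hO hx), fun _ hx => h.pidem _ (hO hx), fun _ hx => h.prk _ (hO hx),
    fun _ hx => h.Jp _ (hO hx), fun _ hx => h.cl _ (hO hx), fun a _ hx => h.ρsk a _ (hO hx),
    fun a _ hx => h.Jρ a _ (hO hx), fun _ hx => h.jsym _ (hO hx), fun _ hx => h.jJ _ (hO hx),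
    fun _ hx => h.jil _ (hO hx), fun _ hx => h.jl _ (hO hx), fun _ hx => h.jsq _ (hO hx),
    fun _ hx => h.pj _ (hO hx), fun a _ hx => h.jρ a _ (hO hx)⟩

theorem cmM_ok (hψ : ContMDiff I I' ∞ ψ) (h : m.OK I' B) : (cmM ψ m).OK I (cmB ψ B) :=
  okOn_univ.1 (cmM_okOn (fun x _ => hψ x) (mapsTo_univ _ _) (okOn_univ.2 h))

theorem cm_iso0 {m' : Md M' ι lam} {u : M' → CL m.V m'.V} (hψ : ∀ x ∈ O, ContMDiffAt I I' ∞ ψ x)
    (hO : MapsTo ψ O O') (h : Iso0 I' m m' O' u) :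
    Iso0 I (cmM ψ m) (cmM ψ m') O fun x => u (ψ x) :=
  ⟨fun x hx => (h.su _ (hO hx)).comp x (hψ x hx), fun _ hx => h.iso _ (hO hx),
    fun _ hx => h.J _ (hO hx), fun _ hx => h.ρ _ (hO hx), fun _ hx => h.j _ (hO hx)⟩

variable [I.Boundaryless] [I'.Boundaryless] {G : Geo I M ι lam} {G' : Geo I' M' ι lam}

theorem FRel.par0 {F : Fr I M ι} {F' : Fr I' M' ι} (h : FRel F F' ψ O) (hO : MapsTo ψ O O')
    {m' : Md M' ι lam} {u : M' → CL m.V m'.V} {W : m.Cn} {W' : m'.Cn} (k : Par0 F' W W' O' u) :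
    Par0 F (m := cmM ψ m) (m' := cmM ψ m') (fun a x => W a (ψ x)) (fun a x => W' a (ψ x)) O
      fun x => u (ψ x) := fun x hx a => by
  rw [h.D hx a (u' := u) (.of_forall fun _ => rfl)]; exact k _ (hO hx) a

theorem FRel.connOn (h : FRel G.F G'.F ψ O) (ha : ∀ a, ∀ x ∈ O, G.a a x = G'.a a (ψ x))
    (hO : MapsTo ψ O O') {W : m.Cn} (k : ConnOn B G' m W O') :
    ConnOn (cmB ψ B) G (cmM ψ m) (fun a x => W a (ψ x)) O :=
  ⟨fun a _ hx => h.sm hx (k.sm a _ (hO hx)), fun a _ hx => k.proj a _ (hO hx),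
    fun a x hx => by rw [h.D hx a (u' := m.p) (.of_forall fun _ => rfl)]; exact k.par a _ (hO hx),
    fun a b x hx => by
      rw [h.D hx a (u' := m.ρ b) (.of_forall fun _ => rfl)]
      simp only [h.Gam hx]
      exact k.comp a b _ (hO hx),
    fun a _ hx => k.sk a _ (hO hx), fun a _ hx => k.J a _ (hO hx), fun a x hx s => by
      rw [h.D hx a (u' := m.j) (.of_forall fun _ => rfl), ha a x hx]; exact k.j a _ (hO hx) s⟩

section cfg
variable {F : Fr I M ι} {F' : Fr I' M' ι} (h : FRel F F' ψ O) (hx : x ∈ O)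
include h hx

theorem FRel.Fg (W : m.Cn) : (cmM ψ m).Fg F (fun a x => W a (ψ x)) x = m.Fg F' W (ψ x) := by
  simp only [Md.Fg, cm_pg, h.curv hx (A := fun a x => W a (ψ x)) (A' := W)
    fun _ => .of_forall fun _ => rfl]

theorem FRel.kd (W : m.Cn) :
    (cmM ψ m).kd (cmB ψ B) F (fun a x => W a (ψ x)) x = m.kd B F' W (ψ x) := by
  simp only [Md.kd, h.Fg hx, cm_st]

end cfg

theorem FRel.eD {r n : ℕ} (h : FRel G.F G'.F ψ O) (hx : x ∈ O) (c : Cfg M' ι lam r)
    {τ : Pt M ι lam r n} {τ' : Pt M' ι lam r n} (t : τ.D (cmC ψ c) x = τ'.D c (ψ x)) :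
    (cmC ψ c).eD G τ x = c.eD G' τ' (ψ x) := by
  rw [Cfg.eD, Cfg.eD, t]
  exact congrArg (· - _) (h.dir hx (fun _ => rfl) (fun _ => rfl) (.of_forall fun _ => rfl))

theorem FRel.eC {r n : ℕ} (h : FRel G.F G'.F ψ O) (hx : x ∈ O) (c : Cfg M' ι lam r)
    {τ : Pt M ι lam r n} {τ' : Pt M' ι lam r n} (t : τ.C (cmC ψ c) x = τ'.C c (ψ x)) :
    (cmC ψ c).eC (cmB ψ B) G τ x = c.eC B G' τ' (ψ x) := by
  rw [Cfg.eC, Cfg.eC, t, h.Fg hx]; rfl

theorem FRel.adm {r : ℕ} (h : FRel G.F G'.F ψ univ) (ha : ∀ a x, G.a a x = G'.a a (ψ x))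
    {c : Cfg M' ι lam r} (k : c.Adm B G') : (cmC ψ c).Adm (cmB ψ B) G :=
  have s : ContMDiff I I' ∞ ψ := fun x => (h.ld x trivial).contMDiffAt
  ⟨cmM_ok s k.ok, (h.connOn (fun a x _ => ha a x) (mapsTo_univ _ _) (IsConn.on k.conn univ)).isConn
    (cmM_ok s k.ok), k.sm.comp s, fun x => k.pos (ψ x), k.z⟩

/-- the pull-back is equivalent to the original configuration -/
theorem FRel.cEq {r : ℕ} (h : FRel G.F G'.F ψ O) (hB : B.OK I') {c : Cfg M' ι lam r}
    (k : c.Adm B G') : CEq G.F (cmC ψ c) c O ψ (fun x b a => B.P b a (ψ x)) (fun x => B.l (ψ x))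
      (fun x => c.m.p (ψ x)) 1 := by
  have k0 := OK.on k.ok univ
  have k1 := (Iso0.refl k0).mEq k0 k0
  have k2 := (par0_iff ((IsConn.on k.conn univ).proj' hB)).1 (IsConn.on k.conn univ).par0_refl
  refine ⟨⟨fun x hx => (h.sm hx (k.ok.sp _)).contMDiffWithinAt, fun x _ => k1.uu _ trivial,
    fun x _ => k1.uu' _ trivial, fun x _ => k1.J _ trivial, fun x _ => k1.ρ _ trivial,
    fun x _ => k1.j _ trivial⟩, fun x hx a => ?_, fun x _ => ?_, by simp⟩
  · rw [h.D hx a (u' := c.m.p) (.of_forall fun _ => rfl)]; exact k2 _ trivial a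
  · rw [Eqv71.p_Φ (Eqv71.ad0 k)]; simp [cs]

/-! ### the pull-back of a frame -/

variable [BorelSpace M] [T2Space M] [SecondCountableTopology M]

theorem cm_fAt (h : IsLocalDiffeomorph I I' ∞ ψ) (F : Fr I' M' ι) (x : M) :
    FAt (fun a => pbv I I' ψ (F.e a)) x := FAt.pbv (h x) ⟨fun a => F.sm a _, pre_sp F.toPre _⟩

theorem cmF_aux (h : IsLocalDiffeomorph I I' ∞ ψ) (F : Fr I' M' ι) :
    FRel (rFr _ (cm_fAt h F)) F ψ univ :=
  ⟨isOpen_univ, fun x _ => h x, fun _ x _ => pbv_rel (h x) _⟩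

/-- the pull-back of a frame, with the Riemannian measure -/
def cmF (h : IsLocalDiffeomorph I I' ∞ ψ) (F : Fr I' M' ι) : Fr I M ι :=
  let F₀ := rFr _ (cm_fAt h F)
  have hP : ∀ a b x, F₀.P a b x = F.P a b (ψ x) := fun a b _ => (cmF_aux h F).P trivial a b
  have hc : ∀ a b l x, F₀.c a b l x = F.c a b l (ψ x) := fun a b l _ =>
    (cmF_aux h F).c trivial a b l
  { toPre := F₀.toPre
    P a b x := F.P a b (ψ x)
    c a b l x := F.c a b l (ψ x)
    dv := F₀.dv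
    P_sm a b := (F.P_sm a b).comp h.contMDiff
    c_sm a b l := (F.c_sm a b l).comp h.contMDiff
    dv_sm := F₀.dv_sm
    P_symm a b x := F.P_symm a b _
    P_e a x := by simp only [← hP]; exact F₀.P_e a x
    P_ker x ξ k a := by simp only [← hP]; exact F₀.P_ker x ξ k a
    c_P a b l x := F.c_P a b l _
    br a b f x hf := by simp only [← hc]; exact F₀.br a b f x hf
    ibp := F₀.ibp }

/-- the pull-back of a metric and a connection of the line -/
def cmG (h : IsLocalDiffeomorph I I' ∞ ψ) (G : Geo I' M' ι lam) : Geo I M ι lam :=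
  ⟨cmF h G.F, fun a x => G.a a (ψ x)⟩

section cmF
variable (h : IsLocalDiffeomorph I I' ∞ ψ) (F : Fr I' M' ι)

theorem cmF_rel : FRel (cmF h F) F ψ univ :=
  ⟨isOpen_univ, fun x _ => h x, fun _ x _ => pbv_rel (h x) _⟩

theorem cmF_vol : (cmF h F).IsVol := rFr_vol _ (cm_fAt h F)

theorem cmF_P (a b : ι) (x : M) : (cmF h F).P a b x = F.P a b (ψ x) := rfl

theorem cmF_c (a b l : ι) (x : M) : (cmF h F).c a b l x = F.c a b l (ψ x) := rfl

theorem cmF_D (a : ι) (u : M' → V) : (cmF h F).D a (fun y => u (ψ y)) = fun y => F.D a u (ψ y) :=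
  funext fun _ => (cmF_rel h F).D trivial a (.of_forall fun _ => rfl)

theorem cmF_Dw (w : List ι) (u : M' → V) :
    (cmF h F).Dw w (fun y => u (ψ y)) = fun y => F.Dw w u (ψ y) :=
  funext fun _ => (cmF_rel h F).Dw trivial w (.of_forall fun _ => rfl)

theorem cmF_Gam (a b k : ι) (x : M) : (cmF h F).Gam a b k x = F.Gam a b k (ψ x) :=
  (cmF_rel h F).Gam trivial a b k

variable {F}

theorem cmF_CB {k : ℕ} {u : M' → V} {C : ℝ} (hu : F.CB k u C) :
    (cmF h F).CB k (fun y => u (ψ y)) C := fun w hw x => by rw [cmF_Dw]; exact hu w hw _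

theorem cmF_CBs {u : M' → V} {C : ℕ → ℝ} (hu : F.CBs u C) : (cmF h F).CBs (fun y => u (ψ y)) C :=
  ⟨hu.1.comp h.contMDiff, fun k => cmF_CB h (hu.2 k)⟩

theorem cmF_Cb {u : M' → V} (hu : F.Cb u) : (cmF h F).Cb fun y => u (ψ y) :=
  hu.imp fun _ => cmF_CBs h

theorem cmG_ok (hG : G'.OK B) : (cmG h G').OK (cmB ψ B) :=
  ⟨by funext a b x; exact congrFun (congrFun (congrFun hG.P a) b) (ψ x), cmF_vol h _,
    ⟨fun a x => (hG.con.sm a _).comp x (h x).contMDiffAt, fun a x => hG.con.proj a (ψ x)⟩,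
    fun a x => hG.sk a (ψ x), fun a x => hG.il a (ψ x), fun a x => by
      rw [FRel.D (F := (cmG h G').F) (cmF_rel h G'.F) trivial a (u' := B.l)
        (.of_forall fun _ => rfl)]
      exact hG.par a (ψ x)⟩

theorem cmM_conn {W : m.Cn} (hm : m.OK I' B) (k : m.IsConn B G' W) :
    (cmM ψ m).IsConn (cmB ψ B) (cmG h G') fun a x => W a (ψ x) :=
  ((cmF_rel h G'.F).connOn (G := cmG h G') (fun _ _ _ => rfl) (mapsTo_univ _ _)
    (IsConn.on k univ)).isConn (cmM_ok h.contMDiff hm)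

theorem cmC_adm {r : ℕ} {c : Cfg M' ι lam r} (k : c.Adm B G') :
    (cmC ψ c).Adm (cmB ψ B) (cmG h G') :=
  (cmF_rel h G'.F).adm (G := cmG h G') (fun _ _ => rfl) k

variable [BorelSpace M'] [T2Space M'] [SecondCountableTopology M']

theorem cmF_dv (hv : F.IsVol) (a : ι) (x : M) : (cmF h F).dv a x = F.dv a (ψ x) :=
  (cmF_rel h F).dv trivial (cmF_vol h F) hv a

end cmF

variable [BorelSpace M'] [T2Space M'] [SecondCountableTopology M']
  {φ : OpenPartialHomeomorph M M'}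

theorem FRel.iso {F : Fr I M ι} {F' : Fr I' M' ι} (h : FRel F F' φ φ.source) (hv : F.IsVol)
    (hv' : F'.IsVol) : Iso F.toPre F'.toPre φ := by
  refine iso_vol hv hv' (fun x hx => (h.ld x hx).contMDiffAt.contMDiffWithinAt) (fun y hy => ?_) h.e
  have hx := φ.map_target hy
  have := Cyl58.contMDiffAt_of_comp (h.ld _ hx) (g := φ.symm) (IC := I)
    (contMDiffAt_id.congr_of_eventuallyEq (φ.eventually_left_inverse hx))
  rw [φ.right_inv hy] at this
  exact this.contMDiffWithinAt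

theorem FRel.congr {F : Fr I M ι} {F' : Fr I' M' ι} (h : FRel F F' ψ O) {χ : M → M'}
    (e : EqOn χ ψ O) : FRel F F' χ O := by
  have ev : ∀ x ∈ O, χ =ᶠ[𝓝 x] ψ := fun x hx => (h.op.eventually_mem hx).mono fun y hy => e hy
  refine ⟨h.op, fun x hx => Cyl58.ld_congr (h.ld x hx) (ev x hx), fun a x hx => ?_⟩
  have key : ∀ z, z = ψ x → (mfderiv I I' ψ x (F.e a x) : E') = F'.e a z := by
    rintro _ rfl; exact h.e a x hx
  rw [(ev x hx).mfderiv_eq]
  exact key _ (e hx)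

/-- literally related backgrounds are locally equivalent -/
theorem FRel.lg {B₀ : Base M ι lam} (h : FRel G.F G'.F ψ O) (hB₀ : B₀.OK I) (hB : B.OK I')
    (hG : G.OK B₀) (hG' : G'.OK B) (ha : ∀ a, ∀ x ∈ O, G.a a x = G'.a a (ψ x))
    (ho : ∀ a b c d, ∀ x ∈ O, B₀.o a b c d x = B.o a b c d (ψ x))
    (hl : ∀ x ∈ O, B₀.l x = B.l (ψ x)) (hi : B₀.il = B.il) :
    Eqv71.LG B₀ G B G' O ψ (fun x b a => B.P b a (ψ x)) fun x => B.l (ψ x) := by
  have hP : ∀ x ∈ O, ∀ a b, B₀.P a b x = B.P a b (ψ x) := fun x hx a b => by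
    rw [← hG.P, ← hG'.P]; exact h.P hx a b
  have g := fun y => Eqv71.BE.refl hB y
  have uu := fun x hx a a' => ((g (ψ x)).UU a a').trans (hP x hx a a').symm
  refine ⟨hB₀, hG, hB, hG', ⟨h.op, fun x hx => (h.ld x hx).contMDiffAt,
    fun b a x hx => h.sm hx (hB.sP b a _), fun b x hx => ?_, fun a a' x hx => uu x hx a a',
    fun b b' x _ => (g _).UU' b b'⟩, fun x hx => ⟨uu x hx, (g _).UU', fun b₁ b₂ b₃ b₄ => ?_,
    (g _).vv.trans (hl x hx).symm, (g _).vv', by rw [hi]; exact (g _).il⟩,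
    fun x hx => h.sm hx (hB.sl _), fun x hx a => ?_⟩
  · simp only [h.e _ x hx, ← hG'.P]
    exact (G'.F.P_e b _).symm
  · simp only [ho _ _ _ _ x hx]; exact (g _).o b₁ b₂ b₃ b₄
  · rw [← sub_eq_zero, ← Pre.D_def, h.D hx a (u' := B.l) (.of_forall fun _ => rfl), ha a x hx,
      add_sub_assoc, ← hG'.par a (ψ x)]
    simp only [Eqv71.pb, (hB.pr _).symm _ a, hG'.con.proj a]
    rfl

/-- literally related backgrounds are equivalent -/
theorem FRel.gEq {B₀ : Base M ι lam} (h : FRel G.F G'.F φ φ.source) (hB₀ : B₀.OK I) (hB : B.OK I')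
    (hG : G.OK B₀) (hG' : G'.OK B) (ha : ∀ a, ∀ x ∈ φ.source, G.a a x = G'.a a (φ x))
    (ho : ∀ a b c d, ∀ x ∈ φ.source, B₀.o a b c d x = B.o a b c d (φ x))
    (hl : ∀ x ∈ φ.source, B₀.l x = B.l (φ x)) (hi : B₀.il = B.il) :
    GEq B₀ G B G' φ (fun x b a => B.P b a (φ x)) fun x => B.l (φ x) := by
  have i := h.iso hG.vol hG'.vol
  have g := h.lg hB₀ hB hG hG' ha ho hl hi
  refine ⟨i.sm, i.sm', fun b a x hx => (g.rot.sU b a x hx).contMDiffWithinAt,
    fun x hx => (g.sv x hx).contMDiffWithinAt, fun x hx => (g.be x hx).UU,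
    fun x hx => (g.be x hx).UU', fun x hx b => ?_, i.μ, fun x hx => (g.be x hx).o,
    fun x hx => (g.be x hx).vv, fun x hx => (g.be x hx).vv', fun x hx => (g.be x hx).il,
    fun x hx a => sub_eq_zero.2 (g.par x hx a)⟩
  rw [g.rot.fr b x hx, map_sum]
  simp only [map_smul]

theorem cm_lg (h : IsLocalDiffeomorph I I' ∞ ψ) (hB : B.OK I') (hG : G'.OK B) :
    Eqv71.LG (cmB ψ B) (cmG h G') B G' univ ψ (fun x b a => B.P b a (ψ x)) fun x => B.l (ψ x) :=
  FRel.lg (G := cmG h G') (cmF_rel h G'.F) (cmB_ok h.contMDiff hB) hB (cmG_ok h hG) hG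
    (fun _ _ _ => rfl) (fun _ _ _ _ _ _ => rfl) (fun _ _ => rfl) rfl

theorem FRel.refl (F : Fr I M ι) (hO : IsOpen O) : FRel F F id O :=
  ⟨hO, fun x _ => Cyl58.ld_id x, fun a x _ => by rw [mfderiv_id]; rfl⟩

/-- a Riemannian frame related to `F'` everywhere is the pull-back -/
theorem FRel.eq_cmF {F : Fr I M ι} {F' : Fr I' M' ι} (h : FRel F F' ψ univ) (hv : F.IsVol) :
    F = cmF (fun x => h.ld x trivial) F' :=
  vol_ext hv (cmF_vol _ _) <| funext fun a => funext fun x => (ld_bij (h.ld x trivial)).1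
    ((h.e a x trivial).trans ((cmF_rel (fun x => h.ld x trivial) F').e a x trivial).symm)

theorem cm_gEq (h : IsLocalDiffeomorph I I' ∞ ψ) (e : EqOn φ ψ φ.source) (hB : B.OK I')
    (hG : G'.OK B) :
    GEq (cmB ψ B) (cmG h G') B G' φ (fun x b a => B.P b a (φ x)) fun x => B.l (φ x) :=
  FRel.gEq (G := cmG h G') (((cmF_rel h G'.F).mono φ.open_source (subset_univ _)).congr e)
    (cmB_ok h.contMDiff hB) hB (cmG_ok h hG) hG (fun a x hx => by rw [e hx]; rfl) (fun a b c d x hx => by rw [e hx])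
    (fun x hx => by rw [e hx]) rfl

/-- the measure of the pull-back along an open embedding -/
theorem cmF_map (h : Cyl58.IsOE I I' ψ) {F : Fr I' M' ι} (hv : F.IsVol) :
    (cmF h.loc F).μ.map ψ = F.μ.restrict (range ψ) := by
  rcases isEmpty_or_nonempty M with hM | hM
  · simp [Measure.eq_zero_of_isEmpty, range_eq_empty]
  · have := (FRel.iso (φ := h.pd.toOpenPartialHomeomorph) (cmF_rel h.loc F) (cmF_vol _ _) hv).μ
    rwa [show h.pd.toOpenPartialHomeomorph.source = univ from rfl, Measure.restrict_univ] at this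

theorem cmF_integral (h : Cyl58.IsOE I I' ψ) {F : Fr I' M' ι} (hv : F.IsVol) (f : M' → V) :
    ∫ x, f (ψ x) ∂(cmF h.loc F).μ = ∫ y in range ψ, f y ∂F.μ := by
  rw [← cmF_map h hv, h.isOpenEmbedding.measurableEmbedding.integral_map]

theorem cmF_setIntegral (h : Cyl58.IsOE I I' ψ) {F : Fr I' M' ι} (hv : F.IsVol) (f : M' → V)
    (S : Set M) :
    ∫ x in S, f (ψ x) ∂(cmF h.loc F).μ = ∫ y in ψ '' S, f y ∂F.μ := by
  have e := h.isOpenEmbedding.measurableEmbedding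
  rw [← Measure.restrict_restrict_of_subset (μ := F.μ) (image_subset_range ψ S), ← cmF_map h hv,
    e.setIntegral_map, preimage_image_eq _ h.inj]

theorem cmM_kap (h : Cyl58.IsOE I I' ψ) {F : Fr I' M' ι} (hv : F.IsVol) (W : m.Cn) :
    (cmM ψ m).kap (cmB ψ B) (cmF h.loc F) (fun a x => W a (ψ x)) =
      ∫ y in range ψ, m.kd B F W y ∂F.μ := by
  rw [← cmF_integral h hv]
  exact integral_congr_ae (.of_forall fun x => (cmF_rel h.loc F).kd trivial W)

/-! ### open subsets -/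

instance (U : TopologicalSpace.Opens M') : BorelSpace U := Subtype.borelSpace (U : Set M')

/-- the restriction of a frame to an open subset -/
abbrev resF (U : TopologicalSpace.Opens M') (F : Fr I' M' ι) : Fr I' U ι :=
  cmF (Cyl58.isOE_val U).loc F

/-- the restriction of a metric to an open subset -/
abbrev resG (U : TopologicalSpace.Opens M') (G : Geo I' M' ι lam) : Geo I' U ι lam :=
  cmG (Cyl58.isOE_val U).loc G

theorem res_ok (U : TopologicalSpace.Opens M') (hB : B.OK I') (hG : G'.OK B) :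
    (cmB (Subtype.val : U → M') B).OK I' ∧ (resG U G').OK (cmB Subtype.val B) :=
  ⟨cmB_ok contMDiff_subtype_val hB, cmG_ok _ hG⟩

end

end Crest.Agent.X212.Pj41
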