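import Mathlib

/-!
# X212 / PROJ (helper41), file Sm: smooth matrix valued functions on a manifold

`MSm I a x` : all entries of `a : M → Matrix κ l 𝕜` are smooth at `x`.  Closure under the matrix
operations, inverse, and the POSITIVE SQUARE ROOT (`MSm.sqrt`).
-/

set_option autoImplicit false
set_option linter.unusedSectionVars false

open Set Function Filter Topology Matrix
open scoped ContDiff Manifold ComplexOrder MatrixOrder Kronecker

namespace Crest.Agent.X212.Pj41

noncomputable section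

variable {𝕜 : Type*} [RCLike 𝕜]
variable {E H : Type*} [NormedAddCommGroup E] [NormedSpace ℝ E] [TopologicalSpace H]
  {I : ModelWithCorners ℝ E H} {M : Type*} [TopologicalSpace M] [ChartedSpace H M]
variable {κ l m n : Type*}

variable (I) in
/-- a scalar function is smooth at `x` -/
abbrev FSm {F : Type*} [NormedAddCommGroup F] [NormedSpace ℝ F] (f : M → F) (x : M) : Prop :=
  ContMDiffAt I 𝓘(ℝ, F) ∞ f x

variable (I) in
/-- a matrix valued function is smooth at `x` -/
def MSm (a : M → Matrix κ l 𝕜) (x : M) : Prop := ∀ i j, FSm I (fun y => a y i j) x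

theorem FSm.mul' {f g : M → 𝕜} {x : M} (hf : FSm I f x) (hg : FSm I g x) :
    FSm I (fun y => f y * g y) x :=
  (contDiff_mul (𝕜 := ℝ) (𝔸 := 𝕜)).contDiffAt.comp_contMDiffAt (hf.prodMk_space hg)

theorem FSm.star' {f : M → 𝕜} {x : M} (hf : FSm I f x) : FSm I (fun y => star (f y)) x :=
  (RCLike.conjCLE (K := 𝕜)).contDiff.contDiffAt.comp_contMDiffAt hf

theorem FSm.ofReal {f : M → ℝ} {x : M} (hf : FSm I f x) : FSm I (fun y => (f y : 𝕜)) x :=
  (RCLike.ofRealCLM (K := 𝕜)).contDiff.contDiffAt.comp_contMDiffAt hf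

theorem FSm.re {f : M → 𝕜} {x : M} (hf : FSm I f x) : FSm I (fun y => RCLike.re (f y)) x :=
  (RCLike.reCLM (K := 𝕜)).contDiff.contDiffAt.comp_contMDiffAt hf

theorem FSm.inv' {f : M → 𝕜} {x : M} (hf : FSm I f x) (h : f x ≠ 0) :
    FSm I (fun y => (f y)⁻¹) x :=
  ((contDiffAt_inv (𝕜 := ℝ) (𝕜' := 𝕜) h (n := ∞))).comp_contMDiffAt hf

theorem FSm.sum' {F : Type*} [NormedAddCommGroup F] [NormedSpace ℝ F] {ι : Type*} {s : Finset ι}
    {f : ι → M → F} {x : M} (hf : ∀ i ∈ s, FSm I (f i) x) : FSm I (fun y => ∑ i ∈ s, f i y) x := by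
  classical
  induction s using Finset.induction_on with
  | empty => simpa using contMDiffAt_const
  | insert i s hi ih =>
    simp only [Finset.sum_insert hi]
    exact (hf i (Finset.mem_insert_self _ _)).add
      (ih fun j hj => hf j (Finset.mem_insert_of_mem hj))

theorem FSm.prod' {ι : Type*} {s : Finset ι} {f : ι → M → 𝕜} {x : M}
    (hf : ∀ i ∈ s, FSm I (f i) x) : FSm I (fun y => ∏ i ∈ s, f i y) x := by
  classical
  induction s using Finset.induction_on with
  | empty => simpa using contMDiffAt_const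
  | insert i s hi ih =>
    simp only [Finset.prod_insert hi]
    exact FSm.mul' (hf i (Finset.mem_insert_self _ _))
      (ih fun j hj => hf j (Finset.mem_insert_of_mem hj))

namespace MSm

variable {x : M}

theorem const (a : Matrix κ l 𝕜) : MSm I (fun _ : M => a) x := fun _ _ => contMDiffAt_const

theorem congr {a b : M → Matrix κ l 𝕜} (ha : MSm I a x) (h : b =ᶠ[𝓝 x] a) : MSm I b x :=
  fun i j => (ha i j).congr_of_eventuallyEq (h.mono fun _ hy => by simp only [hy])

theorem add {a b : M → Matrix κ l 𝕜} (ha : MSm I a x) (hb : MSm I b x) :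
    MSm I (fun y => a y + b y) x := fun i j => (ha i j).add (hb i j)

theorem neg {a : M → Matrix κ l 𝕜} (ha : MSm I a x) : MSm I (fun y => - a y) x :=
  fun i j => (ha i j).neg

theorem sub {a b : M → Matrix κ l 𝕜} (ha : MSm I a x) (hb : MSm I b x) :
    MSm I (fun y => a y - b y) x := fun i j => (ha i j).sub (hb i j)

theorem smul {f : M → 𝕜} {a : M → Matrix κ l 𝕜} (hf : FSm I f x) (ha : MSm I a x) :
    MSm I (fun y => f y • a y) x := fun i j => FSm.mul' hf (ha i j)

theorem rsmul {f : M → ℝ} {a : M → Matrix κ l 𝕜} (hf : FSm I f x) (ha : MSm I a x) :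
    MSm I (fun y => f y • a y) x := fun i j => ContMDiffAt.smul hf (ha i j)

theorem mul [Fintype l] {a : M → Matrix κ l 𝕜} {b : M → Matrix l m 𝕜} (ha : MSm I a x)
    (hb : MSm I b x) : MSm I (fun y => a y * b y) x := fun i j => by
  simp only [Matrix.mul_apply]
  exact FSm.sum' fun k _ => FSm.mul' (ha i k) (hb k j)

theorem ct {a : M → Matrix κ l 𝕜} (ha : MSm I a x) : MSm I (fun y => (a y)ᴴ) x :=
  fun i j => FSm.star' (ha j i)

theorem transpose {a : M → Matrix κ l 𝕜} (ha : MSm I a x) : MSm I (fun y => (a y)ᵀ) x :=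
  fun i j => ha j i

theorem conj {a : M → Matrix κ l 𝕜} (ha : MSm I a x) : MSm I (fun y => (a y).map star) x :=
  fun i j => FSm.star' (ha i j)

theorem submatrix {a : M → Matrix κ l 𝕜} (ha : MSm I a x) (r : m → κ) (c : n → l) :
    MSm I (fun y => (a y).submatrix r c) x := fun i j => ha (r i) (c j)

theorem sum {ι : Type*} {s : Finset ι} {a : ι → M → Matrix κ l 𝕜} (ha : ∀ i ∈ s, MSm I (a i) x) :
    MSm I (fun y => ∑ i ∈ s, a i y) x := fun i j => by
  simp only [Matrix.sum_apply]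
  exact FSm.sum' fun k hk => ha k hk i j

theorem fromBlocks {a : M → Matrix κ m 𝕜} {b : M → Matrix κ n 𝕜} {c : M → Matrix l m 𝕜}
    {d : M → Matrix l n 𝕜} (ha : MSm I a x) (hb : MSm I b x) (hc : MSm I c x) (hd : MSm I d x) :
    MSm I (fun y => Matrix.fromBlocks (a y) (b y) (c y) (d y)) x := by
  rintro (i | i) (j | j)
  exacts [ha i j, hb i j, hc i j, hd i j]

theorem fromRows {a : M → Matrix κ m 𝕜} {c : M → Matrix l m 𝕜} (ha : MSm I a x) (hc : MSm I c x) :
    MSm I (fun y => Matrix.fromRows (a y) (c y)) x := by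
  rintro (i | i) j
  exacts [ha i j, hc i j]

theorem fromCols {a : M → Matrix κ m 𝕜} {b : M → Matrix κ n 𝕜} (ha : MSm I a x) (hb : MSm I b x) :
    MSm I (fun y => Matrix.fromCols (a y) (b y)) x := by
  rintro i (j | j)
  exacts [ha i j, hb i j]

theorem kron {a : M → Matrix κ l 𝕜} {b : M → Matrix m n 𝕜} (ha : MSm I a x) (hb : MSm I b x) :
    MSm I (fun y => a y ⊗ₖ b y) x := fun i j => FSm.mul' (ha i.1 j.1) (hb i.2 j.2)

theorem trace [Fintype κ] {a : M → Matrix κ κ 𝕜} (ha : MSm I a x) :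
    FSm I (fun y => (a y).trace) x := FSm.sum' fun k _ => ha k k

theorem det [Fintype κ] [DecidableEq κ] {a : M → Matrix κ κ 𝕜} (ha : MSm I a x) :
    FSm I (fun y => (a y).det) x := by
  simp only [Matrix.det_apply']
  exact FSm.sum' fun σ _ => FSm.mul' contMDiffAt_const (FSm.prod' fun i _ => ha _ _)

theorem adjugate [Fintype κ] [DecidableEq κ] {a : M → Matrix κ κ 𝕜} (ha : MSm I a x) :
    MSm I (fun y => (a y).adjugate) x := fun i j => by
  simp only [Matrix.adjugate_apply]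
  refine det (a := fun y => (a y).updateRow j (Pi.single i 1)) fun i' j' => ?_
  by_cases h : i' = j
  · subst h; simp only [Matrix.updateRow_self]; exact contMDiffAt_const
  · simp only [Matrix.updateRow_ne h]; exact ha i' j'

theorem inv [Fintype κ] [DecidableEq κ] {a : M → Matrix κ κ 𝕜} (ha : MSm I a x)
    (h : (a x).det ≠ 0) : MSm I (fun y => (a y)⁻¹) x := by
  simp only [Matrix.inv_def, Ring.inverse_eq_inv']
  exact smul (FSm.inv' ha.det h) ha.adjugate

theorem mulVec [Fintype l] {a : M → Matrix κ l 𝕜} {v : M → l → 𝕜} (ha : MSm I a x)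
    (hv : ∀ j, FSm I (fun y => v y j) x) (i : κ) : FSm I (fun y => (a y *ᵥ v y) i) x := by
  simp only [Matrix.mulVec, dotProduct]
  exact FSm.sum' fun k _ => FSm.mul' (ha i k) (hv k)

theorem comp {E' H' : Type*} [NormedAddCommGroup E'] [NormedSpace ℝ E'] [TopologicalSpace H']
    {I' : ModelWithCorners ℝ E' H'} {M' : Type*} [TopologicalSpace M'] [ChartedSpace H' M']
    {a : M → Matrix κ l 𝕜} {f : M' → M} {z : M'} (ha : MSm I a (f z))
    (hf : ContMDiffAt I' I ∞ f z) : MSm I' (fun y => a (f y)) z :=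
  fun i j => ContMDiffAt.comp z (g := fun y => a y i j) (ha i j) hf

theorem continuousAt {a : M → Matrix κ l 𝕜} (ha : MSm I a x) : ContinuousAt a x :=
  continuousAt_pi.2 fun i => continuousAt_pi.2 fun j => (ha i j).continuousAt

theorem iff_pi [Fintype κ] [Fintype l] {a : M → Matrix κ l 𝕜} :
    MSm I a x ↔ FSm I (F := κ → l → 𝕜) (fun y i j => a y i j) x := by
  simp only [MSm, FSm, contMDiffAt_pi_space]

/-- a cut-off times a locally smooth matrix function -/
theorem cutoff {χ : M → ℝ} {a : M → Matrix κ l 𝕜} {U : Set M} (hχ : FSm I χ x)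
    (hU : tsupport χ ⊆ U) (ha : x ∈ U → MSm I a x) : MSm I (fun y => χ y • a y) x := by
  by_cases hx : x ∈ tsupport χ
  · exact rsmul hχ (ha (hU hx))
  · refine (const (0 : Matrix κ l 𝕜)).congr ?_
    filter_upwards [notMem_tsupport_iff_eventuallyEq.1 hx] with y hy
    simp [hy]

end MSm

/-! ### the positive square root -/

section Sqrt

variable [Fintype κ] [DecidableEq κ]

theorem posDef_eventually {X : Type*} [TopologicalSpace X] {a : X → Matrix κ κ 𝕜} {x : X}
    (ha : ContinuousAt a x) (hx : (a x).PosDef) :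
    ∀ᶠ y in 𝓝 x, (a y).IsHermitian → (a y).PosDef := by
  have hK : IsCompact (Metric.sphere (0 : κ → 𝕜) 1) := isCompact_sphere _ _
  have h1 : ∀ᶠ y in 𝓝 x, ∀ v ∈ Metric.sphere (0 : κ → 𝕜) 1,
      0 < RCLike.re (star v ⬝ᵥ (a y *ᵥ v)) := by
    refine hK.eventually_forall_of_forall_eventually fun v hv => ?_
    have hv0 : v ≠ 0 := by
      rintro rfl
      simp at hv
    have hc : ContinuousAt (fun z : X × (κ → 𝕜) => RCLike.re (star z.2 ⬝ᵥ (a z.1 *ᵥ z.2))) (x, v) := by
      have ha' : ContinuousAt (fun z : X × (κ → 𝕜) => a z.1) (x, v) :=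
        ContinuousAt.comp (g := a) (f := Prod.fst) ha continuousAt_fst
      have hF : Continuous (fun z : Matrix κ κ 𝕜 × (κ → 𝕜) =>
          RCLike.re (star z.2 ⬝ᵥ (z.1 *ᵥ z.2))) :=
        RCLike.continuous_re.comp (Continuous.dotProduct (continuous_star.comp continuous_snd)
          (continuous_fst.matrix_mulVec continuous_snd))
      exact hF.continuousAt.comp (ha'.prodMk continuousAt_snd)
    exact hc.eventually (lt_mem_nhds (hx.re_dotProduct_pos hv0))
  filter_upwards [h1] with y hy hh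
  refine Matrix.PosDef.of_dotProduct_mulVec_pos hh fun v hv => ?_
  have hn : ‖v‖ ≠ 0 := norm_ne_zero_iff.2 hv
  have h2 := hy ((‖v‖⁻¹ : ℝ) • v) (by simp [norm_smul, hn])
  have h3 : star ((‖v‖⁻¹ : ℝ) • v) ⬝ᵥ (a y *ᵥ ((‖v‖⁻¹ : ℝ) • v)) =
      (‖v‖⁻¹ * ‖v‖⁻¹ : ℝ) • (star v ⬝ᵥ (a y *ᵥ v)) := by
    rw [star_smul, Matrix.mulVec_smul, smul_dotProduct, dotProduct_smul, smul_smul]
    simp
  rw [h3, RCLike.smul_re] at h2
  have h4 : 0 < RCLike.re (star v ⬝ᵥ (a y *ᵥ v)) :=
    (mul_pos_iff_of_pos_left (by positivity)).1 h2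
  rw [RCLike.pos_iff]
  exact ⟨h4, hh.im_star_dotProduct_mulVec_self v⟩

theorem sylvester_inj {S X : Matrix κ κ 𝕜} (hS : S.PosDef) (h : S * X + X * S = 0) : X = 0 := by
  have h1 : (Xᴴ * S * X).PosSemidef := hS.posSemidef.conjTranspose_mul_mul_same X
  have h2 : (X * S * Xᴴ).PosSemidef := hS.posSemidef.mul_mul_conjTranspose_same X
  have h3 : (Xᴴ * S * X).trace + (X * S * Xᴴ).trace = 0 := by
    have : (Xᴴ * (S * X + X * S)).trace = 0 := by rw [h]; simp
    rw [Matrix.mul_add, Matrix.trace_add, ← Matrix.mul_assoc, Matrix.trace_mul_comm Xᴴ (X * S)] at this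
    exact this
  have h4 : (Xᴴ * S * X).trace = 0 :=
    le_antisymm (by rw [eq_neg_of_add_eq_zero_left h3]; exact neg_nonpos.2 h2.trace_nonneg)
      h1.trace_nonneg
  have h5 : Xᴴ * S * X = 0 := h1.trace_eq_zero_iff.1 h4
  ext i j
  by_contra hij
  have hv : (fun k => X k j) ≠ 0 := fun h0 => hij (congrFun h0 i)
  have h6 := hS.dotProduct_mulVec_pos hv
  have h7 : star (fun k => X k j) ⬝ᵥ (S *ᵥ fun k => X k j) = (Xᴴ * S * X) j j := by
    rw [Matrix.mul_assoc]
    simp [Matrix.mul_apply, dotProduct, Matrix.mulVec]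
  rw [h7, h5] at h6
  exact lt_irrefl _ h6

attribute [local instance] Matrix.linftyOpNormedRing Matrix.linftyOpNormedAlgebra

/-- a smooth local inverse of squaring near a positive definite matrix -/
theorem exists_local_sqrt {S : Matrix κ κ 𝕜} (hS : S.PosDef) :
    ∃ g : Matrix κ κ 𝕜 → Matrix κ κ 𝕜, ContDiffAt ℝ ∞ g (S * S) ∧
      ∀ᶠ B in 𝓝 (S * S), B.IsHermitian → g B = CFC.sqrt B := by
  let L : Matrix κ κ 𝕜 →ₗ[ℝ] Matrix κ κ 𝕜 := LinearMap.mulLeft ℝ S + LinearMap.mulRight ℝ S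
  have hLi : Function.Injective L := by
    rw [← LinearMap.ker_eq_bot, LinearMap.ker_eq_bot']
    intro X hX
    exact sylvester_inj hS hX
  let Le : Matrix κ κ 𝕜 ≃L[ℝ] Matrix κ κ 𝕜 :=
    (LinearEquiv.ofInjectiveEndo L hLi).toContinuousLinearEquiv
  have hf : ContDiff ℝ ∞ (fun X : Matrix κ κ 𝕜 => X * X) := contDiff_id.mul contDiff_id
  have hd : HasFDerivAt (fun X : Matrix κ κ 𝕜 => X * X) (Le : Matrix κ κ 𝕜 →L[ℝ] Matrix κ κ 𝕜) S := by
    have := (hasFDerivAt_id (𝕜 := ℝ) S).mul' (hasFDerivAt_id S)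
    refine this.congr_fderiv ?_
    ext X : 1
    rfl
  have h1 : (∞ : WithTop ℕ∞) ≠ 0 := by simp
  let Φ := hf.contDiffAt.toOpenPartialHomeomorph _ hd h1
  have hΦ : ∀ X, Φ X = X * X := fun X => rfl
  have hSs : S ∈ Φ.source := hf.contDiffAt.mem_toOpenPartialHomeomorph_source hd h1
  have hSt : S * S ∈ Φ.target := Φ.map_source hSs
  have hgS : Φ.symm (S * S) = S := Φ.left_inv hSs
  have hg : ContDiffAt ℝ ∞ Φ.symm (S * S) := by
    refine Φ.contDiffAt_symm (f₀' := Le) hSt ?_ ?_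
    · rw [hgS]; exact hd
    · exact hf.contDiffAt
  refine ⟨Φ.symm, hg, ?_⟩
  have hc : ContinuousAt Φ.symm (S * S) := hg.continuousAt
  have e1 := posDef_eventually hc (by rw [hgS]; exact hS)
  have e2 : ∀ᶠ B in 𝓝 (S * S), (Φ.symm B)ᴴ ∈ Φ.source := by
    have : ContinuousAt (fun B => (Φ.symm B)ᴴ) (S * S) :=
      (continuous_id.matrix_conjTranspose (A := fun X : Matrix κ κ 𝕜 => X)).continuousAt.comp hc
    refine this.eventually (Φ.open_source.mem_nhds ?_)
    show (Φ.symm (S * S))ᴴ ∈ _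
    rw [hgS, hS.isHermitian.eq]; exact hSs
  filter_upwards [e1, e2, Φ.open_target.mem_nhds hSt] with B h1 h2 h3 hB
  have hsq : Φ.symm B * Φ.symm B = B := Φ.right_inv h3
  have hh : (Φ.symm B).IsHermitian := by
    refine Φ.injOn h2 (Φ.map_target h3) ?_
    rw [hΦ, hΦ, ← Matrix.conjTranspose_mul, hsq, hB.eq]
  exact (CFC.sqrt_unique hsq (h1 hh).posSemidef.nonneg).symm

theorem posDef_sqrt {A : Matrix κ κ 𝕜} (hA : A.PosDef) : (CFC.sqrt A).PosDef := by
  refine (Matrix.PosSemidef.posDef_iff_isUnit (CFC.sqrt_nonneg A).posSemidef).2 ?_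
  have h := hA.isUnit
  rw [← CFC.sqrt_mul_sqrt_self A hA.posSemidef.nonneg] at h
  exact isUnit_of_mul_isUnit_left h

/-- **the positive square root of a smooth hermitian matrix function is smooth** at a point where
the matrix is positive definite -/
theorem MSm.sqrt {a : M → Matrix κ κ 𝕜} {x : M} (ha : MSm I a x) (hx : (a x).PosDef)
    (hh : ∀ᶠ y in 𝓝 x, (a y).IsHermitian) : MSm I (fun y => CFC.sqrt (a y)) x := by
  obtain ⟨g, hg, he⟩ := exists_local_sqrt (posDef_sqrt hx)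
  rw [CFC.sqrt_mul_sqrt_self _ hx.posSemidef.nonneg] at hg he
  let e : (κ → κ → 𝕜) ≃L[ℝ] Matrix κ κ 𝕜 :=
    (Matrix.ofLinearEquiv ℝ : (κ → κ → 𝕜) ≃ₗ[ℝ] Matrix κ κ 𝕜).toContinuousLinearEquiv
  have h1 : FSm I a x := e.contDiff.contDiffAt.comp_contMDiffAt (MSm.iff_pi.1 ha)
  have h2 : FSm I (fun y => g (a y)) x := hg.comp_contMDiffAt h1
  have h3 : MSm I (fun y => g (a y)) x :=
    MSm.iff_pi.2 (e.symm.contDiff.contDiffAt.comp_contMDiffAt h2)
  refine h3.congr ?_
  filter_upwards [ha.continuousAt.eventually he, hh] with y h1 h2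
  exact (h1 h2).symm

end Sqrt

end

end Crest.Agent.X212.Pj41
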