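import Crest.Agent.X212.Pj41.Psh
import Crest.Agent.X212.An.Gauge

/-!
# X212 / MDG (helper41): local modules, push forward and gluing of modules and connections

`OKOn`, `ConnOn`, `Iso0`, `Par0` are the versions of `Md.OK`, `Md.IsConn`, `MEq`, `Par` over an open
set `O` (and over the identity of the background).  `md_glue`, `conn_glue`, `cfg_glue`.
-/

set_option autoImplicit false
set_option linter.unusedSectionVars false

open Set Function Filter Topology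
open scoped ContDiff Manifold InnerProductSpace

namespace Crest.Agent.X212.Pj41

open An Sob92
open Wz78 (Cl)

noncomputable section

variable {E : Type} [NormedAddCommGroup E] [NormedSpace ℝ E] [FiniteDimensional ℝ E]
  [MeasurableSpace E] [BorelSpace E]
  {HM : Type} [TopologicalSpace HM] {I : ModelWithCorners ℝ E HM}
  {M : Type} [TopologicalSpace M] [ChartedSpace HM M] [IsManifold I ∞ M]
  [MeasurableSpace M] {ι : Type} [Fintype ι] {lam : Type} [Fintype lam]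

section cj

variable {V W : Type} [NormedAddCommGroup V] [InnerProductSpace ℝ V] [FiniteDimensional ℝ V]
  [NormedAddCommGroup W] [InnerProductSpace ℝ W] [FiniteDimensional ℝ W]

/-- conjugation `r ↦ a r a*` -/
def cjL (a : CL V W) : CL (CL V V) (CL W W) :=
  ContinuousLinearMap.compL ℝ W V W a ∘L (ContinuousLinearMap.compL ℝ W V V).flip (ad a)

theorem cjL_apply (a : CL V W) (r : CL V V) : cjL a r = a ∘L r ∘L ad a := rfl

theorem FSm.cjL {a : M → CL V W} {x : M} (h : FSm I a x) : FSm I (fun y => cjL (a y)) x := by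
  let L : CL (CL W V) (CL (CL V V) (CL W V)) := (ContinuousLinearMap.compL ℝ W V V).flip
  have h1 : FSm I (fun y => L (Pj41.ad (a y))) x := L.contDiff.contDiffAt.comp_contMDiffAt h.ad
  let L' : CL (CL V W) (CL (CL W V) (CL W W)) := ContinuousLinearMap.compL ℝ W V W
  have h2 : FSm I (fun y => L' (a y)) x := L'.contDiff.contDiffAt.comp_contMDiffAt h
  exact ContMDiffAt.clm_comp h2 h1

theorem FSm.cjj {L : Type} [NormedAddCommGroup L] [NormedSpace ℝ L] {a : M → CL V W}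
    {j : M → CL L (CL V V)} {x : M} (h : FSm I a x) (hj : FSm I j x) :
    FSm I (fun y => (Pj41.cjL (a y) ∘L j y : CL L (CL W W))) x := ContMDiffAt.clm_comp h.cjL hj

end cj

theorem ad_trn {κ κ' : Type} [Fintype κ] [Fintype κ'] (u : CL (Eu κ) (Eu κ')) : ad u = trn u :=
  ad_eq_adjoint u

variable (I) in
/-- a module over the set `O` -/
structure OKOn (B : Base M ι lam) (m : Md M ι lam) (O : Set M) : Prop where
  Jsq : m.J * m.J = -1
  Jsk : Skw m.J
  sp : ∀ x ∈ O, FSm I m.p x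
  sρ : ∀ a, ∀ x ∈ O, FSm I (m.ρ a) x
  sj : ∀ x ∈ O, FSm I m.j x
  psym : ∀ x ∈ O, Sym (m.p x)
  pidem : ∀ x ∈ O, m.p x * m.p x = m.p x
  prk : ∀ x ∈ O, LinearMap.trace ℝ _ (m.p x : m.V →ₗ[ℝ] m.V) = 16
  Jp : ∀ x ∈ O, m.J * m.p x = m.p x * m.J
  cl : ∀ x ∈ O, Cl (fun a b => B.P a b x) (m.p x) fun a => m.ρ a x
  ρsk : ∀ a, ∀ x ∈ O, Skw (m.ρ a x)
  Jρ : ∀ a, ∀ x ∈ O, m.J * m.ρ a x = m.ρ a x * m.J
  jsym : ∀ x ∈ O, ∀ s, Sym (m.j x s)
  jJ : ∀ x ∈ O, ∀ s, m.j x s * m.J = -(m.J * m.j x s)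
  jil : ∀ x ∈ O, ∀ s, m.j x (B.il s) = m.J * m.j x s
  jl : ∀ x ∈ O, ∀ s, m.j x (B.l x s) = m.j x s
  jsq : ∀ x ∈ O, ∀ s, m.j x s * m.j x s = ‖B.l x s‖ ^ 2 • m.p x
  pj : ∀ x ∈ O, ∀ s, m.p x * m.j x s = m.j x s
  jρ : ∀ a, ∀ x ∈ O, ∀ s, m.j x s * m.ρ a x = m.ρ a x * m.j x s

/-- an admissible connection over the set `O` -/
structure ConnOn (B : Base M ι lam) (G : Geo I M ι lam) (m : Md M ι lam) (W : m.Cn) (O : Set M) :
    Prop where
  sm : ∀ a, ∀ x ∈ O, FSm I (W a) x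
  proj : ∀ a, ∀ x ∈ O, ∑ b, B.P a b x • W b x = W a x
  par : ∀ a, ∀ x ∈ O, G.F.D a m.p x + (W a x * m.p x - m.p x * W a x) = 0
  comp : ∀ a b, ∀ x ∈ O, G.F.D a (m.ρ b) x + (W a x * m.ρ b x - m.ρ b x * W a x) =
    ∑ k, G.F.Gam a b k x • m.ρ k x
  sk : ∀ a, ∀ x ∈ O, Skw (W a x)
  J : ∀ a, ∀ x ∈ O, m.J * W a x = W a x * m.J
  j : ∀ a, ∀ x ∈ O, ∀ s,
    G.F.D a m.j x s + (W a x * m.j x s - m.j x s * W a x) = m.j x (G.a a x s)

variable (I) in
/-- an isomorphism of modules over `O` -/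
structure Iso0 (m m' : Md M ι lam) (O : Set M) (u : M → CL m.V m'.V) : Prop where
  su : ∀ x ∈ O, FSm I u x
  iso : ∀ x ∈ O, CIso (u x) (m.p x) (m'.p x)
  J : ∀ x ∈ O, m'.J ∘L u x = u x ∘L m.J
  ρ : ∀ x ∈ O, ∀ b, m'.ρ b x ∘L u x = u x ∘L m.ρ b x
  j : ∀ x ∈ O, ∀ s, m'.j x s ∘L u x = u x ∘L m.j x s

/-- `u` is parallel over `O` -/
def Par0 (F : Fr I M ι) {m m' : Md M ι lam} (W : m.Cn) (W' : m'.Cn) (O : Set M)
    (u : M → CL m.V m'.V) : Prop :=
  ∀ x ∈ O, ∀ a, F.D a u x + W' a x ∘L u x - u x ∘L W a x = 0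

variable {B : Base M ι lam} {G : Geo I M ι lam} {m m' m'' : Md M ι lam} {O O' : Set M}

theorem okOn_univ : OKOn I B m univ ↔ m.OK I B :=
  ⟨fun h => ⟨h.Jsq, h.Jsk, fun x => h.sp x trivial, fun a x => h.sρ a x trivial,
      fun x => h.sj x trivial, fun x => h.psym x trivial, fun x => h.pidem x trivial,
      fun x => h.prk x trivial, fun x => h.Jp x trivial, fun x => h.cl x trivial,
      fun a x => h.ρsk a x trivial, fun a x => h.Jρ a x trivial, fun x => h.jsym x trivial,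
      fun x => h.jJ x trivial, fun x => h.jil x trivial, fun x => h.jl x trivial,
      fun x => h.jsq x trivial, fun x => h.pj x trivial, fun a x => h.jρ a x trivial⟩,
   fun h => ⟨h.Jsq, h.Jsk, fun x _ => h.sp x, fun a x _ => h.sρ a x, fun x _ => h.sj x,
      fun x _ => h.psym x, fun x _ => h.pidem x, fun x _ => h.prk x, fun x _ => h.Jp x,
      fun x _ => h.cl x, fun a x _ => h.ρsk a x, fun a x _ => h.Jρ a x, fun x _ => h.jsym x,
      fun x _ => h.jJ x, fun x _ => h.jil x, fun x _ => h.jl x, fun x _ => h.jsq x,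
      fun x _ => h.pj x, fun a x _ => h.jρ a x⟩⟩

/-- locality and monotonicity -/
theorem OKOn.of_local (h1 : m.J * m.J = -1) (h2 : Skw m.J)
    (h : ∀ x ∈ O, ∃ O', x ∈ O' ∧ OKOn I B m O') : OKOn I B m O := by
  choose! o ho h using h
  exact ⟨h1, h2, fun x hx => (h x hx).sp x (ho x hx), fun a x hx => (h x hx).sρ a x (ho x hx),
    fun x hx => (h x hx).sj x (ho x hx), fun x hx => (h x hx).psym x (ho x hx),
    fun x hx => (h x hx).pidem x (ho x hx), fun x hx => (h x hx).prk x (ho x hx),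
    fun x hx => (h x hx).Jp x (ho x hx), fun x hx => (h x hx).cl x (ho x hx),
    fun a x hx => (h x hx).ρsk a x (ho x hx), fun a x hx => (h x hx).Jρ a x (ho x hx),
    fun x hx => (h x hx).jsym x (ho x hx), fun x hx => (h x hx).jJ x (ho x hx),
    fun x hx => (h x hx).jil x (ho x hx), fun x hx => (h x hx).jl x (ho x hx),
    fun x hx => (h x hx).jsq x (ho x hx), fun x hx => (h x hx).pj x (ho x hx),
    fun a x hx => (h x hx).jρ a x (ho x hx)⟩

theorem OKOn.mono (h : OKOn I B m O) (hO : O' ⊆ O) : OKOn I B m O' :=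
  OKOn.of_local h.Jsq h.Jsk fun _ hx => ⟨O, hO hx, h⟩

theorem OK.on (h : m.OK I B) (O : Set M) : OKOn I B m O := (okOn_univ.2 h).mono (subset_univ _)

theorem OKOn.prj (h : OKOn I B m O) {x : M} (hx : x ∈ O) : CPrj (m.p x) :=
  ⟨ad_symm.2 (h.psym x hx), h.pidem x hx⟩

theorem OKOn.jp (h : OKOn I B m O) {x : M} (hx : x ∈ O) (s : Eu lam) :
    m.j x s * m.p x = m.j x s := by
  have := congrArg ad (h.pj x hx s)
  rwa [ContinuousLinearMap.mul_def, ad_comp, ad_symm.2 (h.jsym x hx s), (h.prj hx).herm] at this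

theorem ConnOn.of_local {W : m.Cn} (h : ∀ x ∈ O, ∃ O', x ∈ O' ∧ ConnOn B G m W O') :
    ConnOn B G m W O := by
  choose! o ho h using h
  exact ⟨fun a x hx => (h x hx).sm a x (ho x hx), fun a x hx => (h x hx).proj a x (ho x hx),
    fun a x hx => (h x hx).par a x (ho x hx), fun a b x hx => (h x hx).comp a b x (ho x hx),
    fun a x hx => (h x hx).sk a x (ho x hx), fun a x hx => (h x hx).J a x (ho x hx),
    fun a x hx => (h x hx).j a x (ho x hx)⟩

theorem ConnOn.mono {W : m.Cn} (h : ConnOn B G m W O) (hO : O' ⊆ O) : ConnOn B G m W O' :=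
  ConnOn.of_local fun _ hx => ⟨O, hO hx, h⟩

theorem ConnOn.isConn {W : m.Cn} (h : ConnOn B G m W univ) (hm : m.OK I B) : m.IsConn B G W :=
  ⟨⟨⟨fun a x => h.sm a x trivial, fun a x => h.proj a x trivial⟩, fun x => hm.sp x,
    fun a x => hm.sρ a x, hm.cl, fun a x => h.par a x trivial, fun a b x => h.comp a b x trivial⟩,
    fun a x => h.sk a x trivial, fun a x => h.J a x trivial, fun a x => h.j a x trivial⟩

theorem IsConn.on {W : m.Cn} (h : m.IsConn B G W) (O : Set M) : ConnOn B G m W O :=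
  ⟨fun a x _ => h.cc.sm a x, fun a x _ => h.cc.proj a x, fun a x _ => h.cc.par a x,
    fun a b x _ => h.cc.comp a b x, fun a x _ => h.sk a x, fun a x _ => h.J a x,
    fun a x _ => h.j a x⟩

/-- a connection is determined by its germs -/
theorem ConnOn.congr {W W' : m.Cn} (h : ConnOn B G m W O) (hO : IsOpen O)
    (e : ∀ a, ∀ x ∈ O, W' a x = W a x) : ConnOn B G m W' O :=
  ⟨fun a x hx => (h.sm a x hx).congr_of_eventuallyEq
      ((hO.eventually_mem hx).mono fun y hy => e a y hy),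
    fun a x hx => by simp only [e _ x hx, h.proj a x hx],
    fun a x hx => by rw [e a x hx, h.par a x hx], fun a b x hx => by rw [e a x hx, h.comp a b x hx],
    fun a x hx => by rw [e a x hx]; exact h.sk a x hx, fun a x hx => by rw [e a x hx, h.J a x hx],
    fun a x hx s => by rw [e a x hx, h.j a x hx]⟩

namespace Iso0

variable {u : M → CL m.V m'.V}

theorem mono (h : Iso0 I m m' O u) (hO : O' ⊆ O) : Iso0 I m m' O' u :=
  ⟨fun x hx => h.su x (hO hx), fun x hx => h.iso x (hO hx), fun x hx => h.J x (hO hx),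
    fun x hx => h.ρ x (hO hx), fun x hx => h.j x (hO hx)⟩

theorem refl (h : OKOn I B m O) : Iso0 I m m O m.p :=
  ⟨h.sp, fun _ hx => (h.prj hx).refl, h.Jp,
    fun x hx b => ((h.cl x hx).pr b).trans ((h.cl x hx).pl b).symm,
    fun x hx s => (h.jp hx s).trans (h.pj x hx s).symm⟩

theorem trans {v : M → CL m'.V m''.V} (h : Iso0 I m m' O u) (h' : Iso0 I m' m'' O v) :
    Iso0 I m m'' O fun x => v x ∘L u x :=
  ⟨fun x hx => (h'.su x hx).cc (h.su x hx), fun x hx => (h.iso x hx).trans (h'.iso x hx),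
    fun x hx => by
      rw [← ContinuousLinearMap.comp_assoc, h'.J x hx, ContinuousLinearMap.comp_assoc, h.J x hx,
        ContinuousLinearMap.comp_assoc],
    fun x hx b => by
      rw [← ContinuousLinearMap.comp_assoc, h'.ρ x hx, ContinuousLinearMap.comp_assoc, h.ρ x hx,
        ContinuousLinearMap.comp_assoc],
    fun x hx b => by
      rw [← ContinuousLinearMap.comp_assoc, h'.j x hx, ContinuousLinearMap.comp_assoc, h.j x hx,
        ContinuousLinearMap.comp_assoc]⟩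

theorem symm (h : Iso0 I m m' O u) (hm : OKOn I B m O) (hm' : OKOn I B m' O) :
    Iso0 I m' m O fun x => ad (u x) :=
  ⟨fun x hx => (h.su x hx).ad, fun x hx => (h.iso x hx).symm,
    fun x hx => ad_itw_skew (ad_skew.2 hm.Jsk) (ad_skew.2 hm'.Jsk) (h.J x hx),
    fun x hx b => ad_itw_skew (ad_skew.2 (hm.ρsk b x hx)) (ad_skew.2 (hm'.ρsk b x hx)) (h.ρ x hx b),
    fun x hx s => ad_itw_symm (ad_symm.2 (hm.jsym x hx s)) (ad_symm.2 (hm'.jsym x hx s))
      (h.j x hx s)⟩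

theorem mEq (h : Iso0 I m m' O u) (hm : OKOn I B m O) (hm' : OKOn I B m' O) :
    MEq I m m' O id (fun x b a => B.P b a x) B.l u :=
  ⟨fun x hx => (h.su x hx).contMDiffWithinAt, fun x hx => by rw [← ad_trn]; exact (h.iso x hx).src,
    fun x hx => by rw [← ad_trn]; exact (h.iso x hx).tgt, fun x hx => (h.J x hx).symm,
    fun x hx b => by rw [(hm.cl x hx).proj b]; exact h.ρ x hx b,
    fun x hx s => by rw [id, hm'.jl x hx]; exact h.j x hx s⟩

theorem of_mEq (hO : IsOpen O) (h : MEq I m m' O id (fun x b a => B.P b a x) B.l u)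
    (hm : OKOn I B m O) (hm' : OKOn I B m' O) : Iso0 I m m' O u :=
  ⟨fun x hx => (h.su x hx).contMDiffAt (hO.mem_nhds hx),
    fun x hx => CIso.of_prj (hm.pidem x hx) (by rw [ad_trn]; exact h.uu x hx)
      (by rw [ad_trn]; exact h.uu' x hx), fun x hx => (h.J x hx).symm,
    fun x hx b => by have := h.ρ x hx b; rwa [(hm.cl x hx).proj b] at this,
    fun x hx s => by have := h.j x hx s; rwa [id, hm'.jl x hx] at this⟩

theorem ρ_eq (h : Iso0 I m m' O u) (hm' : OKOn I B m' O) {x : M} (hx : x ∈ O) (b : ι) :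
    m'.ρ b x = u x ∘L m.ρ b x ∘L ad (u x) := by
  rw [← ContinuousLinearMap.comp_assoc, ← h.ρ x hx, ContinuousLinearMap.comp_assoc,
    (h.iso x hx).tgt]
  exact ((hm'.cl x hx).pr b).symm

theorem j_eq (h : Iso0 I m m' O u) (hm' : OKOn I B m' O) {x : M} (hx : x ∈ O) (s : Eu lam) :
    m'.j x s = u x ∘L m.j x s ∘L ad (u x) := by
  rw [← ContinuousLinearMap.comp_assoc, ← h.j x hx, ContinuousLinearMap.comp_assoc,
    (h.iso x hx).tgt]
  exact (hm'.jp hx s).symm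

end Iso0

theorem par0_iff {F : Fr I M ι} {W : m.Cn} {W' : m'.Cn} {u : M → CL m.V m'.V}
    (h : ∀ a, ∀ x ∈ O, ∑ b, B.P b a x • W' b x = W' a x) :
    Par0 F W W' O u ↔ Par F W W' O id (fun x b a => B.P b a x) u :=
  forall₂_congr fun x hx => forall_congr' fun a => by simp only [id, h a x hx]

theorem ConnOn.proj' {W : m.Cn} (h : ConnOn B G m W O) (hB : B.OK I) (a : ι) (x : M) (hx : x ∈ O) :
    ∑ b, B.P b a x • W b x = W a x := by
  rw [← h.proj a x hx]
  exact Finset.sum_congr rfl fun b _ => by rw [(hB.pr x).symm b a]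

theorem Par0.mono {F : Fr I M ι} {W : m.Cn} {W' : m'.Cn} {u : M → CL m.V m'.V}
    (h : Par0 F W W' O u) (hO : O' ⊆ O) : Par0 F W W' O' u := fun x hx => h x (hO hx)

theorem Par0.trans {F : Fr I M ι} {W : m.Cn} {W' : m'.Cn} {W'' : m''.Cn} {u : M → CL m.V m'.V}
    {v : M → CL m'.V m''.V} (h : Par0 F W W' O u) (h' : Par0 F W' W'' O v)
    (hu : ∀ x ∈ O, FSm I u x) (hv : ∀ x ∈ O, FSm I v x) :
    Par0 F W W'' O fun x => v x ∘L u x := fun x hx a => by
  have h1 : F.D a u x = u x ∘L W a x - W' a x ∘L u x := by rw [← sub_eq_zero, ← h x hx a]; abel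
  have h2 : F.D a v x = v x ∘L W' a x - W'' a x ∘L v x := by rw [← sub_eq_zero, ← h' x hx a]; abel
  rw [Pre.D_def, dv_cc (hv x hx) (hu x hx), ← Pre.D_def, ← Pre.D_def, h1, h2]
  simp only [ContinuousLinearMap.comp_sub, ContinuousLinearMap.sub_comp,
    ContinuousLinearMap.comp_assoc]
  abel

theorem Par0.symm {F : Fr I M ι} {W : m.Cn} {W' : m'.Cn} {u : M → CL m.V m'.V}
    (h : Par0 F W W' O u) (hu : ∀ x ∈ O, FSm I u x) (h1 : ∀ a, ∀ x ∈ O, Skw (W a x))
    (h2 : ∀ a, ∀ x ∈ O, Skw (W' a x)) : Par0 F W' W O fun x => ad (u x) := fun x hx a => by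
  have := congrArg ad (h x hx a)
  rw [ad_sub, ad_add, ad_comp, ad_comp, ad_skew.2 (h1 a x hx), ad_skew.2 (h2 a x hx), ad_zero,
    ContinuousLinearMap.comp_neg, ContinuousLinearMap.neg_comp] at this
  rw [Pre.D_def, dv_ad (hu x hx), ← Pre.D_def, ← this]
  abel

/-! ### push forward -/

/-- a structure on the target of a partial isometry which is conjugate to a module is a module -/
theorem OKOn.of_conj (h : OKOn I B m O) (hO : IsOpen O) {a : M → CL m.V m'.V}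
    (sa : ∀ x ∈ O, FSm I a x) (aa : ∀ x ∈ O, ad (a x) ∘L a x = m.p x) (h1 : m'.J * m'.J = -1)
    (h2 : Skw m'.J) (hJ : ∀ x ∈ O, m'.J ∘L a x = a x ∘L m.J)
    (hp : ∀ x ∈ O, m'.p x = a x ∘L ad (a x))
    (hρ : ∀ b, ∀ x ∈ O, m'.ρ b x = a x ∘L m.ρ b x ∘L ad (a x))
    (sj : ∀ x ∈ O, FSm I m'.j x) (hj : ∀ x ∈ O, ∀ s, m'.j x s = a x ∘L m.j x s ∘L ad (a x)) :
    OKOn I B m' O ∧ Iso0 I m m' O a := by
  have iso : ∀ x ∈ O, CIso (a x) (m.p x) (m'.p x) := fun x hx =>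
    CIso.of_prj (h.pidem x hx) (aa x hx) (hp x hx).symm
  have hJ' : ∀ x ∈ O, m.J ∘L ad (a x) = ad (a x) ∘L m'.J := fun x hx =>
    ad_itw_skew (ad_skew.2 h.Jsk) (ad_skew.2 h2) (hJ x hx)
  -- conjugation is multiplicative on operators of the bundle
  have mul : ∀ x ∈ O, ∀ r s : En (Fin m.N), m.p x * s = s →
      (a x ∘L r ∘L ad (a x)) * (a x ∘L s ∘L ad (a x)) = a x ∘L (r * s) ∘L ad (a x) := by
    intro x hx r s hs
    rw [← hs, ← aa x hx]
    nth_rw 1 [aa x hx, hs]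
    rfl
  have Jl : ∀ x ∈ O, ∀ r : En (Fin m.N),
      m'.J * (a x ∘L r ∘L ad (a x)) = a x ∘L (m.J * r) ∘L ad (a x) := fun x hx r => by
    rw [ContinuousLinearMap.mul_def, ← ContinuousLinearMap.comp_assoc, hJ x hx]; rfl
  have Jr : ∀ x ∈ O, ∀ r : En (Fin m.N),
      (a x ∘L r ∘L ad (a x)) * m'.J = a x ∘L (r * m.J) ∘L ad (a x) := fun x hx r => by
    rw [ContinuousLinearMap.mul_def, ContinuousLinearMap.comp_assoc, ContinuousLinearMap.comp_assoc,
      ← hJ' x hx]; rfl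
  have hp' : ∀ x ∈ O, m'.p x = a x ∘L m.p x ∘L ad (a x) := fun x hx => by
    rw [(iso x hx).symm.left, hp x hx]
  have adc : ∀ x, ∀ r : En (Fin m.N), ad (a x ∘L r ∘L ad (a x)) = a x ∘L ad r ∘L ad (a x) :=
    fun x r => by rw [ad_comp, ad_comp, ad_ad]; rfl
  refine ⟨⟨h1, h2, fun x hx => ?_, fun b x hx => ?_, sj, fun x hx => (iso x hx).prj_tgt.symm,
    fun x hx => (iso x hx).prj_tgt.idem, fun x hx => ?_, fun x hx => ?_,
    fun x hx => ⟨fun b c => ?_, fun b => ?_, fun b => ?_, fun b => ?_⟩, fun b x hx => ?_,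
    fun b x hx => ?_, fun x hx s => ?_, fun x hx s => ?_, fun x hx s => ?_, fun x hx s => ?_,
    fun x hx s => ?_, fun x hx s => ?_, fun b x hx s => ?_⟩,
    sa, iso, hJ, fun x hx b => ?_, fun x hx s => ?_⟩
  · exact ((sa x hx).cc (sa x hx).ad).congr_of_eventuallyEq
      ((hO.eventually_mem hx).mono fun y hy => hp y hy)
  · exact ((sa x hx).cc ((h.sρ b x hx).cc (sa x hx).ad)).congr_of_eventuallyEq
      ((hO.eventually_mem hx).mono fun y hy => hρ b y hy)
  · rw [← (iso x hx).trace_eq]; exact h.prk x hx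
  · rw [hp' x hx, Jl x hx, Jr x hx, h.Jp x hx]
  · rw [hρ b x hx, hρ c x hx, mul x hx _ _ ((h.cl x hx).pl c), mul x hx _ _ ((h.cl x hx).pl b),
      ← ContinuousLinearMap.comp_add, ← ContinuousLinearMap.add_comp, (h.cl x hx).rel, hp' x hx,
      ContinuousLinearMap.smul_comp, ContinuousLinearMap.comp_smul]
  · rw [hρ b x hx, hp' x hx, mul x hx _ _ ((h.cl x hx).pl b), (h.cl x hx).pl b]
  · rw [hρ b x hx, hp' x hx, mul x hx _ _ (h.pidem x hx), (h.cl x hx).pr b]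
  · simp only [hρ _ x hx]
    rw [← (h.cl x hx).proj b]
    simp only [ContinuousLinearMap.comp_finsetSum, ContinuousLinearMap.finsetSum_comp,
      ContinuousLinearMap.comp_smul, ContinuousLinearMap.smul_comp]
  · refine ad_skew.1 ?_
    rw [hρ b x hx, adc, ad_skew.2 (h.ρsk b x hx), ContinuousLinearMap.neg_comp,
      ContinuousLinearMap.comp_neg]
  · rw [hρ b x hx, Jl x hx, Jr x hx, h.Jρ b x hx]
  · refine ad_symm.1 ?_
    rw [hj x hx, adc, ad_symm.2 (h.jsym x hx s)]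
  · rw [hj x hx, Jl x hx, Jr x hx, h.jJ x hx, ContinuousLinearMap.neg_comp,
      ContinuousLinearMap.comp_neg]
  · rw [hj x hx, hj x hx, Jl x hx, h.jil x hx]
  · rw [hj x hx, hj x hx, h.jl x hx]
  · rw [hj x hx, mul x hx _ _ (h.pj x hx s), h.jsq x hx, hp' x hx, ContinuousLinearMap.smul_comp,
      ContinuousLinearMap.comp_smul]
  · rw [hj x hx, hp' x hx, mul x hx _ _ (h.pj x hx s), h.pj x hx]
  · rw [hj x hx, hρ b x hx, mul x hx _ _ (h.pj x hx s), mul x hx _ _ ((h.cl x hx).pl b),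
      h.jρ b x hx]
  · rw [hρ b x hx, ContinuousLinearMap.comp_assoc, ContinuousLinearMap.comp_assoc, aa x hx]
    exact congrArg (a x ∘L ·) ((h.cl x hx).pr b)
  · rw [hj x hx, ContinuousLinearMap.comp_assoc, ContinuousLinearMap.comp_assoc, aa x hx]
    exact congrArg (a x ∘L ·) (h.jp hx s)

/-- the push forward of a connection along an isomorphism -/
def pshC (F : Fr I M ι) (u : M → CL m.V m'.V) (W : m.Cn) : m'.Cn :=
  fun a => pshW I (F.e a) u (W a)

theorem Iso0.ph {u : M → CL m.V m'.V} (h : Iso0 I m m' O u) (hO : IsOpen O) (hm : OKOn I B m O)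
    {W : m.Cn} (hW : ConnOn B G m W O) {x : M} (hx : x ∈ O) (a : ι) :
    PH I (G.F.e a) u m.p (W a) x :=
  ⟨h.su x hx, hm.sp x hx, (hO.eventually_mem hx).mono fun y hy =>
    (h.iso y hy).tgt ▸ h.iso y hy, ad_skew.2 (hW.sk a x hx), hW.par a x hx⟩

/-- **transport of a connection along an isomorphism of modules** -/
theorem conn_push {u : M → CL m.V m'.V} (h : Iso0 I m m' O u) (hO : IsOpen O) (hm : OKOn I B m O)
    (hm' : OKOn I B m' O) (hG : G.F.P = B.P) {W : m.Cn} (hW : ConnOn B G m W O) :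
    ConnOn B G m' (pshC G.F u W) O ∧ Par0 G.F W (pshC G.F u W) O u := by
  have ph := fun x hx a => h.ph hO hm hW (x := x) hx a
  refine ⟨⟨fun a x hx => FSm.pshW (G.F.sm a x) (h.su x hx) (hW.sm a x hx), fun a x hx => ?_,
    fun a x hx => ?_, fun a b x hx => ?_, fun a x hx => ad_skew.1 (ph x hx a).skew,
    fun a x hx => ?_, fun a x hx s => ?_⟩, fun x hx a => (ph x hx a).para⟩
  · exact pshW_sum (by rw [← hG]; exact G.F.P_e a x) (hW.proj a x hx)
  · have := (ph x hx a).par'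
    rw [dv_congr (v := m'.p) ((hO.eventually_mem hx).mono fun y hy => (h.iso y hy).tgt),
      (h.iso x hx).tgt] at this
    exact this
  · have := (ph x hx a).conj (hm.sρ b x hx)
    rw [dv_congr (v := m'.ρ b) ((hO.eventually_mem hx).mono fun y hy => (h.ρ_eq hm' hy b).symm),
      ← h.ρ_eq hm' hx b] at this
    refine this.trans ?_
    have h2 := hW.comp a b x hx
    rw [show dv I (G.F.e a) (m.ρ b) x + (W a x ∘L m.ρ b x - m.ρ b x ∘L W a x) = _ from h2]
    simp only [h.ρ_eq hm' hx, ContinuousLinearMap.comp_finsetSum,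
      ContinuousLinearMap.finsetSum_comp, ContinuousLinearMap.comp_smul,
      ContinuousLinearMap.smul_comp]
  · exact (ph x hx a).commJ (ad_skew.2 hm.Jsk) (ad_skew.2 hm'.Jsk)
      ((hO.eventually_mem hx).mono fun y hy => h.J y hy) (hW.J a x hx)
  · have hs : FSm I (fun y => m.j y s) x := (hm.sj x hx).clm_apply contMDiffAt_const
    have := (ph x hx a).conj hs
    rw [dv_congr (v := fun y => m'.j y s)
      ((hO.eventually_mem hx).mono fun y hy => (h.j_eq hm' hy s).symm), ← h.j_eq hm' hx s] at this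
    have e1 : dv I (G.F.e a) (fun y => m'.j y s) x = G.F.D a m'.j x s :=
      dv_clm (ContinuousLinearMap.apply ℝ _ s) (hm'.sj x hx).md
    have e2 : dv I (G.F.e a) (fun y => m.j y s) x = G.F.D a m.j x s :=
      dv_clm (ContinuousLinearMap.apply ℝ _ s) (hm.sj x hx).md
    rw [e1, e2] at this
    refine this.trans ?_
    have h2 := hW.j a x hx s
    rw [show G.F.D a m.j x s + (W a x ∘L m.j x s - m.j x s ∘L W a x) = _ from h2,
      ← h.j_eq hm' hx]

/-! ### gluing -/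

section glue

variable {K : Type} [Fintype K] {Oi : K → Set M} {mi : K → Md M ι lam}
  {u : ∀ i j, M → CL (mi j).V (mi i).V}

variable (I) in
/-- a cocycle of isomorphisms of local modules -/
structure MCoc (B : Base M ι lam) (Oi : K → Set M) (mi : K → Md M ι lam)
    (u : ∀ i j, M → CL (mi j).V (mi i).V) : Prop where
  op : ∀ i, IsOpen (Oi i)
  cov : ∀ x, ∃ i, x ∈ Oi i
  ok : ∀ i, OKOn I B (mi i) (Oi i)
  iso : ∀ i j, Iso0 I (mi j) (mi i) (Oi i ∩ Oi j) (u i j)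
  mul : ∀ i j l, ∀ x ∈ Oi i, x ∈ Oi j → x ∈ Oi l → u i j x ∘L u j l x = u i l x

theorem MCoc.self (h : MCoc I B Oi mi u) (i : K) {x : M} (hx : x ∈ Oi i) : u i i x = (mi i).p x := by
  have h1 := (h.iso i i).iso x ⟨hx, hx⟩
  have h2 := congrArg (ad (u i i x) ∘L ·) (h.mul i i i x hx hx hx)
  simp only [← ContinuousLinearMap.comp_assoc, h1.src] at h2
  rw [← h2, h1.left]

theorem MCoc.ad (h : MCoc I B Oi mi u) (i j : K) {x : M} (hi : x ∈ Oi i) (hj : x ∈ Oi j) :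
    ad (u i j x) = u j i x := by
  have h1 := (h.iso i j).iso x ⟨hi, hj⟩
  have h2 := congrArg (Pj41.ad (u i j x) ∘L ·) (h.mul i j i x hi hj hi)
  simp only [← ContinuousLinearMap.comp_assoc, h1.src, h.self i hi, h1.symm.idem] at h2
  rw [← h2, ((h.iso j i).iso x ⟨hj, hi⟩).left]

theorem MCoc.ccoc (h : MCoc I B Oi mi u) : CCoc I (Vi := fun i => (mi i).V) Oi u :=
  ⟨h.op, fun i j x hi hj => (h.iso i j).su x ⟨hi, hj⟩, fun i j _ hi hj => h.ad i j hi hj, h.mul⟩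

theorem md_glue_aux (h : MCoc I B Oi mi u) {N : ℕ} {J : En (Fin N)}
    {a : ∀ i, M → CL (mi i).V (Eu (Fin N))} (j1 : J * J = -1) (j2 : Skw J)
    (h1 : ∀ i, ∀ x ∈ Oi i, FSm I (a i) x ∧ ad (a i x) ∘L a i x = u i i x ∧
      J ∘L a i x = a i x ∘L (mi i).J)
    (h2 : ∀ i j, ∀ x ∈ Oi i, x ∈ Oi j → a i x ∘L u i j x = a j x) :
    ∃ (p : M → En (Fin N)) (ρ : ι → M → En (Fin N)) (j : M → CL (Eu lam) (En (Fin N))),
      ∀ i, OKOn I B ⟨N, J, p, ρ, j⟩ (Oi i) ∧ Iso0 I (mi i) ⟨N, J, p, ρ, j⟩ (Oi i) (a i) := by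
  have cj : ∀ i j, ∀ x ∈ Oi i, x ∈ Oi j → ∀ (r : En (Fin (mi i).N)) (s : En (Fin (mi j).N)),
      r = u i j x ∘L s ∘L ad (u i j x) → cjL (a i x) r = cjL (a j x) s := by
    intro i j x hi hj r s hr
    rw [hr, ← h2 i j x hi hj, cjL_apply, cjL_apply, ad_comp]
    simp only [ContinuousLinearMap.comp_assoc]
  obtain ⟨p, hp⟩ := exists_patch h.op h.cov (fun i x => cjL (a i x) ((mi i).p x))
    (fun i j x hi hj => cj i j x hi hj _ _ (by
      rw [((h.iso i j).iso x ⟨hi, hj⟩).symm.left, ((h.iso i j).iso x ⟨hi, hj⟩).tgt]))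
  have hρ := fun b => exists_patch h.op h.cov (fun i x => cjL (a i x) ((mi i).ρ b x))
      (fun i j x hi hj => cj i j x hi hj _ _
        ((h.iso i j).ρ_eq ((h.ok i).mono inter_subset_left) ⟨hi, hj⟩ b))
  choose ρ hρ using hρ
  obtain ⟨j, hj⟩ := exists_patch (α := CL (Eu lam) (En (Fin N))) h.op h.cov
    (fun i x => cjL (a i x) ∘L (mi i).j x)
    (fun i j x hi hj => ContinuousLinearMap.ext fun s => cj i j x hi hj _ _
      ((h.iso i j).j_eq ((h.ok i).mono inter_subset_left) ⟨hi, hj⟩ s))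
  refine ⟨p, ρ, j, fun i => ?_⟩
  refine (h.ok i).of_conj (m' := ⟨N, J, p, ρ, j⟩) (h.op i) (fun x hx => (h1 i x hx).1)
    (fun x hx => (h1 i x hx).2.1.trans (h.self i hx)) j1 j2 (fun x hx => (h1 i x hx).2.2)
    (fun x hx => (hp i x hx).eq_of_nhds.trans ?_) (fun b x hx => (hρ b i x hx).eq_of_nhds)
    (fun x hx => ?_) (fun x hx s => congrArg (fun L => L s) (hj i x hx).eq_of_nhds)
  · rw [cjL_apply, ← ContinuousLinearMap.comp_assoc, ← h.self i hx, h2 i i x hx hx]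
  · exact ((h1 i x hx).1.cjj ((h.ok i).sj x hx)).congr_of_eventuallyEq (hj i x hx)

/-- **gluing of modules** -/
theorem md_glue [T2Space M] [SigmaCompactSpace M] (h : MCoc I B Oi mi u) :
    ∃ (m : Md M ι lam) (a : ∀ i, M → CL (mi i).V m.V), m.OK I B ∧
      (∀ i, Iso0 I (mi i) m (Oi i) (a i)) ∧
      ∀ i j, ∀ x ∈ Oi i, x ∈ Oi j → ad (a i x) ∘L a j x = u i j x ∧ a i x ∘L u i j x = a j x := by
  obtain ⟨N, J, a, j1, j2, h1, h2⟩ := c_exists_glueJ h.ccoc h.cov (fun i => (mi i).J)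
    (fun i => (h.ok i).Jsq) (fun i => ad_skew.2 (h.ok i).Jsk)
    (fun i j x hi hj => (h.iso i j).J x ⟨hi, hj⟩)
  obtain ⟨p, ρ, j, key⟩ := md_glue_aux h j1 (ad_skew.1 j2) h1 fun i j x hi hj => (h2 i j x hi hj).2
  refine ⟨⟨N, J, p, ρ, j⟩, a, okOn_univ.1 (OKOn.of_local j1 (ad_skew.1 j2) fun x _ => ?_),
    fun i => (key i).2, h2⟩
  obtain ⟨i, hi⟩ := h.cov x
  exact ⟨_, hi, (key i).1⟩

/-- **gluing of connections** -/
theorem conn_glue (hO : ∀ i, IsOpen (Oi i)) (hc : ∀ x, ∃ i, x ∈ Oi i)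
    (ok : ∀ i, OKOn I B (mi i) (Oi i)) (hm : m.OK I B) (hG : G.F.P = B.P)
    {a : ∀ i, M → CL (mi i).V m.V} (ha : ∀ i, Iso0 I (mi i) m (Oi i) (a i)) {Wi : ∀ i, (mi i).Cn}
    (hW : ∀ i, ConnOn B G (mi i) (Wi i) (Oi i))
    (hp : ∀ i j, Par0 G.F (Wi j) (Wi i) (Oi i ∩ Oi j) fun x => ad (a i x) ∘L a j x) :
    ∃ W : m.Cn, m.IsConn B G W ∧ ∀ i, Par0 G.F (Wi i) W (Oi i) (a i) := by
  have h1 : ∀ b, ∃ W : M → En (Fin m.N), ∀ i, ∀ x ∈ Oi i, W x = pshC G.F (a i) (Wi i) b x :=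
    fun b => (exists_patch hO hc (fun i => pshC G.F (a i) (Wi i) b) fun i j x hi hj =>
      (pshW_eq (u := fun x => ad (a i x) ∘L a j x) ((ha i).ph (hO i) (ok i) (hW i) hi b)
        (((ha i).su x hi).ad.cc ((ha j).su x hj)) (((ha j).iso x hj).trans ((ha i).iso x hi).symm)
        (by
          filter_upwards [(hO i).eventually_mem hi, (hO j).eventually_mem hj] with y h1 h2
          rw [← ContinuousLinearMap.comp_assoc, ((ha i).iso y h1).tgt, ((ha j).iso y h2).left])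
        (hp i j x ⟨hi, hj⟩ b)).symm).imp fun _ ht i x hx => (ht i x hx).eq_of_nhds
  choose W hW' using h1
  have h2 := fun i => conn_push (ha i) (hO i) (ok i) (OK.on hm _) hG (hW i)
  refine ⟨W, ConnOn.isConn (ConnOn.of_local fun x _ => ?_) hm, fun i x hx b => ?_⟩
  · obtain ⟨i, hi⟩ := hc x
    exact ⟨_, hi, (h2 i).1.congr (hO i) fun b y hy => hW' b i y hy⟩
  · rw [hW' b i x hx]; exact (h2 i).2 x hx b

/-- **gluing of modules with connections and sections** -/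
theorem cfg_glue [T2Space M] [SigmaCompactSpace M] (h : MCoc I B Oi mi u) (hG : G.F.P = B.P)
    {Wi : ∀ i, (mi i).Cn} (hW : ∀ i, ConnOn B G (mi i) (Wi i) (Oi i))
    (hp : ∀ i j, Par0 G.F (Wi j) (Wi i) (Oi i ∩ Oi j) (u i j)) {Φi : ∀ i, M → (mi i).V}
    (sΦ : ∀ i, ∀ x ∈ Oi i, FSm I (Φi i) x)
    (hΦ : ∀ i j, ∀ x ∈ Oi i, x ∈ Oi j → u i j x (Φi j x) = Φi i x) :
    ∃ (m : Md M ι lam) (a : ∀ i, M → CL (mi i).V m.V) (W : m.Cn) (Φ : M → m.V), m.OK I B ∧
      m.IsConn B G W ∧ Sm I Φ ∧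
      (∀ i, Iso0 I (mi i) m (Oi i) (a i) ∧ Par0 G.F (Wi i) W (Oi i) (a i) ∧
        ∀ x ∈ Oi i, Φ x = a i x (Φi i x)) ∧
      ∀ i j, ∀ x ∈ Oi i, x ∈ Oi j → ad (a i x) ∘L a j x = u i j x ∧ a i x ∘L u i j x = a j x := by
  obtain ⟨m, a, h1, h2, h3⟩ := md_glue h
  obtain ⟨W, h4, h5⟩ := conn_glue h.op h.cov h.ok h1 hG h2 hW fun i j x hx b => by
    have := hp i j x hx b
    rwa [← (h3 i j x hx.1 hx.2).1, Pre.D_def, dv_congr (v := fun x => ad (a i x) ∘L a j x)
      ((((h.op i).inter (h.op j)).eventually_mem hx).mono fun y hy =>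
        (h3 i j y hy.1 hy.2).1.symm)] at this
  obtain ⟨Φ, h6, h7⟩ := exists_patch_fsm (I := I) h.op h.cov (fun i x => a i x (Φi i x))
    (fun i x hx => ((h2 i).su x hx).clm_apply (sΦ i x hx)) fun i j x hi hj => by
      rw [← hΦ i j x hi hj, ← (h3 i j x hi hj).2]; rfl
  exact ⟨m, a, W, Φ, h1, h4, h6, fun i => ⟨h2 i, h5 i, h7 i⟩, h3⟩

end glue

end

end Crest.Agent.X212.Pj41
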