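import Crest.Agent.X212.Pj41.Sm

/-!
# X212 / PROJ (helper41), file Iso: projectors, partial isometries, polar normalisation, frames

* `Prj p` : hermitian idempotent; `PIso u p q` : `u* u = p`, `u u* = q` (isomorphism `p → q`);
* `nrm p a = a (a* a + 1 - p)^(-1/2)` : the unitary part of a bundle map `a : p → q`;
* `exists_frame` : local smooth orthonormal frames.
-/

set_option autoImplicit false
set_option linter.unusedSectionVars false

open Set Function Filter Topology Matrix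
open scoped ContDiff Manifold ComplexOrder MatrixOrder Kronecker

namespace Crest.Agent.X212.Pj41

noncomputable section

variable {𝕜 : Type*} [RCLike 𝕜]
variable {E H : Type*} [NormedAddCommGroup E] [NormedSpace ℝ E] [TopologicalSpace H]
  {I : ModelWithCorners ℝ E H} {M : Type*} [TopologicalSpace M] [ChartedSpace H M]
variable {κ l m n : Type*} [Fintype κ] [Fintype l] [Fintype m] [Fintype n]

/-- hermitian projector -/
structure Prj (p : Matrix κ κ 𝕜) : Prop where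
  herm : pᴴ = p
  idem : p * p = p

/-- `u` is a partial isometry from (the range of) `p` onto `q` -/
structure PIso (u : Matrix l κ 𝕜) (p : Matrix κ κ 𝕜) (q : Matrix l l 𝕜) : Prop where
  src : uᴴ * u = p
  tgt : u * uᴴ = q
  idem : u * p = u

theorem Prj.one [DecidableEq κ] : Prj (1 : Matrix κ κ 𝕜) := ⟨by simp, by simp⟩

theorem Prj.zero : Prj (0 : Matrix κ κ 𝕜) := ⟨by simp, by simp⟩

theorem Prj.compl [DecidableEq κ] {p : Matrix κ κ 𝕜} (h : Prj p) : Prj (1 - p) :=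
  ⟨by simp [h.herm], by simp [sub_mul, mul_sub, h.idem]⟩

theorem Prj.posSemidef {p : Matrix κ κ 𝕜} (h : Prj p) : p.PosSemidef := by
  have := Matrix.posSemidef_conjTranspose_mul_self p
  rwa [h.herm, h.idem] at this

theorem Prj.refl {p : Matrix κ κ 𝕜} (h : Prj p) : PIso p p p :=
  ⟨by rw [h.herm, h.idem], by rw [h.herm, h.idem], h.idem⟩

theorem Prj.kron {p : Matrix κ κ 𝕜} {q : Matrix l l 𝕜} (hp : Prj p) (hq : Prj q) :
    Prj (p ⊗ₖ q) :=
  ⟨by rw [Matrix.conjTranspose_kronecker, hp.herm, hq.herm],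
   by rw [← Matrix.mul_kronecker_mul, hp.idem, hq.idem]⟩

theorem ct_tr {κ l : Type*} (a : Matrix l κ 𝕜) : aᵀᴴ = aᴴᵀ := rfl

theorem Prj.transpose {p : Matrix κ κ 𝕜} (hp : Prj p) : Prj pᵀ :=
  ⟨by rw [ct_tr, hp.herm],
   by rw [← Matrix.transpose_mul, hp.idem]⟩

theorem Prj.blocks {p : Matrix κ κ 𝕜} {q : Matrix l l 𝕜} (hp : Prj p) (hq : Prj q) :
    Prj (Matrix.fromBlocks p 0 0 q) :=
  ⟨by simp [Matrix.fromBlocks_conjTranspose, hp.herm, hq.herm],
   by simp [Matrix.fromBlocks_multiply, hp.idem, hq.idem]⟩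

/-- two projectors `r ≤ q` of the same trace are equal -/
theorem Prj.eq_of_trace {r q : Matrix κ κ 𝕜} (hr : Prj r) (hq : Prj q) (h : q * r = r)
    (ht : r.trace = q.trace) : r = q := by
  have h' : r * q = r := by
    have := congrArg Matrix.conjTranspose h
    rwa [Matrix.conjTranspose_mul, hr.herm, hq.herm] at this
  have h1 : Prj (q - r) :=
    ⟨by simp [hr.herm, hq.herm], by simp [sub_mul, mul_sub, hr.idem, hq.idem, h, h']⟩
  have h2 : (q - r).trace = 0 := by rw [Matrix.trace_sub, ht, sub_self]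
  exact (sub_eq_zero.1 (h1.posSemidef.trace_eq_zero_iff.1 h2)).symm

/-- `u* u` a projector implies `u (u* u) = u` -/
theorem PIso.of_prj {u : Matrix l κ 𝕜} {p : Matrix κ κ 𝕜} {q : Matrix l l 𝕜} (hp : p * p = p)
    (h1 : uᴴ * u = p) (h2 : u * uᴴ = q) : PIso u p q := by
  refine ⟨h1, h2, ?_⟩
  have hh : pᴴ = p := by rw [← h1]; simp
  have h3 : (u * p - u)ᴴ * (u * p - u) = 0 := by
    rw [Matrix.conjTranspose_sub, Matrix.conjTranspose_mul, hh, Matrix.sub_mul, Matrix.mul_sub,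
      Matrix.mul_sub, h1, Matrix.mul_assoc p uᴴ (u * p), ← Matrix.mul_assoc uᴴ u p, h1,
      Matrix.mul_assoc p uᴴ u, h1, hp, hp]
    simp
  exact sub_eq_zero.1 (Matrix.conjTranspose_mul_self_eq_zero.1 h3)

namespace PIso

variable {u : Matrix l κ 𝕜} {p : Matrix κ κ 𝕜} {q : Matrix l l 𝕜}

theorem left (h : PIso u p q) : q * u = u := by
  rw [← h.tgt, Matrix.mul_assoc, h.src, h.idem]

theorem prj_src (h : PIso u p q) : Prj p :=
  ⟨by rw [← h.src]; simp, by nth_rw 1 [← h.src]; rw [Matrix.mul_assoc, h.idem, h.src]⟩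

theorem prj_tgt (h : PIso u p q) : Prj q :=
  ⟨by rw [← h.tgt]; simp, by nth_rw 2 [← h.tgt]; rw [← Matrix.mul_assoc, h.left, h.tgt]⟩

theorem ct_left (h : PIso u p q) : p * uᴴ = uᴴ := by
  have := congrArg Matrix.conjTranspose h.idem
  rwa [Matrix.conjTranspose_mul, h.prj_src.herm] at this

theorem ct_right (h : PIso u p q) : uᴴ * q = uᴴ := by
  have := congrArg Matrix.conjTranspose h.left
  rwa [Matrix.conjTranspose_mul, h.prj_tgt.herm] at this

theorem symm (h : PIso u p q) : PIso uᴴ q p :=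
  ⟨by rw [Matrix.conjTranspose_conjTranspose, h.tgt],
   by rw [Matrix.conjTranspose_conjTranspose, h.src], h.ct_right⟩

theorem trans {v : Matrix m l 𝕜} {r : Matrix m m 𝕜} (h : PIso u p q) (h' : PIso v q r) :
    PIso (v * u) p r :=
  ⟨by rw [Matrix.conjTranspose_mul, Matrix.mul_assoc, ← Matrix.mul_assoc vᴴ, h'.src, h.left, h.src],
   by rw [Matrix.conjTranspose_mul, Matrix.mul_assoc, ← Matrix.mul_assoc u, h.tgt, h'.ct_left,
      h'.tgt],
   by rw [Matrix.mul_assoc, h.idem]⟩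

theorem trace_eq (h : PIso u p q) : p.trace = q.trace := by
  rw [← h.src, ← h.tgt, Matrix.trace_mul_comm]

theorem conj (h : PIso u p q) : u * p * uᴴ = q := by rw [h.idem, h.tgt]

theorem kron {v : Matrix n m 𝕜} {p' : Matrix m m 𝕜} {q' : Matrix n n 𝕜} (h : PIso u p q)
    (h' : PIso v p' q') : PIso (u ⊗ₖ v) (p ⊗ₖ p') (q ⊗ₖ q') :=
  ⟨by rw [Matrix.conjTranspose_kronecker, ← Matrix.mul_kronecker_mul, h.src, h'.src],
   by rw [Matrix.conjTranspose_kronecker, ← Matrix.mul_kronecker_mul, h.tgt, h'.tgt],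
   by rw [← Matrix.mul_kronecker_mul, h.idem, h'.idem]⟩

theorem blocks {v : Matrix n m 𝕜} {p' : Matrix m m 𝕜} {q' : Matrix n n 𝕜} (h : PIso u p q)
    (h' : PIso v p' q') : PIso (Matrix.fromBlocks u 0 0 v) (Matrix.fromBlocks p 0 0 p')
      (Matrix.fromBlocks q 0 0 q') :=
  ⟨by simp [Matrix.fromBlocks_conjTranspose, Matrix.fromBlocks_multiply, h.src, h'.src],
   by simp [Matrix.fromBlocks_conjTranspose, Matrix.fromBlocks_multiply, h.tgt, h'.tgt],
   by simp [Matrix.fromBlocks_multiply, h.idem, h'.idem]⟩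

/-- complex conjugate (dual) bundles -/
theorem bar (h : PIso u p q) : PIso uᴴᵀ pᵀ qᵀ :=
  ⟨by rw [ct_tr, Matrix.conjTranspose_conjTranspose,
      ← Matrix.transpose_mul, h.src],
   by rw [ct_tr, Matrix.conjTranspose_conjTranspose,
      ← Matrix.transpose_mul, h.tgt],
   by rw [← Matrix.transpose_mul, h.ct_left]⟩

end PIso

/-! ### polar normalisation -/

section Polar

variable [DecidableEq κ] [DecidableEq l] [DecidableEq m] [DecidableEq n]

theorem sylvester_inj' {S : Matrix κ κ 𝕜} {S' : Matrix l l 𝕜} {X : Matrix l κ 𝕜} (hS : S.PosSemidef)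
    (hS' : S'.PosDef) (h : S' * X + X * S = 0) : X = 0 := by
  have h1 : (Xᴴ * S' * X).PosSemidef := hS'.posSemidef.conjTranspose_mul_mul_same X
  have h2 : (X * S * Xᴴ).PosSemidef := hS.mul_mul_conjTranspose_same X
  have h3 : (Xᴴ * S' * X).trace + (X * S * Xᴴ).trace = 0 := by
    have : (Xᴴ * (S' * X + X * S)).trace = 0 := by rw [h]; simp
    rw [Matrix.mul_add, Matrix.trace_add, ← Matrix.mul_assoc,
      Matrix.trace_mul_comm Xᴴ (X * S)] at this
    exact this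
  have h4 : (Xᴴ * S' * X).trace = 0 :=
    le_antisymm (by rw [eq_neg_of_add_eq_zero_left h3]; exact neg_nonpos.2 h2.trace_nonneg)
      h1.trace_nonneg
  have h5 : Xᴴ * S' * X = 0 := h1.trace_eq_zero_iff.1 h4
  ext i j
  by_contra hij
  have hv : (fun k => X k j) ≠ 0 := fun h0 => hij (congrFun h0 i)
  have h6 := hS'.dotProduct_mulVec_pos hv
  have h7 : star (fun k => X k j) ⬝ᵥ (S' *ᵥ fun k => X k j) = (Xᴴ * S' * X) j j := by
    rw [Matrix.mul_assoc]
    simp [Matrix.mul_apply, dotProduct, Matrix.mulVec]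
  rw [h7, h5] at h6
  exact lt_irrefl _ h6

/-- intertwiners of positive matrices intertwine the square roots -/
theorem sqrt_intertwine {A : Matrix κ κ 𝕜} {A' : Matrix l l 𝕜} {T : Matrix l κ 𝕜}
    (hA : A.PosSemidef) (hA' : A'.PosDef) (h : T * A = A' * T) :
    T * CFC.sqrt A = CFC.sqrt A' * T := by
  refine sub_eq_zero.1 (sylvester_inj' (CFC.sqrt_nonneg A).posSemidef (posDef_sqrt hA') ?_)
  rw [Matrix.mul_sub, Matrix.sub_mul, ← Matrix.mul_assoc (CFC.sqrt A') (CFC.sqrt A'),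
    CFC.sqrt_mul_sqrt_self _ hA'.posSemidef.nonneg, Matrix.mul_assoc T,
    CFC.sqrt_mul_sqrt_self _ hA.nonneg, h, Matrix.mul_assoc]
  abel

theorem inv_intertwine {A : Matrix κ κ 𝕜} {A' : Matrix l l 𝕜} {T : Matrix l κ 𝕜}
    (hA : IsUnit A) (hA' : IsUnit A') (h : T * A = A' * T) : T * A⁻¹ = A'⁻¹ * T := by
  have h1 := (Matrix.isUnit_iff_isUnit_det _).1 hA
  have h2 := (Matrix.isUnit_iff_isUnit_det _).1 hA'
  calc T * A⁻¹ = A'⁻¹ * (A' * T) * A⁻¹ := by rw [Matrix.nonsing_inv_mul_cancel_left _ _ h2]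
    _ = A'⁻¹ * T := by rw [← h, Matrix.mul_assoc, Matrix.mul_nonsing_inv_cancel_right _ _ h1]

/-- `a* a + 1 - p` -/
def gram (p : Matrix κ κ 𝕜) (a : Matrix l κ 𝕜) : Matrix κ κ 𝕜 := aᴴ * a + (1 - p)

/-- the unitary part of `a : p → q` -/
def nrm (p : Matrix κ κ 𝕜) (a : Matrix l κ 𝕜) : Matrix l κ 𝕜 := a * (CFC.sqrt (gram p a))⁻¹

theorem gram_posSemidef {p : Matrix κ κ 𝕜} (hp : Prj p) (a : Matrix l κ 𝕜) :
    (gram p a).PosSemidef :=
  (Matrix.posSemidef_conjTranspose_mul_self a).add hp.compl.posSemidef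

/-- `a` injective on the range of `p` -/
theorem gram_posDef {p : Matrix κ κ 𝕜} (hp : Prj p) {a : Matrix l κ 𝕜}
    (h : ∀ v, p *ᵥ v = v → a *ᵥ v = 0 → v = 0) : (gram p a).PosDef := by
  refine (gram_posSemidef hp a).posDef_iff_isUnit.2 ?_
  rw [← Matrix.mulVec_injective_iff_isUnit]
  refine (injective_iff_map_eq_zero (Matrix.mulVecLin (gram p a))).2 fun v hv => ?_
  have h0 : star v ⬝ᵥ ((aᴴ * a) *ᵥ v) + star v ⬝ᵥ ((1 - p) *ᵥ v) = 0 := by
    rw [← dotProduct_add, ← Matrix.add_mulVec]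
    have : (gram p a) *ᵥ v = 0 := hv
    rw [gram] at this
    rw [this, dotProduct_zero]
  have h1 := (Matrix.posSemidef_conjTranspose_mul_self a).dotProduct_mulVec_nonneg v
  have h2 := hp.compl.posSemidef.dotProduct_mulVec_nonneg v
  have h3 : star v ⬝ᵥ ((aᴴ * a) *ᵥ v) = 0 :=
    le_antisymm (by rw [eq_neg_of_add_eq_zero_left h0]; exact neg_nonpos.2 h2) h1
  have h4 : star v ⬝ᵥ ((1 - p) *ᵥ v) = 0 := by rwa [h3, zero_add] at h0
  have h5 := (hp.compl.posSemidef.dotProduct_mulVec_zero_iff v).1 h4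
  have h6 := ((Matrix.posSemidef_conjTranspose_mul_self a).dotProduct_mulVec_zero_iff v).1 h3
  refine h v ?_ ((Matrix.conjTranspose_mul_self_mulVec_eq_zero a v).1 h6)
  rw [Matrix.sub_mulVec, Matrix.one_mulVec] at h5
  exact (sub_eq_zero.1 h5).symm

theorem gram_posDef_of_left_inv {p : Matrix κ κ 𝕜} (hp : Prj p) {a : Matrix l κ 𝕜}
    {b : Matrix κ l 𝕜} (h : b * a = p) : (gram p a).PosDef :=
  gram_posDef hp fun v h1 h2 => by rw [← h1, ← h, ← Matrix.mulVec_mulVec, h2, Matrix.mulVec_zero]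

theorem gram_of_piso {u : Matrix l κ 𝕜} {p : Matrix κ κ 𝕜} {q : Matrix l l 𝕜} (h : PIso u p q) :
    gram p u = 1 := by rw [gram, h.src]; abel

theorem nrm_of_piso {u : Matrix l κ 𝕜} {p : Matrix κ κ 𝕜} {q : Matrix l l 𝕜} (h : PIso u p q) :
    nrm p u = u := by rw [nrm, gram_of_piso h, CFC.sqrt_one]; simp

/-- equivariance of the unitary part -/
theorem nrm_intertwine {p : Matrix κ κ 𝕜} {p' : Matrix m m 𝕜} {a : Matrix l κ 𝕜}
    {a' : Matrix n m 𝕜} {T : Matrix m κ 𝕜} {T' : Matrix n l 𝕜} (hg : (gram p a).PosDef)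
    (hg' : (gram p' a').PosDef) (h1 : T * p = p' * T) (h2 : T' * a = a' * T)
    (h3 : T * aᴴ = a'ᴴ * T') : T' * nrm p a = nrm p' a' * T := by
  have h4 : T * gram p a = gram p' a' * T := by
    simp only [gram, Matrix.mul_add, Matrix.add_mul, Matrix.mul_sub, Matrix.sub_mul, h1,
      Matrix.mul_one, Matrix.one_mul]
    rw [← Matrix.mul_assoc, h3, Matrix.mul_assoc, h2, Matrix.mul_assoc]
  have h5 := inv_intertwine (posDef_sqrt hg).isUnit (posDef_sqrt hg').isUnit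
    (sqrt_intertwine hg.posSemidef hg' h4)
  rw [nrm, nrm, ← Matrix.mul_assoc, h2, Matrix.mul_assoc, h5, Matrix.mul_assoc]

theorem nrm_src {p : Matrix κ κ 𝕜} (hp : Prj p) {a : Matrix l κ 𝕜} (ha : a * p = a)
    (hg : (gram p a).PosDef) : (nrm p a)ᴴ * nrm p a = p ∧ nrm p a * p = nrm p a := by
  have ha' : p * aᴴ = aᴴ := by
    have := congrArg Matrix.conjTranspose ha
    rwa [Matrix.conjTranspose_mul, hp.herm] at this
  have h4 : gram p a * p = aᴴ * a := by
    simp [gram, Matrix.add_mul, Matrix.sub_mul, hp.idem, Matrix.mul_assoc, ha]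
  have h4' : p * gram p a = aᴴ * a := by
    simp [gram, Matrix.mul_add, Matrix.mul_sub, hp.idem, ← Matrix.mul_assoc, ha']
  have hS := posDef_sqrt hg
  have h5 := inv_intertwine hS.isUnit hS.isUnit
    (sqrt_intertwine hg.posSemidef hg (h4'.trans h4.symm))
  have hd := (Matrix.isUnit_iff_isUnit_det _).1 hS.isUnit
  refine ⟨?_, by rw [nrm, Matrix.mul_assoc, ← h5, ← Matrix.mul_assoc, ha]⟩
  set S := CFC.sqrt (gram p a) with hSd
  have hSS : S * S = gram p a := CFC.sqrt_mul_sqrt_self _ hg.posSemidef.nonneg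
  rw [nrm, ← hSd, Matrix.conjTranspose_mul, Matrix.conjTranspose_nonsing_inv, hS.isHermitian.eq,
    Matrix.mul_assoc, ← Matrix.mul_assoc aᴴ, ← h4, Matrix.mul_assoc _ p, h5, ← hSS,
    Matrix.mul_assoc S S, Matrix.mul_nonsing_inv_cancel_left _ _ hd,
    Matrix.nonsing_inv_mul_cancel_left _ _ hd]

/-- **polar normalisation**: a map `a : p → q`, injective, between projectors of the same rank -/
theorem nrm_piso {p : Matrix κ κ 𝕜} {q : Matrix l l 𝕜} (hp : Prj p) (hq : Prj q)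
    {a : Matrix l κ 𝕜} (ha : a * p = a) (ha' : q * a = a) (hg : (gram p a).PosDef)
    (ht : p.trace = q.trace) : PIso (nrm p a) p q := by
  obtain ⟨h1, h2⟩ := nrm_src hp ha hg
  have h3 : PIso (nrm p a) p (nrm p a * (nrm p a)ᴴ) := ⟨h1, rfl, h2⟩
  refine ⟨h1, h3.prj_tgt.eq_of_trace hq ?_ (h3.trace_eq.symm.trans ht), h2⟩
  rw [← Matrix.mul_assoc, nrm, ← Matrix.mul_assoc, ha']

theorem MSm.gram {p : M → Matrix κ κ 𝕜} {a : M → Matrix l κ 𝕜} {x : M} (hp : MSm I p x)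
    (ha : MSm I a x) : MSm I (fun y => gram (p y) (a y)) x :=
  (ha.ct.mul ha).add ((MSm.const 1).sub hp)

theorem MSm.nrm {p : M → Matrix κ κ 𝕜} {a : M → Matrix l κ 𝕜} {x : M} (hp : MSm I p x)
    (ha : MSm I a x) (hh : ∀ᶠ y in 𝓝 x, Prj (p y)) (hg : (Pj41.gram (p x) (a x)).PosDef) :
    MSm I (fun y => nrm (p y) (a y)) x :=
  ha.mul (((hp.gram ha).sqrt hg (hh.mono fun _ hy => (gram_posSemidef hy _).isHermitian)).inv
    ((Matrix.isUnit_iff_isUnit_det _).1 (posDef_sqrt hg).isUnit).ne_zero)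

theorem gram_eventually {X : Type*} [TopologicalSpace X] {p : X → Matrix κ κ 𝕜}
    {a : X → Matrix l κ 𝕜} {x : X} (hp : ContinuousAt p x) (ha : ContinuousAt a x)
    (hh : ∀ᶠ y in 𝓝 x, Prj (p y)) (hg : (gram (p x) (a x)).PosDef) :
    ∀ᶠ y in 𝓝 x, (gram (p y) (a y)).PosDef := by
  have hc : ContinuousAt (fun y => gram (p y) (a y)) x := by
    have hF : Continuous fun z : Matrix κ κ 𝕜 × Matrix l κ 𝕜 => gram z.1 z.2 :=
      (continuous_snd.matrix_conjTranspose.matrix_mul continuous_snd).add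
        (continuous_const.sub continuous_fst)
    exact ContinuousAt.comp (g := fun z : Matrix κ κ 𝕜 × Matrix l κ 𝕜 => gram z.1 z.2)
      (f := fun y => (p y, a y)) hF.continuousAt (hp.prodMk ha)
  filter_upwards [posDef_eventually hc hg, hh] with y h1 h2
  exact h1 (gram_posSemidef h2 _).isHermitian

/-- version of `nrm_piso` without traces: `a` and `a*` injective -/
theorem nrm_piso' {p : Matrix κ κ 𝕜} {q : Matrix l l 𝕜} (hp : Prj p) (hq : Prj q)
    {a : Matrix l κ 𝕜} (ha : a * p = a) (ha' : q * a = a) (hg : (gram p a).PosDef)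
    (hg' : (gram q aᴴ).PosDef) : PIso (nrm p a) p q := by
  obtain ⟨h1, h2⟩ := nrm_src hp ha hg
  refine ⟨h1, ?_, h2⟩
  have hb : aᴴ * q = aᴴ := by
    have := congrArg Matrix.conjTranspose ha'
    rwa [Matrix.conjTranspose_mul, hq.herm] at this
  have hb' : p * aᴴ = aᴴ := by
    have := congrArg Matrix.conjTranspose ha
    rwa [Matrix.conjTranspose_mul, hp.herm] at this
  have hS := posDef_sqrt hg
  have hd := (Matrix.isUnit_iff_isUnit_det _).1 hS.isUnit
  have hG := (Matrix.isUnit_iff_isUnit_det _).1 hg.isUnit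
  have hG' := (Matrix.isUnit_iff_isUnit_det _).1 hg'.isUnit
  have e0 : nrm p a * (nrm p a)ᴴ = a * ((gram p a)⁻¹ * aᴴ) := by
    conv_rhs => rw [← CFC.sqrt_mul_sqrt_self _ hg.posSemidef.nonneg, Matrix.mul_inv_rev]
    rw [nrm, Matrix.conjTranspose_mul, Matrix.conjTranspose_nonsing_inv, hS.isHermitian.eq]
    simp only [Matrix.mul_assoc]
  have e1 : aᴴ * gram q aᴴ = gram p a * aᴴ := by
    simp [gram, Matrix.mul_add, Matrix.add_mul, Matrix.mul_sub, Matrix.sub_mul, hb, hb',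
      Matrix.mul_assoc]
  have e2 : (gram p a)⁻¹ * aᴴ = aᴴ * (gram q aᴴ)⁻¹ :=
    (inv_intertwine hg'.isUnit hg.isUnit e1).symm
  have e3 : a * aᴴ = q * gram q aᴴ := by
    simp [gram, Matrix.mul_add, Matrix.mul_sub, hq.idem, ← Matrix.mul_assoc, ha']
  rw [e0, e2, ← Matrix.mul_assoc, e3, Matrix.mul_nonsing_inv_cancel_right _ _ hG']

/-- every projector has an orthonormal frame -/
theorem Prj.exists_frame {p : Matrix κ κ 𝕜} (hp : Prj p) :
    ∃ a : Matrix κ (Fin p.rank) 𝕜, PIso a 1 p := by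
  let V : Submodule 𝕜 (EuclideanSpace 𝕜 κ) := LinearMap.range (Matrix.toEuclideanLin p)
  have hr : Module.finrank 𝕜 V = p.rank := by
    rw [Matrix.rank_eq_finrank_range_toLin p (PiLp.basisFun 2 𝕜 κ) (PiLp.basisFun 2 𝕜 κ)]
    rfl
  let b : OrthonormalBasis (Fin p.rank) 𝕜 V := (stdOrthonormalBasis 𝕜 V).reindex (finCongr hr)
  let a : Matrix κ (Fin p.rank) 𝕜 := fun i j => (b j : EuclideanSpace 𝕜 κ) i
  have h1 : aᴴ * a = 1 := by
    ext i j
    have := orthonormal_iff_ite.1 b.orthonormal i j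
    rw [Submodule.coe_inner, EuclideanSpace.inner_eq_star_dotProduct] at this
    simp only [Matrix.mul_apply, Matrix.conjTranspose_apply, Matrix.one_apply, a]
    rw [← this]
    simp [dotProduct, mul_comm]
  have h2 : p * a = a := by
    ext i j
    obtain ⟨v, hv⟩ := (b j).2
    have h3 : p *ᵥ (b j : EuclideanSpace 𝕜 κ).ofLp = (b j : EuclideanSpace 𝕜 κ).ofLp := by
      rw [← hv]
      show p *ᵥ (p *ᵥ v.ofLp) = p *ᵥ v.ofLp
      rw [Matrix.mulVec_mulVec, hp.idem]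
    exact congrFun h3 i
  have h4 : PIso a 1 (a * aᴴ) := ⟨h1, rfl, Matrix.mul_one a⟩
  refine ⟨a, h1, ?_, Matrix.mul_one a⟩
  have h5 : a * aᴴ * p = p := by
    ext i j
    let v : V := ⟨Matrix.toEuclideanLin p (EuclideanSpace.single j 1), LinearMap.mem_range_self _ _⟩
    have hv : ∀ k, (v : EuclideanSpace 𝕜 κ) k = p k j := fun k => by
      simp [v, Matrix.toLpLin_apply]
    have h6 := congrArg (fun w : V => (w : EuclideanSpace 𝕜 κ) i) (b.sum_repr' v)
    simp only [Submodule.coe_sum, Submodule.coe_smul, WithLp.ofLp_sum, WithLp.ofLp_smul,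
      Finset.sum_apply, Pi.smul_apply, smul_eq_mul, hv, Submodule.coe_inner,
      EuclideanSpace.inner_eq_star_dotProduct] at h6
    rw [← h6, Matrix.mul_assoc, Matrix.mul_apply]
    refine Finset.sum_congr rfl fun k _ => ?_
    simp only [Matrix.mul_apply, Matrix.conjTranspose_apply, a, dotProduct, hv, Pi.star_apply]
    rw [mul_comm]
    congr 1
    exact Finset.sum_congr rfl fun _ _ => mul_comm _ _
  have h7 : a * aᴴ * p = a * aᴴ := by
    have := congrArg Matrix.conjTranspose h2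
    rw [Matrix.conjTranspose_mul, hp.herm] at this
    rw [Matrix.mul_assoc, this]
  rw [← h7, h5]

theorem Prj.trace_eq_rank {p : Matrix κ κ 𝕜} (hp : Prj p) : p.trace = (p.rank : 𝕜) := by
  obtain ⟨a, ha⟩ := hp.exists_frame
  rw [← ha.trace_eq]; simp

/-- an isomorphism at one point extends to a smooth isomorphism nearby -/
theorem exists_iso_near {p : M → Matrix κ κ 𝕜} {q : M → Matrix l l 𝕜} {U : Set M}
    (hU : IsOpen U) (hp : ∀ y ∈ U, MSm I p y ∧ Prj (p y)) (hq : ∀ y ∈ U, MSm I q y ∧ Prj (q y))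
    {x : M} (hx : x ∈ U) {a₀ : Matrix l κ 𝕜} (h₀ : PIso a₀ (p x) (q x)) :
    ∃ (V : Set M) (a : M → Matrix l κ 𝕜), IsOpen V ∧ x ∈ V ∧ V ⊆ U ∧ a x = a₀ ∧
      ∀ y ∈ V, MSm I a y ∧ PIso (a y) (p y) (q y) := by
  let c : M → Matrix l κ 𝕜 := fun y => q y * a₀ * p y
  have hc : ∀ y ∈ U, MSm I c y := fun y hy => ((hq y hy).1.mul (MSm.const _)).mul (hp y hy).1
  have hcx : c x = a₀ := by simp only [c]; rw [h₀.left, h₀.idem]
  have hpe : ∀ y ∈ U, ∀ᶠ z in 𝓝 y, Prj (p z) := fun y hy =>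
    (hU.eventually_mem hy).mono fun z hz => (hp z hz).2
  have hqe : ∀ y ∈ U, ∀ᶠ z in 𝓝 y, Prj (q z) := fun y hy =>
    (hU.eventually_mem hy).mono fun z hz => (hq z hz).2
  have e1 := gram_eventually (hp x hx).1.continuousAt (hc x hx).continuousAt (hpe x hx)
    (by rw [hcx, gram_of_piso h₀]; exact Matrix.PosDef.one)
  have e2 := gram_eventually (a := fun y => (c y)ᴴ) (hq x hx).1.continuousAt
    (hc x hx).ct.continuousAt (hqe x hx)
    (by rw [hcx, gram_of_piso h₀.symm]; exact Matrix.PosDef.one)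
  obtain ⟨V, hV, hVo, hxV⟩ := mem_nhds_iff.1 (e1.and (e2.and (hU.eventually_mem hx)))
  refine ⟨V, fun y => nrm (p y) (c y), hVo, hxV, fun y hy => (hV hy).2.2, ?_, fun y hy => ?_⟩
  · simp only [hcx]; exact nrm_of_piso h₀
  · obtain ⟨h1, h2, h3⟩ := hV hy
    refine ⟨(hp y h3).1.nrm (hc y h3) (hpe y h3) h1,
      nrm_piso' (hp y h3).2 (hq y h3).2 ?_ ?_ h1 h2⟩
    · simp only [c]; rw [Matrix.mul_assoc, (hp y h3).2.idem]
    · simp only [c]; rw [← Matrix.mul_assoc, ← Matrix.mul_assoc, (hq y h3).2.idem]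

/-- **local orthonormal frames** -/
theorem exists_frame {p : M → Matrix κ κ 𝕜} {U : Set M} (hU : IsOpen U)
    (hp : ∀ y ∈ U, MSm I p y ∧ Prj (p y)) {x : M} (hx : x ∈ U) :
    ∃ (V : Set M) (a : M → Matrix κ (Fin (p x).rank) 𝕜), IsOpen V ∧ x ∈ V ∧ V ⊆ U ∧
      ∀ y ∈ V, MSm I a y ∧ PIso (a y) 1 (p y) := by
  obtain ⟨a₀, h₀⟩ := (hp x hx).2.exists_frame
  obtain ⟨V, a, h1, h2, h3, -, h4⟩ := exists_iso_near (I := I) (p := fun _ => 1) hU
    (fun _ _ => ⟨MSm.const _, Prj.one⟩) hp hx h₀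
  exact ⟨V, a, h1, h2, h3, h4⟩

theorem trace_eventually {p : M → Matrix κ κ 𝕜} {U : Set M} (hU : IsOpen U)
    (hp : ∀ y ∈ U, MSm I p y ∧ Prj (p y)) {x : M} (hx : x ∈ U) :
    ∀ᶠ y in 𝓝 x, (p y).trace = (p x).trace := by
  obtain ⟨V, a, h1, h2, -, h4⟩ := exists_frame hU hp hx
  filter_upwards [h1.mem_nhds h2] with y hy
  rw [← (h4 y hy).2.trace_eq, ← (h4 x h2).2.trace_eq]

end Polar

end

end Crest.Agent.X212.Pj41
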