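import Crest.Agent.X212.Pj41.Gl

/-!
# X212 / PROJ (helper41), file Clm: the same for fields of continuous linear maps

`V`, `W` finite dimensional real inner product spaces, `ad` the adjoint, `CPrj`, `CIso` projectors
and partial isometries, `mx b c` the matrix in orthonormal bases.  Gluing along cocycles
(`c_exists_glue`, `c_exists_glue_two`, `c_exists_glue_hom`), polar part `cnrm`, local isomorphisms
and frames, smoothing.
-/

set_option autoImplicit false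
set_option linter.unusedSectionVars false

open Set Function Filter Topology Matrix
open scoped ContDiff Manifold ComplexOrder MatrixOrder InnerProductSpace

namespace Crest.Agent.X212.Pj41

noncomputable section

variable {E H : Type*} [NormedAddCommGroup E] [NormedSpace ℝ E] [TopologicalSpace H]
  {I : ModelWithCorners ℝ E H} {M : Type*} [TopologicalSpace M] [ChartedSpace H M]
variable {U V W : Type*} [NormedAddCommGroup U] [InnerProductSpace ℝ U] [FiniteDimensional ℝ U]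
  [NormedAddCommGroup V] [InnerProductSpace ℝ V] [FiniteDimensional ℝ V]
  [NormedAddCommGroup W] [InnerProductSpace ℝ W] [FiniteDimensional ℝ W]
variable {κ l m : Type*} [Fintype κ] [Fintype l] [Fintype m] [DecidableEq κ] [DecidableEq l]
  [DecidableEq m]

/-- the adjoint -/
def ad (L : V →L[ℝ] W) : W →L[ℝ] V := (LinearMap.adjoint (L : V →ₗ[ℝ] W)).toContinuousLinearMap

theorem inner_ad_left (L : V →L[ℝ] W) (w : W) (v : V) : ⟪ad L w, v⟫_ℝ = ⟪w, L v⟫_ℝ :=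
  LinearMap.adjoint_inner_left _ _ _

theorem inner_ad_right (L : V →L[ℝ] W) (v : V) (w : W) : ⟪v, ad L w⟫_ℝ = ⟪L v, w⟫_ℝ :=
  LinearMap.adjoint_inner_right _ _ _

theorem ad_eq {L : V →L[ℝ] W} {L' : W →L[ℝ] V} (h : ∀ w v, ⟪L' w, v⟫_ℝ = ⟪w, L v⟫_ℝ) :
    ad L = L' :=
  ContinuousLinearMap.ext fun w => ext_inner_right ℝ fun v => by rw [inner_ad_left, h]

@[simp] theorem ad_ad (L : V →L[ℝ] W) : ad (ad L) = L :=
  ad_eq fun v w => (inner_ad_right L v w).symm ▸ rfl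

theorem ad_comp (A : V →L[ℝ] W) (B : U →L[ℝ] V) : ad (A ∘L B) = ad B ∘L ad A :=
  ad_eq fun w v => by simp [inner_ad_left]

/-- the matrix in orthonormal bases -/
def mx (b : OrthonormalBasis l ℝ V) (c : OrthonormalBasis κ ℝ W) :
    (V →L[ℝ] W) ≃ₗ[ℝ] Matrix κ l ℝ :=
  LinearMap.toContinuousLinearMap.symm ≪≫ₗ LinearMap.toMatrix b.toBasis c.toBasis

section mx

variable (a : OrthonormalBasis m ℝ U) (b : OrthonormalBasis l ℝ V) (c : OrthonormalBasis κ ℝ W)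

theorem mx_apply (A : V →L[ℝ] W) (i : κ) (j : l) : mx b c A i j = ⟪c i, A (b j)⟫_ℝ := by
  simp [mx, LinearMap.toMatrix_apply, OrthonormalBasis.repr_apply_apply]

theorem mx_comp (A : V →L[ℝ] W) (B : U →L[ℝ] V) : mx a c (A ∘L B) = mx b c A * mx a b B :=
  LinearMap.toMatrix_comp a.toBasis b.toBasis c.toBasis (A : V →ₗ[ℝ] W) (B : U →ₗ[ℝ] V)

theorem mx_mul (A B : V →L[ℝ] V) : mx b b (A * B) = mx b b A * mx b b B := mx_comp b b b A B

theorem mx_one : mx b b (1 : V →L[ℝ] V) = 1 := LinearMap.toMatrix_id b.toBasis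

theorem mx_id : mx b b (ContinuousLinearMap.id ℝ V) = 1 := LinearMap.toMatrix_id b.toBasis

theorem mx_ad (A : V →L[ℝ] W) : mx c b (ad A) = (mx b c A)ᴴ := by
  ext i j
  rw [Matrix.conjTranspose_apply, mx_apply, mx_apply, inner_ad_right, real_inner_comm, star_trivial]

theorem mx_symm_mul (A : Matrix κ l ℝ) (B : Matrix l m ℝ) :
    (mx a c).symm (A * B) = (mx b c).symm A ∘L (mx a b).symm B :=
  (mx a c).injective (by simp [mx_comp a b c])

theorem mx_symm_ct (A : Matrix κ l ℝ) : (mx c b).symm Aᴴ = ad ((mx b c).symm A) :=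
  (mx c b).injective (by simp [mx_ad])

theorem fsm_iff_mx {A : M → V →L[ℝ] W} {x : M} :
    FSm I A x ↔ MSm I (fun y => mx b c (A y)) x := by
  let e : (V →L[ℝ] W) ≃L[ℝ] (κ → l → ℝ) :=
    (mx b c ≪≫ₗ (Matrix.ofLinearEquiv ℝ).symm).toContinuousLinearEquiv
  rw [MSm.iff_pi]
  refine ⟨fun h => e.contDiff.contDiffAt.comp_contMDiffAt h, fun h => ?_⟩
  have h1 : FSm I (fun y => e.symm (e (A y))) x := e.symm.contDiff.contDiffAt.comp_contMDiffAt h
  simpa using h1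

theorem MSm.mx_symm {A : M → Matrix κ l ℝ} {x : M} (h : MSm I A x) :
    FSm I (fun y => (mx b c).symm (A y)) x := (fsm_iff_mx b c).2 (by simpa using h)

end mx

theorem FSm.ad {A : M → V →L[ℝ] W} {x : M} (h : FSm I A x) : FSm I (fun y => ad (A y)) x := by
  rw [fsm_iff_mx (stdOrthonormalBasis ℝ W) (stdOrthonormalBasis ℝ V)]
  simp only [mx_ad]
  exact ((fsm_iff_mx _ _).1 h).ct

theorem FSm.cc {A : M → V →L[ℝ] W} {B : M → U →L[ℝ] V} {x : M} (h : FSm I A x) (h' : FSm I B x) :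
    FSm I (fun y => A y ∘L B y) x := h.clm_comp h'

/-- orthogonal projector -/
structure CPrj (p : V →L[ℝ] V) : Prop where
  herm : ad p = p
  idem : p ∘L p = p

/-- partial isometry from `p` onto `q` -/
structure CIso (u : V →L[ℝ] W) (p : V →L[ℝ] V) (q : W →L[ℝ] W) : Prop where
  src : ad u ∘L u = p
  tgt : u ∘L ad u = q
  idem : u ∘L p = u

theorem CPrj.of_inner {p : V →L[ℝ] V} (h1 : ∀ v, p (p v) = p v)
    (h2 : ∀ v w, ⟪p v, w⟫_ℝ = ⟪v, p w⟫_ℝ) : CPrj p :=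
  ⟨ad_eq h2, ContinuousLinearMap.ext h1⟩

theorem CPrj.symm {p : V →L[ℝ] V} (h : CPrj p) (v w : V) : ⟪p v, w⟫_ℝ = ⟪v, p w⟫_ℝ := by
  rw [← inner_ad_left, h.herm]

theorem CPrj.app {p : V →L[ℝ] V} (h : CPrj p) (v : V) : p (p v) = p v :=
  congrArg (fun L : V →L[ℝ] V => L v) h.idem

theorem cPrj_iff (b : OrthonormalBasis l ℝ V) {p : V →L[ℝ] V} : CPrj p ↔ Prj (mx b b p) :=
  ⟨fun h => ⟨by rw [← mx_ad, h.herm], by rw [← mx_comp, h.idem]⟩,
   fun h => ⟨(mx b b).injective (by rw [mx_ad, h.herm]),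
    (mx b b).injective (by rw [mx_comp b b b, h.idem])⟩⟩

theorem cIso_iff (b : OrthonormalBasis l ℝ V) (c : OrthonormalBasis κ ℝ W) {u : V →L[ℝ] W}
    {p : V →L[ℝ] V} {q : W →L[ℝ] W} : CIso u p q ↔ PIso (mx b c u) (mx b b p) (mx c c q) :=
  ⟨fun h => ⟨by rw [← mx_ad, ← mx_comp, h.src], by rw [← mx_ad, ← mx_comp, h.tgt],
    by rw [← mx_comp, h.idem]⟩,
   fun h => ⟨(mx b b).injective (by rw [mx_comp b c b, mx_ad, h.src]),
    (mx c c).injective (by rw [mx_comp c b c, mx_ad, h.tgt]),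
    (mx b c).injective (by rw [mx_comp b b c, h.idem])⟩⟩

namespace CIso

variable {u : V →L[ℝ] W} {p : V →L[ℝ] V} {q : W →L[ℝ] W}

theorem mat (h : CIso u p q) : PIso (mx (stdOrthonormalBasis ℝ V) (stdOrthonormalBasis ℝ W) u)
    (mx (stdOrthonormalBasis ℝ V) (stdOrthonormalBasis ℝ V) p)
    (mx (stdOrthonormalBasis ℝ W) (stdOrthonormalBasis ℝ W) q) := (cIso_iff _ _).1 h

theorem of_prj (hp : p ∘L p = p) (h1 : ad u ∘L u = p) (h2 : u ∘L ad u = q) : CIso u p q :=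
  (cIso_iff (stdOrthonormalBasis ℝ V) (stdOrthonormalBasis ℝ W)).2 <|
    PIso.of_prj (by rw [← mx_comp, hp]) (by rw [← mx_ad, ← mx_comp, h1])
      (by rw [← mx_ad, ← mx_comp, h2])

theorem left (h : CIso u p q) : q ∘L u = u := by
  rw [← h.tgt, ContinuousLinearMap.comp_assoc, h.src, h.idem]

theorem prj_src (h : CIso u p q) : CPrj p := (cPrj_iff _).2 h.mat.prj_src

theorem prj_tgt (h : CIso u p q) : CPrj q := (cPrj_iff _).2 h.mat.prj_tgt

theorem symm (h : CIso u p q) : CIso (ad u) q p :=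
  (cIso_iff (stdOrthonormalBasis ℝ W) (stdOrthonormalBasis ℝ V)).2
    (by rw [mx_ad]; exact h.mat.symm)

theorem trans {v : W →L[ℝ] U} {r : U →L[ℝ] U} (h : CIso u p q) (h' : CIso v q r) :
    CIso (v ∘L u) p r :=
  (cIso_iff (stdOrthonormalBasis ℝ V) (stdOrthonormalBasis ℝ U)).2
    (by rw [mx_comp _ (stdOrthonormalBasis ℝ W)]; exact h.mat.trans h'.mat)

theorem inner (h : CIso u p q) (v w : V) : ⟪u v, u w⟫_ℝ = ⟪p v, w⟫_ℝ := by
  rw [← h.src, ContinuousLinearMap.comp_apply, inner_ad_left]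

end CIso

theorem CPrj.refl {p : V →L[ℝ] V} (h : CPrj p) : CIso p p p :=
  ⟨by rw [h.herm, h.idem], by rw [h.herm, h.idem], h.idem⟩

/-! ### gluing -/

section Glue

variable {ι : Type*} [Fintype ι] [DecidableEq ι] {Vi Wi : ι → Type*}
  [∀ i, NormedAddCommGroup (Vi i)] [∀ i, InnerProductSpace ℝ (Vi i)]
  [∀ i, FiniteDimensional ℝ (Vi i)] [∀ i, NormedAddCommGroup (Wi i)]
  [∀ i, InnerProductSpace ℝ (Wi i)] [∀ i, FiniteDimensional ℝ (Wi i)]
  {k : ι → Type*} [∀ i, Fintype (k i)] [∀ i, DecidableEq (k i)]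

variable (I) in
/-- a smooth orthogonal cocycle `u i j : p j → p i`, `p i = u i i` -/
structure CCoc (O : ι → Set M) (u : ∀ i j, M → Vi j →L[ℝ] Vi i) : Prop where
  op : ∀ i, IsOpen (O i)
  sm : ∀ i j, ∀ x ∈ O i, x ∈ O j → FSm I (u i j) x
  ad : ∀ i j, ∀ x ∈ O i, x ∈ O j → ad (u i j x) = u j i x
  mul : ∀ i j l, ∀ x ∈ O i, x ∈ O j → x ∈ O l → u i j x ∘L u j l x = u i l x

/-- the constant block diagonal operator -/
def blk (b : ∀ i, OrthonormalBasis (k i) ℝ (Vi i)) (J : ∀ i, Vi i →L[ℝ] Vi i) :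
    EuclideanSpace ℝ (Σ i, k i) →L[ℝ] EuclideanSpace ℝ (Σ i, k i) :=
  (mx (EuclideanSpace.basisFun _ ℝ) (EuclideanSpace.basisFun _ ℝ)).symm
    (Matrix.blockDiagonal' fun i => mx (b i) (b i) (J i))

section blk

variable (b : ∀ i, OrthonormalBasis (k i) ℝ (Vi i)) (J K : ∀ i, Vi i →L[ℝ] Vi i)

theorem blk_comp : blk b J ∘L blk b K = blk b fun i => J i ∘L K i := by
  simp only [blk, mx_comp _ (b _), Matrix.blockDiagonal'_mul]
  rw [← mx_symm_mul]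

theorem blk_ad : ad (blk b J) = blk b fun i => ad (J i) := by
  simp only [blk, mx_ad, ← mx_symm_ct, Matrix.blockDiagonal'_conjTranspose]

theorem blk_neg : blk b (fun i => -J i) = -blk b J := by
  simp only [blk, map_neg]
  rw [← map_neg, ← Matrix.blockDiagonal'_neg]
  rfl

theorem blk_one : blk b (fun _ => 1) = 1 := by
  simp only [blk, mx_one]
  rw [show (Matrix.blockDiagonal' fun i => (1 : Matrix (k i) (k i) ℝ)) = 1 from
    Matrix.blockDiagonal'_one, LinearEquiv.symm_apply_eq, mx_one]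

end blk

/-- **gluing along a cocycle** -/
theorem c_exists_glue [FiniteDimensional ℝ E] [IsManifold I ∞ M] [T2Space M] [SigmaCompactSpace M]
    (b : ∀ i, OrthonormalBasis (k i) ℝ (Vi i)) {O : ι → Set M} {u : ∀ i j, M → Vi j →L[ℝ] Vi i}
    (h : CCoc I O u) (hc : ∀ x, ∃ i, x ∈ O i) :
    ∃ (P : M → EuclideanSpace ℝ (Σ i, k i) →L[ℝ] EuclideanSpace ℝ (Σ i, k i))
      (a : ∀ i, M → Vi i →L[ℝ] EuclideanSpace ℝ (Σ i, k i)),
      (∀ x, FSm I P x ∧ CPrj (P x)) ∧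
      (∀ i, ∀ x ∈ O i, FSm I (a i) x ∧ CIso (a i x) (u i i x) (P x)) ∧
      (∀ i j, ∀ x ∈ O i, x ∈ O j → ad (a i x) ∘L a j x = u i j x ∧ a i x ∘L u i j x = a j x) ∧
      ∀ J : ∀ i, Vi i →L[ℝ] Vi i,
        (∀ i j, ∀ x ∈ O i, x ∈ O j → J i ∘L u i j x = u i j x ∘L J j) →
        ∀ i, ∀ x ∈ O i, blk b J ∘L a i x = a i x ∘L J i := by
  let e := EuclideanSpace.basisFun (Σ i, k i) ℝ
  have h' : Coc I O fun i j x => mx (b j) (b i) (u i j x) :=
    ⟨h.op, fun i j x hi hj => (fsm_iff_mx _ _).1 (h.sm i j x hi hj),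
     fun i j x hi hj => by rw [← mx_ad, h.ad i j x hi hj],
     fun i j l x hi hj hl => by rw [← mx_comp, h.mul i j l x hi hj hl]⟩
  obtain ⟨P, a, h1, h2, h3, h4⟩ := exists_glue h' hc
  refine ⟨fun x => (mx e e).symm (P x), fun i x => (mx (b i) e).symm (a i x),
    fun x => ⟨(h1 x).1.mx_symm e e, (cPrj_iff e).2 (by simpa using (h1 x).2)⟩,
    fun i x hx => ⟨(h2 i x hx).1.mx_symm _ _, (cIso_iff (b i) e).2 (by simpa using (h2 i x hx).2)⟩,
    fun i j x hi hj => ⟨?_, ?_⟩, fun J hJ i x hx => ?_⟩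
  · rw [← mx_symm_ct, ← mx_symm_mul, (h3 i j x hi hj).1, LinearEquiv.symm_apply_apply]
  · refine (mx (b j) e).injective ?_
    rw [mx_comp _ (b i), LinearEquiv.apply_symm_apply, LinearEquiv.apply_symm_apply,
      (h3 i j x hi hj).2]
  · refine (mx (b i) e).injective ?_
    rw [mx_comp _ e, mx_comp _ (b i), blk, LinearEquiv.apply_symm_apply,
      LinearEquiv.apply_symm_apply]
    exact h4 _ (fun i j x hi hj => by rw [← mx_comp, ← mx_comp, hJ i j x hi hj]) i x hx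

theorem exists_patch_fsm {ι' F : Type*} [NormedAddCommGroup F] [NormedSpace ℝ F] {O : ι' → Set M}
    (hO : ∀ i, IsOpen (O i)) (hc : ∀ x, ∃ i, x ∈ O i) (s : ι' → M → F)
    (hs : ∀ i, ∀ x ∈ O i, FSm I (s i) x) (h : ∀ i j, ∀ x ∈ O i, x ∈ O j → s i x = s j x) :
    ∃ t : M → F, (∀ x, FSm I t x) ∧ ∀ i, ∀ x ∈ O i, t x = s i x := by
  obtain ⟨t, ht⟩ := exists_patch hO hc s h
  refine ⟨t, fun x => ?_, fun i x hx => (ht i x hx).eq_of_nhds⟩
  obtain ⟨i, hi⟩ := hc x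
  exact (hs i x hi).congr_of_eventuallyEq (ht i x hi)

/-- compatible local homomorphism fields between two glued bundles patch -/
theorem c_exists_glue_hom {O : ι → Set M} (hO : ∀ i, IsOpen (O i)) (hc : ∀ x, ∃ i, x ∈ O i)
    {a : ∀ i, M → Vi i →L[ℝ] V} {a' : ∀ i, M → Wi i →L[ℝ] W} {P : M → V →L[ℝ] V}
    {P' : M → W →L[ℝ] W} {p : ∀ i, M → Vi i →L[ℝ] Vi i} {p' : ∀ i, M → Wi i →L[ℝ] Wi i}
    (ha : ∀ i, ∀ x ∈ O i, FSm I (a i) x ∧ CIso (a i x) (p i x) (P x))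
    (ha' : ∀ i, ∀ x ∈ O i, FSm I (a' i) x ∧ CIso (a' i x) (p' i x) (P' x))
    (r : ∀ i, M → Vi i →L[ℝ] Wi i) (hr : ∀ i, ∀ x ∈ O i, FSm I (r i) x)
    (h : ∀ i j, ∀ x ∈ O i, x ∈ O j →
      (ad (a' j x) ∘L a' i x) ∘L r i x = r j x ∘L (ad (a j x) ∘L a i x)) :
    ∃ R : M → V →L[ℝ] W, (∀ x, FSm I R x) ∧
      ∀ i, ∀ x ∈ O i, R x = a' i x ∘L r i x ∘L ad (a i x) := by
  refine exists_patch_fsm hO hc (fun i x => a' i x ∘L r i x ∘L ad (a i x))
    (fun i x hx => (ha' i x hx).1.cc ((hr i x hx).cc (ha i x hx).1.ad)) fun i j x hi hj => ?_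
  have h1 := (ha i x hi).2
  have h2 := (ha j x hj).2
  have h3 := (ha' i x hi).2
  have h4 := (ha' j x hj).2
  calc a' i x ∘L r i x ∘L ad (a i x)
      = a' j x ∘L ((ad (a' j x) ∘L a' i x) ∘L r i x) ∘L ad (a i x) := by
        simp only [← ContinuousLinearMap.comp_assoc]
        rw [h4.tgt, h3.left]
    _ = a' j x ∘L r j x ∘L ad (a j x) := by
        rw [h i j x hi hj]
        simp only [ContinuousLinearMap.comp_assoc]
        rw [h1.tgt, h2.symm.idem]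

/-- compatible local sections of a glued bundle patch -/
theorem c_exists_glue_sec {O : ι → Set M} (hO : ∀ i, IsOpen (O i)) (hc : ∀ x, ∃ i, x ∈ O i)
    {a : ∀ i, M → Vi i →L[ℝ] V} {P : M → V →L[ℝ] V} {p : ∀ i, M → Vi i →L[ℝ] Vi i}
    (ha : ∀ i, ∀ x ∈ O i, FSm I (a i) x ∧ CIso (a i x) (p i x) (P x))
    (s : ∀ i, M → Vi i) (hs : ∀ i, ∀ x ∈ O i, FSm I (s i) x)
    (h : ∀ i j, ∀ x ∈ O i, x ∈ O j → ad (a j x) (a i x (s i x)) = s j x) :
    ∃ S : M → V, (∀ x, FSm I S x) ∧ ∀ i, ∀ x ∈ O i, S x = a i x (s i x) := by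
  refine exists_patch_fsm hO hc (fun i x => a i x (s i x))
    (fun i x hx => (ha i x hx).1.clm_apply (hs i x hx)) fun i j x hi hj => ?_
  rw [← h i j x hi hj]
  exact (congrArg (fun L => L (s i x)) (ha i x hi).2.left).symm.trans
    (congrArg (fun L => L (a i x (s i x))) (ha j x hj).2.tgt).symm

end Glue

/-- the constant block diagonal operator on a sum -/
def blk2 (b : OrthonormalBasis κ ℝ V) (c : OrthonormalBasis l ℝ W) (J : V →L[ℝ] V)
    (J' : W →L[ℝ] W) : EuclideanSpace ℝ (κ ⊕ l) →L[ℝ] EuclideanSpace ℝ (κ ⊕ l) :=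
  (mx (EuclideanSpace.basisFun _ ℝ) (EuclideanSpace.basisFun _ ℝ)).symm
    (Matrix.fromBlocks (mx b b J) 0 0 (mx c c J'))

section blk2

variable (b : OrthonormalBasis κ ℝ V) (c : OrthonormalBasis l ℝ W) (J K : V →L[ℝ] V)
  (J' K' : W →L[ℝ] W)

theorem blk2_comp : blk2 b c J J' ∘L blk2 b c K K' = blk2 b c (J ∘L K) (J' ∘L K') := by
  simp only [blk2, mx_comp b b, mx_comp c c]
  rw [← mx_symm_mul, Matrix.fromBlocks_multiply]
  simp

theorem blk2_ad : ad (blk2 b c J J') = blk2 b c (ad J) (ad J') := by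
  simp only [blk2, mx_ad, ← mx_symm_ct, Matrix.fromBlocks_conjTranspose, Matrix.conjTranspose_zero]

theorem blk2_neg : blk2 b c (-J) (-J') = -blk2 b c J J' := by
  rw [blk2, blk2, ← map_neg, Matrix.fromBlocks_neg, neg_zero, neg_zero, map_neg, map_neg]

theorem blk2_one : blk2 b c 1 1 = 1 := by
  simp only [blk2, mx_one, Matrix.fromBlocks_one]
  rw [LinearEquiv.symm_apply_eq, mx_one]

end blk2

/-- **gluing of two bundles** -/
theorem c_exists_glue_two [FiniteDimensional ℝ E] [IsManifold I ∞ M] [T2Space M]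
    [SigmaCompactSpace M] (b₁ : OrthonormalBasis κ ℝ V) (b₂ : OrthonormalBasis l ℝ W)
    {O O' : Set M} (hO : IsOpen O) (hO' : IsOpen O') (hc : O ∪ O' = univ)
    {p : M → V →L[ℝ] V} {q : M → W →L[ℝ] W} {u : M → V →L[ℝ] W}
    (hp : ∀ x ∈ O, FSm I p x ∧ CPrj (p x)) (hq : ∀ x ∈ O', FSm I q x ∧ CPrj (q x))
    (hu : ∀ x ∈ O, x ∈ O' → FSm I u x ∧ CIso (u x) (p x) (q x)) :
    ∃ (P : M → EuclideanSpace ℝ (κ ⊕ l) →L[ℝ] EuclideanSpace ℝ (κ ⊕ l))
      (a : M → V →L[ℝ] EuclideanSpace ℝ (κ ⊕ l)) (b : M → W →L[ℝ] EuclideanSpace ℝ (κ ⊕ l)),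
      (∀ x, FSm I P x ∧ CPrj (P x)) ∧ (∀ x ∈ O, FSm I a x ∧ CIso (a x) (p x) (P x)) ∧
      (∀ x ∈ O', FSm I b x ∧ CIso (b x) (q x) (P x)) ∧
      (∀ x ∈ O, x ∈ O' → ad (b x) ∘L a x = u x ∧ b x ∘L u x = a x) ∧
      ∀ (J : V →L[ℝ] V) (J' : W →L[ℝ] W), (∀ x ∈ O, J ∘L p x = p x ∘L J) →
        (∀ x ∈ O', J' ∘L q x = q x ∘L J') →
        (∀ x ∈ O, x ∈ O' → J' ∘L u x = u x ∘L J ∧ J ∘L ad (u x) = ad (u x) ∘L J') →
        (∀ x ∈ O, blk2 b₁ b₂ J J' ∘L a x = a x ∘L J) ∧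
        ∀ x ∈ O', blk2 b₁ b₂ J J' ∘L b x = b x ∘L J' := by
  let e := EuclideanSpace.basisFun (κ ⊕ l) ℝ
  obtain ⟨P, a, b, h1, h2, h3, h4, h5⟩ := exists_glue_two (I := I) hO hO' hc
    (p := fun x => mx b₁ b₁ (p x)) (q := fun x => mx b₂ b₂ (q x)) (u := fun x => mx b₁ b₂ (u x))
    (fun x hx => ⟨(fsm_iff_mx _ _).1 (hp x hx).1, (cPrj_iff _).1 (hp x hx).2⟩)
    (fun x hx => ⟨(fsm_iff_mx _ _).1 (hq x hx).1, (cPrj_iff _).1 (hq x hx).2⟩)
    (fun x hx hx' => ⟨(fsm_iff_mx _ _).1 (hu x hx hx').1, (cIso_iff _ _).1 (hu x hx hx').2⟩)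
  refine ⟨fun x => (mx e e).symm (P x), fun x => (mx b₁ e).symm (a x),
    fun x => (mx b₂ e).symm (b x),
    fun x => ⟨(h1 x).1.mx_symm e e, (cPrj_iff e).2 (by simpa using (h1 x).2)⟩,
    fun x hx => ⟨(h2 x hx).1.mx_symm _ _, (cIso_iff b₁ e).2 (by simpa using (h2 x hx).2)⟩,
    fun x hx => ⟨(h3 x hx).1.mx_symm _ _, (cIso_iff b₂ e).2 (by simpa using (h3 x hx).2)⟩,
    fun x hx hx' => ⟨?_, ?_⟩, fun J J' k1 k2 k3 => ?_⟩
  · rw [← mx_symm_ct, ← mx_symm_mul, (h4 x hx hx').1, LinearEquiv.symm_apply_apply]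
  · refine (mx b₁ e).injective ?_
    rw [mx_comp _ b₂, LinearEquiv.apply_symm_apply, LinearEquiv.apply_symm_apply, (h4 x hx hx').2]
  · obtain ⟨h6, h7⟩ := h5 (mx b₁ b₁ J) (mx b₂ b₂ J')
      (fun x hx => by rw [← mx_comp, ← mx_comp, k1 x hx])
      (fun x hx => by rw [← mx_comp, ← mx_comp, k2 x hx])
      (fun x hx hx' => ⟨by rw [← mx_comp, ← mx_comp, (k3 x hx hx').1],
        by rw [← mx_ad, ← mx_comp, ← mx_comp, (k3 x hx hx').2]⟩)
    refine ⟨fun x hx => (mx b₁ e).injective ?_, fun x hx => (mx b₂ e).injective ?_⟩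
    · rw [mx_comp _ e, mx_comp _ b₁, blk2, LinearEquiv.apply_symm_apply,
        LinearEquiv.apply_symm_apply, h6 x hx]
    · rw [mx_comp _ e, mx_comp _ b₂, blk2, LinearEquiv.apply_symm_apply,
        LinearEquiv.apply_symm_apply, h7 x hx]

/-! ### polar part, local isomorphisms, frames, smoothing -/

/-- the orthogonal part of `a : p → q` -/
def cnrm (p : V →L[ℝ] V) (a : V →L[ℝ] W) : V →L[ℝ] W :=
  (mx (stdOrthonormalBasis ℝ V) (stdOrthonormalBasis ℝ W)).symm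
    (nrm (mx (stdOrthonormalBasis ℝ V) (stdOrthonormalBasis ℝ V) p)
      (mx (stdOrthonormalBasis ℝ V) (stdOrthonormalBasis ℝ W) a))

/-- `a` is injective on the range of `p` -/
def InjR (p : V →L[ℝ] V) (a : V →L[ℝ] W) : Prop := ∀ v, p v = v → a v = 0 → v = 0

theorem mx_mulVec (b : OrthonormalBasis l ℝ V) (c : OrthonormalBasis κ ℝ W) (A : V →L[ℝ] W)
    (v : V) : mx b c A *ᵥ (b.toBasis.repr v) = c.toBasis.repr (A v) :=
  LinearMap.toMatrix_mulVec_repr b.toBasis c.toBasis (A : V →ₗ[ℝ] W) v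

theorem InjR.posDef {p : V →L[ℝ] V} {a : V →L[ℝ] W} (hp : CPrj p) (h : InjR p a)
    (b : OrthonormalBasis l ℝ V) (c : OrthonormalBasis κ ℝ W) :
    (gram (mx b b p) (mx b c a)).PosDef := by
  refine gram_posDef ((cPrj_iff b).1 hp) fun v h1 h2 => ?_
  obtain ⟨w, rfl⟩ := b.toBasis.equivFun.surjective v
  rw [Module.Basis.equivFun_apply, mx_mulVec] at h1 h2
  rw [h w (b.toBasis.repr.injective (DFunLike.coe_injective h1))
    (c.toBasis.repr.injective (DFunLike.coe_injective (by simpa using h2))), map_zero]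

theorem cnrm_iso {p : V →L[ℝ] V} {q : W →L[ℝ] W} {a : V →L[ℝ] W} (hp : CPrj p) (hq : CPrj q)
    (ha : a ∘L p = a) (ha' : q ∘L a = a) (h : InjR p a) (h' : InjR q (ad a)) :
    CIso (cnrm p a) p q := by
  rw [cIso_iff (stdOrthonormalBasis ℝ V) (stdOrthonormalBasis ℝ W), cnrm,
    LinearEquiv.apply_symm_apply]
  refine nrm_piso' ((cPrj_iff _).1 hp) ((cPrj_iff _).1 hq) (by rw [← mx_comp, ha])
    (by rw [← mx_comp, ha']) (h.posDef hp _ _) ?_
  rw [← mx_ad]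
  exact h'.posDef hq _ _

theorem cnrm_of_iso {p : V →L[ℝ] V} {q : W →L[ℝ] W} {u : V →L[ℝ] W} (h : CIso u p q) :
    cnrm p u = u := by rw [cnrm, nrm_of_piso h.mat, LinearEquiv.symm_apply_apply]

theorem cnrm_intertwine {V' W' : Type*} [NormedAddCommGroup V'] [InnerProductSpace ℝ V']
    [FiniteDimensional ℝ V'] [NormedAddCommGroup W'] [InnerProductSpace ℝ W']
    [FiniteDimensional ℝ W'] {p : V →L[ℝ] V} {p' : V' →L[ℝ] V'} {a : V →L[ℝ] W}
    {a' : V' →L[ℝ] W'} {T : V →L[ℝ] V'} {T' : W →L[ℝ] W'} (hp : CPrj p) (hp' : CPrj p')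
    (h : InjR p a) (h' : InjR p' a') (h1 : T ∘L p = p' ∘L T) (h2 : T' ∘L a = a' ∘L T)
    (h3 : T ∘L ad a = ad a' ∘L T') : T' ∘L cnrm p a = cnrm p' a' ∘L T := by
  refine (mx (stdOrthonormalBasis ℝ V) (stdOrthonormalBasis ℝ W')).injective ?_
  rw [mx_comp _ (stdOrthonormalBasis ℝ W), mx_comp _ (stdOrthonormalBasis ℝ V'), cnrm, cnrm,
    LinearEquiv.apply_symm_apply, LinearEquiv.apply_symm_apply]
  refine nrm_intertwine (h.posDef hp _ _) (h'.posDef hp' _ _) ?_ ?_ ?_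
  · rw [← mx_comp, ← mx_comp, h1]
  · rw [← mx_comp, ← mx_comp, h2]
  · rw [← mx_ad, ← mx_ad, ← mx_comp, ← mx_comp, h3]

theorem FSm.cnrm {p : M → V →L[ℝ] V} {a : M → V →L[ℝ] W} {x : M} (hp : FSm I p x)
    (ha : FSm I a x) (hh : ∀ᶠ y in 𝓝 x, CPrj (p y)) (h : InjR (p x) (a x)) :
    FSm I (fun y => cnrm (p y) (a y)) x :=
  MSm.mx_symm _ _ (((fsm_iff_mx _ _).1 hp).nrm ((fsm_iff_mx _ _).1 ha)
    (hh.mono fun _ hy => (cPrj_iff _).1 hy) (h.posDef hh.self_of_nhds _ _))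

/-- an isomorphism at one point extends to a smooth isomorphism nearby -/
theorem c_exists_iso_near {p : M → V →L[ℝ] V} {q : M → W →L[ℝ] W} {O : Set M} (hO : IsOpen O)
    (hp : ∀ y ∈ O, FSm I p y ∧ CPrj (p y)) (hq : ∀ y ∈ O, FSm I q y ∧ CPrj (q y)) {x : M}
    (hx : x ∈ O) {a₀ : V →L[ℝ] W} (h₀ : CIso a₀ (p x) (q x)) :
    ∃ (O' : Set M) (a : M → V →L[ℝ] W), IsOpen O' ∧ x ∈ O' ∧ O' ⊆ O ∧ a x = a₀ ∧
      ∀ y ∈ O', FSm I a y ∧ CIso (a y) (p y) (q y) := by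
  obtain ⟨O', a, h1, h2, h3, h4, h5⟩ := exists_iso_near (I := I) hO
    (fun y hy => ⟨(fsm_iff_mx _ _).1 (hp y hy).1, (cPrj_iff _).1 (hp y hy).2⟩)
    (fun y hy => ⟨(fsm_iff_mx _ _).1 (hq y hy).1, (cPrj_iff _).1 (hq y hy).2⟩) hx h₀.mat
  exact ⟨O', fun y => (mx (stdOrthonormalBasis ℝ V) (stdOrthonormalBasis ℝ W)).symm (a y), h1, h2,
    h3, by simp only [h4, LinearEquiv.symm_apply_apply], fun y hy => ⟨(h5 y hy).1.mx_symm _ _,
      (cIso_iff (stdOrthonormalBasis ℝ V) (stdOrthonormalBasis ℝ W)).2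
        (by simpa using (h5 y hy).2)⟩⟩

/-- smoothing of a continuous isomorphism, relative to a closed set -/
theorem c_exists_smooth_iso [FiniteDimensional ℝ E] [IsManifold I ∞ M] [T2Space M]
    [SigmaCompactSpace M] {p : M → V →L[ℝ] V} {q : M → W →L[ℝ] W} {u : M → V →L[ℝ] W}
    (hp : ∀ x, FSm I p x) (hq : ∀ x, FSm I q x) (hu : Continuous u)
    (h : ∀ x, CIso (u x) (p x) (q x)) {C O : Set M} (hC : IsClosed C) (hO : IsOpen O) (hCO : C ⊆ O)
    (hs : ∀ x ∈ O, FSm I u x) :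
    ∃ v : M → V →L[ℝ] W, (∀ x, FSm I v x ∧ CIso (v x) (p x) (q x)) ∧ ∀ x ∈ C, v x = u x := by
  have hc : Continuous fun x => mx (stdOrthonormalBasis ℝ V) (stdOrthonormalBasis ℝ W) (u x) :=
    continuous_pi fun i => continuous_pi fun j => by
      simp only [mx_apply]
      exact continuous_const.inner (hu.clm_apply continuous_const)
  obtain ⟨v, h1, h2⟩ := exists_smooth_iso (I := I) (fun x => (fsm_iff_mx _ _).1 (hp x))
    (fun x => (fsm_iff_mx _ _).1 (hq x)) hc (fun x => (h x).mat) hC hO hCO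
    (fun x hx => (fsm_iff_mx _ _).1 (hs x hx))
  exact ⟨fun x => (mx (stdOrthonormalBasis ℝ V) (stdOrthonormalBasis ℝ W)).symm (v x),
    fun x => ⟨(h1 x).1.mx_symm _ _, (cIso_iff (stdOrthonormalBasis ℝ V)
      (stdOrthonormalBasis ℝ W)).2 (by simpa using (h1 x).2)⟩,
    fun x hx => by simp only [h2 x hx, LinearEquiv.symm_apply_apply]⟩

end

end Crest.Agent.X212.Pj41
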