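import Crest.Agent.X212.Pj41.Grl
import Crest.Agent.X212.Nd18.Api
import Crest.Agent.X212.Cht98.Dp
import Crest.Agent.X212.Mod61.Hs

/-!
# X212 / NECKGLUE (helper41): a configuration which is standard at its ends is made literal and
extended over the neck
-/

set_option autoImplicit false
set_option linter.unusedSectionVars false

open Set Function Filter Topology
open scoped ContDiff Manifold InnerProductSpace

namespace Crest.Agent.X212.Pj41

open An Sob92 Nd18 Cyf70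
open Tmp64 (AdmOn Eq0 admOn_univ)

noncomputable section

variable {E : Type} [NormedAddCommGroup E] [NormedSpace ℝ E] [FiniteDimensional ℝ E]
  [MeasurableSpace E] [BorelSpace E]
  {HM : Type} [TopologicalSpace HM] {I : ModelWithCorners ℝ E HM} [I.Boundaryless]
  {M : Type} [TopologicalSpace M] [ChartedSpace HM M] [IsManifold I ∞ M]
  [MeasurableSpace M] [T2Space M] [BorelSpace M] [SecondCountableTopology M]
  {lam : Type} [Fintype lam] {r r' : ℕ}

section gen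
variable {ι : Type} [Fintype ι] {B : Base M ι lam} {G : Geo I M ι lam} {O : Set M}

/-- multiplication of the spinor by a phase -/
@[reducible] def ph {Z : Type} (ζ : Circle) (c : Cfg Z ι lam r) : Cfg Z ι lam r :=
  ⟨c.m, c.W, fun x => cs c.m.J ζ (c.Φ x), c.z⟩

theorem admOn_ph (ζ : Circle) {c : Cfg M ι lam r} (h : AdmOn c B G O) : AdmOn (ph ζ c) B G O :=
  ⟨h.ok, h.conn, fun x hx => (Eqv71.csL c.m.J ζ).contDiff.contDiffAt.comp_contMDiffAt (h.sm x hx),
    fun x hx => by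
      have k : c.m.pp B x (c.m.J (c.Φ x)) = c.m.J (c.m.pp B x (c.Φ x)) := by
        have e : ∀ a v, c.m.ρ a x (c.m.J v) = c.m.J (c.m.ρ a x v) := fun a v =>
          (DFunLike.congr_fun (h.ok.Jρ a x hx) v).symm
        have e' : ∀ v, c.m.p x (c.m.J v) = c.m.J (c.m.p x v) := fun v =>
          (DFunLike.congr_fun (h.ok.Jp x hx) v).symm
        simp only [Md.pp, Md.om, smul_apply, sub_apply, sum_apply, mul_apply_eq_comp, map_smul,
          map_sub, map_sum, e, e']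
      simp only [cs, map_add, map_smul, k, h.pos x hx], h.z⟩

theorem par0_of_ad {m m' : Md M ι lam} {W : m.Cn} {W' : m'.Cn} {u : M → CL m.V m'.V}
    (hO : IsOpen O) (h : Iso0 I m m' O u) (hm : OKOn I B m O) (hW : ConnOn B G m W O)
    (e : ∀ x ∈ O, ∀ a, (G.F.D a u x + W' a x ∘L u x - u x ∘L W a x) ∘L ad (u x) = 0) :
    Par0 G.F W W' O u := fun x hx a => by
  have h1 : G.F.D a u x = G.F.D a u x ∘L m.p x + u x ∘L G.F.D a m.p x := by
    rw [Pre.D_def, Pre.D_def, ← dv_cc (h.su x hx) (hm.sp x hx)]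
    exact dv_congr ((hO.eventually_mem hx).mono fun y hy => (h.iso y hy).idem.symm)
  have h2 : G.F.D a m.p x = m.p x ∘L W a x - W a x ∘L m.p x := by
    rw [← sub_eq_zero, ← hW.par0_refl x hx a]; abel
  have h3 := congrArg (· ∘L u x) (e x hx a)
  simp only [ContinuousLinearMap.comp_assoc, (h.iso x hx).src, ContinuousLinearMap.zero_comp,
    ContinuousLinearMap.sub_comp, ContinuousLinearMap.add_comp, (h.iso x hx).idem] at h3
  rw [h1, h2, ← h3, ContinuousLinearMap.comp_sub, ← ContinuousLinearMap.comp_assoc (u x) (m.p x),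
    (h.iso x hx).idem]
  abel

/-- an equivalence of bounded configurations is bounded -/
theorem cb_of_eq0 {c c' : Cfg M ι lam r} {u : M → CL c.m.V c'.m.V} (h : Eq0 G.F c c' univ u)
    (h1 : ∀ a, G.F.Cb (c.W a)) (h2 : ∀ a, G.F.Cb (c'.W a)) : G.F.Cb u :=
  Mod61.cb_of_ode (L := fun a x => (ContinuousLinearMap.compL ℝ c.m.V c.m.V c'.m.V).flip (c.W a x) -
      ContinuousLinearMap.compL ℝ c.m.V c'.m.V c'.m.V (c'.W a x))
    (fun x => (h.iso.su x trivial).md)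
    (fun a x => by
      show _ = u x ∘L c.W a x - c'.W a x ∘L u x
      rw [← sub_eq_zero, ← h.par x trivial a]; abel)
    (fun a => Cb_sub (Cb_clm _ (h1 a)) (Cb_clm _ (h2 a))) (C := 1) fun x =>
    (u x).opNorm_le_bound zero_le_one fun v => by
      have k := h.iso.iso x trivial
      rw [one_mul]
      exact Eqv71.norm_le_of_proj (π := c.m.p x) (fun a b => (k.inner a b).trans (k.prj_src.symm a b))
        (fun a => by rw [k.prj_src.symm, k.prj_src.app]) v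

theorem exists_bAc {c : Cfg M ι lam r} (hc : c.Adm B G) {K : Set M} (hK : IsCompact K) :
    ∃ C, ∀ x ∈ K, BAc G.F.toPre c C x := by
  obtain ⟨C1, h1⟩ := Cht98.bOn_compact G.F.toPre hK
    (f := Sum.elim (fun o : Option ι => o.elim c.m.p c.m.ρ) c.W) (by
      rintro ((_ | a) | a)
      exacts [hc.ok.sp, hc.ok.sρ a, fun x => hc.conn.cc.sm a x])
  obtain ⟨C2, h2⟩ := Cht98.bOn_compact G.F.toPre hK (f := fun _ : Unit => c.m.j) fun _ => hc.ok.sj
  obtain ⟨C3, h3⟩ := Cht98.bOn_compact G.F.toPre hK (f := fun _ : Unit => c.Φ) fun _ => hc.sm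
  exact ⟨fun k => max (C1 k) (max (C2 k) (C3 k)), fun x hx =>
    ⟨fun k w hw => (h1 (.inl none) k w hw x hx).trans (by simp),
      fun a k w hw => (h1 (.inl (some a)) k w hw x hx).trans (by simp),
      fun k w hw => (h2 () k w hw x hx).trans (by simp),
      fun a k w hw => (h1 (.inr a) k w hw x hx).trans (by simp),
      fun k w hw => (h3 () k w hw x hx).trans (by simp)⟩⟩

end gen

variable {E3 : Type} [NormedAddCommGroup E3] [NormedSpace ℝ E3] [FiniteDimensional ℝ E3]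
  [MeasurableSpace E3] [BorelSpace E3]
  {H3 : Type} [TopologicalSpace H3] {I3 : ModelWithCorners ℝ E3 H3} [I3.Boundaryless]
  {Y : Type} [TopologicalSpace Y] [ChartedSpace H3 Y] [IsManifold I3 ∞ Y] [T2Space Y]
  [MeasurableSpace Y] [BorelSpace Y] [SecondCountableTopology Y] [CompactSpace Y]
  {κ : Type} [Fintype κ] {D : YD I3 Y κ lam} {B : Base M (Option κ) lam}
  {G : Geo I M (Option κ) lam}

theorem nk_gRel (K : Nk D B G) : GRel D.B D.G B G K.ψ K.ψ.source :=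
  ⟨K.rel, fun a b x hx => (K.P a b x hx).symm, fun a b c d x hx => (K.o a b c d x hx).symm,
    fun x hx => (K.l x hx).symm, K.il.symm, fun a x hx => (K.a a x hx).symm⟩

/-! ### the cross-section -/

section yd
variable {β : YC Y κ lam} (hβ : D.Adm β)
include hβ

theorem adm_ph (ζ : Circle) : D.Adm (ph ζ β) :=
  ⟨admOn_univ.1 (admOn_ph ζ (admOn_univ.2 hβ.adm)), hβ.tmp⟩

variable {N : ℕ} {J : En (Fin N)} {i : CL β.m.V (Eu (Fin N))}

theorem adm_stab (hi : Emb β.m.J J i) : D.Adm (stab β J i) :=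
  ⟨admOn_univ.1 (stab_spec (c := cy β) hi isOpen_univ (admOn_univ.2 hβ.adm)).1,
    fun y => by simp only [hβ.tmp y, map_zero]⟩

theorem eqv_stab (hD : D.OK) (hi : Emb β.m.J J i) (ζ : Circle) :
    CEq D.Z (cy β) (cy (stab (ph ζ β) J i)) univ id (fun x b a => D.B.P b a x) D.B.l
      (fun x => i ∘L β.m.p x.1) ζ := by
  have h0 := admOn_univ.2 hβ.adm
  obtain ⟨h1, h2⟩ := stab_spec (c := cy β) hi isOpen_univ h0
  have k := h2.cEq hD.B h0 h1
  refine ⟨k.m, k.W, fun x _ => ?_, Subsingleton.elim _ _⟩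
  have e : J (i (β.Φ x.1)) = i (β.m.J (β.Φ x.1)) := DFunLike.congr_fun hi.J _
  have e' : β.m.p x.1 (β.Φ x.1) = β.Φ x.1 := h0.pΦ (mem_univ x)
  show i (cs β.m.J ζ (β.Φ x.1)) = cs J ζ (i (β.m.p x.1 (β.Φ x.1)))
  simp only [cs, map_add, map_smul, e, e']

theorem exists_cbc_cy : ∃ C, CBc D.Z.toPre (cy β) C := by
  have s : ∀ {V : Type} [NormedAddCommGroup V] [NormedSpace ℝ V] {f : Y → V},
      Sm (IC I3) (fun x : Y × ℝ => f x.1) → D.Z.Cb fun x : Y × ℝ => f x.1 := fun h =>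
    Cht98.Cb_fst D.F.toPre (Cb_of_compact (h.comp (contMDiff_id.prodMk (contMDiff_const (c := 0)))))
  exact exists_cbc.2 ⟨s hβ.adm.ok.sp, fun a => s (hβ.adm.ok.sρ a), s hβ.adm.ok.sj,
    fun a => s fun x => hβ.adm.conn.cc.sm a x, s hβ.adm.sm⟩

theorem of_cls {c : Cfg (Y × ℝ) (Option κ) lam r} {u : Y × ℝ → CL c.m.V β.m.V} {ζ : Circle}
    {S : Set ℝ} (h : D.Cls c β u ζ S 0 0) (hc : AdmOn c D.B D.G (univ ×ˢ S)) :
    Iso0 (IC I3) c.m (cy β).m (univ ×ˢ S) u ∧ Par0 D.Z c.W (cy β).W (univ ×ˢ S) u ∧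
      ∀ x ∈ univ ×ˢ S, cs β.m.J (ζ⁻¹ : Circle) (β.Φ x.1) = u x (c.Φ x) := by
  have o := isOpen_univ (X := Y) |>.prod h.op
  have k : Iso0 (IC I3) c.m (cy β).m (univ ×ˢ S) u :=
    Iso0.of_mEq (m' := (cy β).m) o h.m hc.ok (OK.on hβ.adm.ok _)
  have hA : ∀ a, ∀ x ∈ univ ×ˢ S, D.dA c β u a x = 0 := fun a x hx =>
    norm_le_zero_iff.1 (h.A a [] le_rfl x hx)
  have hP : ∀ x ∈ univ ×ˢ S, YD.dP c β u ζ x = 0 := fun x hx =>
    norm_le_zero_iff.1 (h.P [] le_rfl x hx)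
  simp only [YD.dA, ← ad_trn] at hA
  simp only [YD.dP, sub_eq_zero] at hP
  refine ⟨k, par0_of_ad (G := D.G) (W' := (cy β).W) o k hc.ok hc.conn fun x hx a => hA a x hx,
    fun x hx => ?_⟩
  rw [← hP x hx, Eqv71.cs_mul (show β.m.J * β.m.J = -1 from hβ.adm.ok.Jsq), ← Circle.coe_mul, inv_mul_cancel]
  exact Eqv71.cs_one _ _

end yd

/-! ### ends -/

open Classical in
/-- a function defined by cases on disjoint sets -/
def pick {A Z α : Type} (T : A → Set Z) (f : A → Z → α) (d : α) (x : Z) : α :=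
  if h : ∃ e, x ∈ T e then f h.choose x else d

theorem pick_eq {A Z α : Type} {T : A → Set Z} (hd : Pairwise (Disjoint on T)) (f : A → Z → α)
    (d : α) {e : A} {x : Z} (hx : x ∈ T e) : pick T f d x = f e x := by
  have h : ∃ e, x ∈ T e := ⟨e, hx⟩
  rw [pick, dif_pos h, show h.choose = e from by_contra fun k =>
    disjoint_left.1 (hd k) h.choose_spec hx]

theorem nk_sm (K : Nk D B G) {f : ℝ → ℝ} (hf : ContDiff ℝ ∞ f) {C : Set ℝ} (hC : IsClosed C)
    (hJ : C ⊆ K.J) (h0 : ∀ t ∉ C, f t = 0) : Sm I fun x => f (K.tm x) := fun x => by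
  by_cases hx : x ∈ K.ψ.target
  · exact ((sm_snd (I := I3) (Y := Y) hf _).comp x (iso_smAt (iso_symm K.iso) hx)).congr_of_eventuallyEq
      ((K.ψ.open_target.eventually_mem hx).mono fun y hy => by
        simp only [comp_apply, K.snd_symm hy])
  · exact (contMDiffAt_const (c := 0)).congr_of_eventuallyEq
      (((hC.preimage K.cont).isOpen_compl.eventually_mem fun k => hx (K.tgt ▸ hJ k)).mono
        fun y hy => h0 _ hy)

theorem nk_image (K : Nk D B G) {S : Set ℝ} (hS : S ⊆ K.J) {x : M} (hx : K.tm x ∈ S) :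
    x ∈ K.ψ '' {z | z.2 ∈ S} :=
  have h : x ∈ K.ψ.target := K.tgt ▸ hS hx
  ⟨K.ψ.symm x, by rwa [mem_ofPred_eq, K.snd_symm h], K.ψ.right_inv h⟩

section ends
variable {A : Type} [Fintype A] {K : A → Nk D B G} {σ : A → ℝ} {R : ℝ}
  (hJ : ∀ e t, R ≤ σ e * t → t ∈ (K e).J)
include hJ

theorem exists_height : ∃ h : M → ℝ, Sm I h ∧ (∀ x, 0 < h x → ∃ e, R < σ e * (K e).tm x) ∧
    ∀ e x, R + 4 ≤ σ e * (K e).tm x → 4 ≤ h x := by
  have st := Real.smoothTransition.contDiff (n := ⊤)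
  have z : ∀ s ≤ 0, s * Real.smoothTransition s = 0 := fun s hs => by
    rw [Real.smoothTransition.zero_of_nonpos hs, mul_zero]
  have n : ∀ s, 0 ≤ s * Real.smoothTransition s := fun s => (le_total s 0).elim
    (fun hs => (z s hs).ge) fun hs => mul_nonneg hs (Real.smoothTransition.nonneg _)
  refine ⟨fun x => ∑ e, (σ e * (K e).tm x - R) * Real.smoothTransition (σ e * (K e).tm x - R),
    contMDiff_finsetSum fun e _ => nk_sm (K e)
      (f := fun t => (σ e * t - R) * Real.smoothTransition (σ e * t - R)) (by fun_prop)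
      (C := {t | R ≤ σ e * t}) (isClosed_le continuous_const (by fun_prop)) (hJ e) fun t ht => z _ (by
        linarith [lt_of_not_ge (show ¬R ≤ σ e * t from ht)]), fun x hx => by_contra fun k => hx.ne' ?_, fun e x hx => ?_⟩
  · exact Finset.sum_eq_zero fun e _ => z _ (by linarith [not_lt.1 fun k' => k ⟨e, k'⟩])
  · refine le_trans ?_ (Finset.single_le_sum (fun e _ => n _) (Finset.mem_univ e))
    rw [Real.smoothTransition.one_of_one_le (by linarith)]; linarith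

/-- bounds of a configuration which is literal on the ends -/
theorem cbc_of_ends (hσ : ∀ e, σ e = 1 ∨ σ e = -1) {c c' : Cfg M (Option κ) lam r}
    (hc' : c'.Adm B G) {β : YC Y κ lam} (hβ : D.Adm β) {i₁ : CL c.m.V c'.m.V}
    {i : CL β.m.V c'.m.V} (h1 : ∀ x, (∀ e, σ e * (K e).tm x < R) → LitAt c' c i₁ x x) {R' : ℝ}
    (h2 : ∀ e z, R' < σ e * z.2 → LitAt c' β i ((K e).ψ z) z.1) {C : ℕ → ℝ}
    (hC : CBc G.F.toPre c C) : ∃ C, CBc G.F.toPre c' C := by
  obtain ⟨C1, k1⟩ := exists_cbc_stab hC c'.m.J i₁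
  obtain ⟨C2, k2⟩ := exists_cbc_cy hβ
  obtain ⟨C3, k3⟩ := exists_cbc_stab k2 c'.m.J i
  have cp : ∀ e, IsCompact {t | R ≤ σ e * t ∧ σ e * t ≤ max R R'} := fun e =>
    (isCompact_Icc (a := -(|R| + |max R R'|)) (b := |R| + |max R R'|)).of_isClosed_subset
      (isClosed_Icc.preimage (f := fun t => σ e * t) (by fun_prop))
      fun t ht => by
        have := abs_nonneg R; have := abs_nonneg (max R R'); have := neg_abs_le R
        have := le_abs_self (max R R')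
        rcases hσ e with k | k <;> simp only [k, mem_ofPred_eq] at ht <;> constructor <;> linarith
  obtain ⟨C4, k4⟩ := exists_bAc hc' (isCompact_iUnion fun e =>
    (Cht98.nck (K e)).isCompact (cp e) fun t ht => hJ e t ht.1)
  refine ⟨fun k => max (C1 k) (max (C3 k) (C4 k)), cbc_of_bAc hc' fun x => ?_⟩
  by_cases a1 : ∀ e, σ e * (K e).tm x < R
  · have o : IsOpen {x | ∀ e, σ e * (K e).tm x < R} := by
      rw [ofPred_forall]
      exact isOpen_iInter_of_finite fun e =>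
        isOpen_lt (continuous_const.mul (K e).cont) continuous_const
    exact ((FRel.refl G.F o).bAc_lit k1 h1 a1).mono fun k => by simp
  obtain ⟨e, he⟩ := not_forall.1 a1
  by_cases a2 : σ e * (K e).tm x ≤ max R R'
  · exact (k4 x (mem_iUnion.2 ⟨e, not_lt.1 he, a2⟩)).mono fun k => by simp
  have s : {t | max R R' < σ e * t} ⊆ (K e).J := fun t ht => hJ e t ((le_max_left _ _).trans ht.le)
  obtain ⟨z, hz, rfl⟩ := nk_image (K e) s (not_le.1 a2)
  exact (((K e).rel.mono (isOpen_lt continuous_const (by fun_prop)) fun z hz =>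
    (K e).mem_src.2 (s hz)).bAc_lit (c₀ := cy β) k3 (fun z hz =>
      let k := h2 e z ((le_max_right _ _).trans_lt hz); ⟨k.p, k.ρ, k.j, k.W, k.Φ⟩) hz).mono
    fun k => by simp

end ends

/-- on one end -/
theorem end_data (K : Nk D B G) {c : Cfg M (Option κ) lam r} (hc : c.Adm B G) {β : YC Y κ lam}
    (hβ : D.Adm β) {ζ : Circle} {u : Y × ℝ → CL c.m.V β.m.V} {S T : Set ℝ} (hT : IsOpen T)
    (hS : T ⊆ S) (hJ : S ⊆ K.J) (h : D.Cls (K.pb c) β u ζ S 0 0) {π : M → Y}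
    {v : M → CL c.m.V β.m.V} (hπ : ∀ z ∈ K.ψ.source, π (K.ψ z) = z.1)
    (hv : ∀ z ∈ K.ψ.source, v (K.ψ z) = u z) :
    AdmOn (cmC π (ph ζ⁻¹ β)) B G (K.ψ '' {z | z.2 ∈ T}) ∧
      Iso0 I c.m (cmM π β.m) (K.ψ '' {z | z.2 ∈ T}) v ∧
      Par0 G.F (m' := cmM π β.m) c.W (fun a x => β.W a (π x)) (K.ψ '' {z | z.2 ∈ T}) v ∧
      ∀ x ∈ K.ψ '' {z | z.2 ∈ T}, (ph ζ⁻¹ β).Φ (π x) = v x (c.Φ x) := by
  have o : IsOpen {z : Y × ℝ | z.2 ∈ T} := hT.preimage continuous_snd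
  have s : {z : Y × ℝ | z.2 ∈ T} ⊆ K.ψ.source := fun z hz => K.mem_src.2 (hJ (hS hz))
  have s' : {z : Y × ℝ | z.2 ∈ T} ⊆ univ ×ˢ S := fun z hz => ⟨trivial, hS hz⟩
  have g := (nk_gRel K).mono o s
  obtain ⟨k1, k2, k3⟩ := of_cls hβ h ((((nk_gRel K).admOn_iff (c := c)).2
    ((admOn_univ.2 hc).mono (subset_univ _))).mono fun z hz => K.mem_src.2 (hJ hz.2))
  have k1 := (k1.mono s').congr o fun z hz => hv z (s hz)
  have k2 := (k2.mono s').congr o fun z hz => hv z (s hz)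
  refine ⟨g.admOn_iff.1 (admOn_same o (fun z hz => congrArg β.m.p (hπ z (s hz)))
      (fun b z hz => congrArg (β.m.ρ b) (hπ z (s hz))) (fun z hz => congrArg β.m.j (hπ z (s hz)))
      ((admOn_univ.2 (adm_ph hβ ζ⁻¹).adm).mono (subset_univ _))
      (fun b z hz => congrArg (β.W b) (hπ z (s hz)))
      (fun z hz => congrArg (ph ζ⁻¹ β).Φ (hπ z (s hz))) (.inl rfl)),
    g.fr.iso0_push ⟨k1.su, fun z hz => ?_, k1.J, fun z hz b => ?_, fun z hz t => ?_⟩,
    g.fr.par0_push (m' := cmM π β.m) fun z hz a => ?_, forall_mem_image.2 fun z hz => ?_⟩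
  · dsimp only; rw [hπ z (s hz)]; exact k1.iso z hz
  · dsimp only; rw [hπ z (s hz)]; exact k1.ρ z hz b
  · dsimp only; rw [hπ z (s hz)]; exact k1.j z hz t
  · dsimp only; rw [hπ z (s hz)]; exact k2 z hz a
  · rw [hπ z (s hz), hv z (s hz)]; exact k3 z (s' hz)

/-- **NECKGLUE, part 1**: a configuration which is standard at finitely many disjoint ends is
equivalent to one which is literally `β'` at the ends, `β' = stab (ph ζ⁻¹ β) c'.m.J i`. -/
theorem neck_lit [Nonempty Y] {A : Type} [Fintype A] (K : A → Nk D B G) {σ : A → ℝ}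
    {l : A → Filter ℝ} (hl : ∀ e, l e = atTop ∧ σ e = 1 ∨ l e = atBot ∧ σ e = -1)
    (hd : Pairwise (Disjoint on fun e => (K e).ψ.target)) (hG : G.F.P = B.P)
    {c : Cfg M (Option κ) lam r} (hc : c.Adm B G) {β : YC Y κ lam} (hβ : D.Adm β) {ζ : Circle}
    (hs : ∀ e, (K e).Std c β ζ (l e)) :
    ∃ (c' : Cfg M (Option κ) lam r) (i : CL β.m.V c'.m.V) (a : M → CL c.m.V c'.m.V) (R : ℝ),
      Emb β.m.J c'.m.J i ∧ c'.Adm B G ∧ Eq0 G.F c c' univ a ∧
      (∀ e t, R ≤ σ e * t → t ∈ (K e).J) ∧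
      (∀ e z, R ≤ σ e * z.2 → LitAt c' (ph ζ⁻¹ β) i ((K e).ψ z) z.1) ∧
      ∀ C, CBc G.F.toPre c C → (∃ C', CBc G.F.toPre c' C') ∧ G.F.Cb a := by
  choose u S hS hJ hC using hs
  have : ∀ e, ∀ᶠ R in atTop, ∀ t, R ≤ σ e * t → t ∈ S e := fun e => by
    rcases hl e with ⟨k1, k2⟩ | ⟨k1, k2⟩
    · obtain ⟨a, ha⟩ := mem_atTop_sets.1 (k1 ▸ hS e)
      exact (eventually_ge_atTop a).mono fun R h t ht => ha t (by rw [k2] at ht; linarith)
    · obtain ⟨a, ha⟩ := mem_atBot_sets.1 (k1 ▸ hS e)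
      exact (eventually_ge_atTop (-a)).mono fun R h t ht => ha t (by rw [k2] at ht; linarith)
  obtain ⟨R, hR⟩ := (eventually_all.2 this).exists
  have hJ' : ∀ e t, R ≤ σ e * t → t ∈ (K e).J := fun e t ht => hJ e (hR e t ht)
  obtain ⟨π, hπ⟩ : ∃ π : M → Y, ∀ e, ∀ z ∈ (K e).ψ.source, π ((K e).ψ z) = z.1 :=
    ⟨pick _ (fun e x => ((K e).ψ.symm x).1) (Classical.arbitrary Y), fun e z hz => by
      rw [pick_eq hd _ _ ((K e).ψ.map_source hz), (K e).ψ.left_inv hz]⟩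
  obtain ⟨v, hv⟩ : ∃ v : M → CL c.m.V β.m.V, ∀ e, ∀ z ∈ (K e).ψ.source, v ((K e).ψ z) = u e z :=
    ⟨pick _ (fun e x => u e ((K e).ψ.symm x)) 0, fun e z hz => by
      rw [pick_eq hd _ _ ((K e).ψ.map_source hz), (K e).ψ.left_inv hz]⟩
  have k := fun e => end_data (K e) hc hβ (T := {t | R < σ e * t})
    (isOpen_lt continuous_const (by fun_prop)) (fun t ht => hR e t ht.le) (hJ e) (hC e) (hπ e) (hv e)
  obtain ⟨h, h1, h2, h3⟩ := exists_height hJ'
  have h4 : ∀ x ∈ {x | 0 < h x}, ∃ e, x ∈ (K e).ψ '' {z | z.2 ∈ {t | R < σ e * t}} := fun x hx =>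
    (h2 x hx).imp fun e he => nk_image (K e) (fun t ht => hJ' e t (le_of_lt ht)) he
  obtain ⟨c', i₁, i, a, q1, q2, -, q3, -, -, q4, q5⟩ := exists_lit (c₂ := cmC π (ph ζ⁻¹ β)) hG hc
    (admOn_of_local hβ.adm.ok.Jsq hβ.adm.ok.Jsk (.inl rfl) fun x hx =>
      let ⟨e, he⟩ := h4 x hx; ⟨_, he, (k e).1⟩)
    (iso0_of_local fun x hx => let ⟨e, he⟩ := h4 x hx; ⟨_, he, (k e).2.1⟩) h1 fun _ hx => hx
  have q6 := q5 univ isOpen_univ
    (fun x hx => let ⟨e, he⟩ := h4 x (three_pos.trans (show 3 < h x from hx.2) :); (k e).2.2.1 x he)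
    fun x _ hx => let ⟨e, he⟩ := h4 x (three_pos.trans hx :); (k e).2.2.2 x he
  have q7 : ∀ e z, R + 4 ≤ σ e * z.2 → LitAt c' (ph ζ⁻¹ β) i ((K e).ψ z) z.1 := fun e z hz => by
    have s := (K e).mem_src.2 (hJ' e z.2 (by linarith))
    have j := q4 _ (h3 e _ (by rwa [(K e).tm_ψ z s]))
    rw [← hπ e z s]
    exact ⟨j.p, j.ρ, j.j, j.W, j.Φ⟩
  refine ⟨c', i, a, R + 4, q1.e₂, q2, q6, fun e t ht => hJ' e t (by linarith), q7, fun C hC => ?_⟩
  obtain ⟨C', hC'⟩ := cbc_of_ends hJ' (fun e => (hl e).imp And.right And.right) q2 (adm_ph hβ ζ⁻¹)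
    (fun x hx => q3 x ((not_lt.1 fun k => (h2 x k).elim fun e he => lt_asymm he (hx e)).trans
      zero_le_one)) (fun e z hz => q7 e z hz.le) hC
  exact ⟨⟨C', hC'⟩, cb_of_eq0 q6 (fun a => ⟨C, hC.W a⟩) fun a => ⟨C', hC'.W a⟩⟩

/-- a literal configuration is standard in the trivial gauge -/
theorem cls_of_lit (K : Nk D B G) {c : Cfg M (Option κ) lam r} {β : YC Y κ lam} (hβ : D.Adm β)
    {i : CL β.m.V c.m.V} (hi : Emb β.m.J c.m.J i) {S : Set ℝ} (hS : IsOpen S)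
    (h : ∀ z : Y × ℝ, z.2 ∈ S → LitAt c β i (K.ψ z) z.1) (k : ℕ) :
    D.Cls (K.pb c) (stab β c.m.J i) (fun z => cjL i (β.m.p z.1)) 1 S k 0 := by
  have o := isOpen_univ (X := Y) |>.prod hS
  have h0 := (admOn_univ.2 (adm_stab hβ hi).adm).mono (subset_univ (univ ×ˢ S))
  obtain ⟨k1, k2⟩ := h0.ok.same o (fun z hz => (h z hz.2).p) (fun b z hz => (h z hz.2).ρ b)
    fun z hz => (h z hz.2).j
  have z0 : ∀ {V : Type} [NormedAddCommGroup V] [NormedSpace ℝ V] {f : Y × ℝ → V},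
      (∀ z ∈ univ ×ˢ S, f z = 0) → ∀ w : List (Option κ), ∀ z ∈ univ ×ˢ S, ‖D.Z.Dw w f z‖ ≤ 0 :=
    fun e w z hz => by
      rw [(FRel.refl D.Z o).Dw hz w (u' := fun _ => 0) ((o.eventually_mem hz).mono e)]
      exact (CB_const (F := D.Z.toPre) w.length 0 w le_rfl z).trans norm_zero.le
  have k3 := (k2.symm h0.ok k1).congr o (u' := fun z : Y × ℝ => cjL i (β.m.p z.1)) fun z hz =>
    (h0.ok.prj hz).herm.symm
  refine ⟨hS, k3.mEq k1 h0.ok, fun a w _ => z0 (fun z hz => ?_) w, fun w _ => z0 (fun z hz => ?_) w⟩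
  · have e := h0.conn.par0_refl z hz a
    have e' : (K.pb c).W a z = cjL i (β.W a z.1) := (h z hz.2).W a
    rw [YD.dA, e']
    exact (congrArg (· ∘L trn (cjL i (β.m.p z.1))) e).trans (ContinuousLinearMap.zero_comp _)
  · have e' : (K.pb c).Φ z = i (β.Φ z.1) := (h z hz.2).Φ
    rw [YD.dP, e', Circle.coe_one, Eqv71.cs_one]
    exact sub_eq_zero.2 (h0.pΦ hz)

/-! ### the closed manifold -/

variable {E' : Type} [NormedAddCommGroup E'] [NormedSpace ℝ E'] [FiniteDimensional ℝ E']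
  [MeasurableSpace E'] [BorelSpace E']
  {HM' : Type} [TopologicalSpace HM'] {I' : ModelWithCorners ℝ E' HM'} [I'.Boundaryless]
  {X : Type} [TopologicalSpace X] [ChartedSpace HM' X] [IsManifold I' ∞ X]
  [MeasurableSpace X] [T2Space X] [BorelSpace X] [SecondCountableTopology X]
  {B' : Base X (Option κ) lam} {G' : Geo I' X (Option κ) lam} {φ : M → X}

section cover
variable {c : Cfg X (Option κ) lam r} {O : Set M} (K : Nk D B' G') {V : Set (Y × ℝ)}
  (hV : IsOpen V) (hs : V ⊆ K.ψ.source) {β : YC Y κ lam} {i : CL β.m.V c.m.V}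
  (hl : ∀ z ∈ V, LitAt c β i (K.ψ z) z.1) (cov : ∀ x, x ∈ φ '' O ∨ x ∈ K.ψ '' V)
include hV hs hl cov

/-- **NECKGLUE, part 3**: admissibility for every background which is literal on the two parts -/
theorem adm_of_cover (g : GRel B G B' G' φ O) (h : AdmOn (cmC φ c) B G O) (hβ : D.Adm β)
    (hi : Emb β.m.J c.m.J i) : c.Adm B' G' :=
  admOn_univ.1 (admOn_of_local h.ok.Jsq h.ok.Jsk h.z fun x _ => (cov x).elim
    (fun k => ⟨_, k, g.admOn_iff.1 h⟩) fun k => ⟨_, k, ((nk_gRel K).mono hV hs).admOn_lit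
      (c₀ := cy β) ((admOn_univ.2 hβ.adm).mono (subset_univ _)) hi
      (fun z hz => let k := hl z hz; ⟨k.p, k.ρ, k.j, k.W, k.Φ⟩) h.z⟩)

/-- the bounds do not depend on the background -/
theorem cbc_of_cover (g : FRel G.F G'.F φ O) (hc : c.Adm B' G') {C : ℕ → ℝ}
    (h : CBc G.F.toPre (cmC φ c) C) (h' : CBc D.Z.toPre (cy (stab β c.m.J i)) C) :
    CBc G'.F.toPre c C :=
  cbc_of_bAc hc fun x => (cov x).elim (fun ⟨_, k, e⟩ => e ▸ g.bAc h k) fun ⟨_, k, e⟩ =>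
    e ▸ (K.rel.mono hV hs).bAc_lit (c₀ := cy β) h'
      (fun z hz => let k := hl z hz; ⟨k.p, k.ρ, k.j, k.W, k.Φ⟩) k

end cover

theorem eq0_extC {ι Y : Type} [Fintype ι] {F : Fr I M ι} {c c' : Cfg M ι lam r} {O : Set M}
    {a : M → CL c.m.V c'.m.V} (h : Eq0 F c c' O a) (hφ : Injective φ) (π : X → Y)
    (β : Cfg Y ι lam r') (i : CL β.m.V c'.m.V) : Eq0 F c (cmC φ (extC φ π c' β i)) O a :=
  ⟨⟨h.iso.su, fun x hx => (congrArg (CIso (a x) (c.m.p x))
      (hφ.extend_apply c'.m.p (fun x => cjL i (β.m.p (π x))) x)).mpr (h.iso.iso x hx), h.iso.J,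
    fun x hx b => (congrArg (· ∘L a x) (hφ.extend_apply (c'.m.ρ b) _ x)).trans (h.iso.ρ x hx b),
    fun x hx s => (congrArg (· s ∘L a x) (hφ.extend_apply c'.m.j _ x)).trans (h.iso.j x hx s)⟩,
   fun x hx b => (congrArg (F.D b a x + · ∘L a x - a x ∘L c.W b x)
     (hφ.extend_apply (c'.W b) _ x)).trans (h.par x hx b),
   fun x hx => (hφ.extend_apply c'.Φ (fun x => i (β.Φ (π x))) x).trans (h.Φ x hx), h.z⟩

/-- **NECKGLUE, part 2**: one configuration `cX` on `X` whose pull-back is equivalent to `c` and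
which is literally `β' ∘ π` off the image of the compact part. -/
theorem neckglue [Nonempty Y] {A : Type} [Fintype A] (K : A → Nk D B G) {σ : A → ℝ}
    {l : A → Filter ℝ} (hl : ∀ e, l e = atTop ∧ σ e = 1 ∨ l e = atBot ∧ σ e = -1)
    (hd : Pairwise (Disjoint on fun e => (K e).ψ.target)) (hG : G.F.P = B.P)
    {c : Cfg M (Option κ) lam r} (hc : c.Adm B G) {β : YC Y κ lam} (hβ : D.Adm β) {ζ : Circle}
    (hs : ∀ e, (K e).Std c β ζ (l e)) (hφ : Injective φ) {π : X → Y}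
    (hπ : ∀ e, ∀ z ∈ (K e).ψ.source, π (φ ((K e).ψ z)) = z.1) :
    ∃ (cX : Cfg X (Option κ) lam r) (i : CL β.m.V cX.m.V) (a : M → CL c.m.V cX.m.V) (R : ℝ),
      Emb β.m.J cX.m.J i ∧ (cmC φ cX).Adm B G ∧ Eq0 G.F c (cmC φ cX) univ a ∧
      (∀ e t, R ≤ σ e * t → t ∈ (K e).J) ∧
      (∀ x, (∀ y, φ y = x → ∃ e, R ≤ σ e * (K e).tm y) → LitAt cX (ph ζ⁻¹ β) i x (π x)) ∧
      ∀ C, CBc G.F.toPre c C → (∃ C', CBc G.F.toPre (cmC φ cX) C') ∧ G.F.Cb a := by
  obtain ⟨c', i, a, R, h1, h2, h3, h4, h5, h6⟩ := neck_lit K hl hd hG hc hβ hs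
  refine ⟨extC φ π c' (ph ζ⁻¹ β) i, i, a, R, h1, by rwa [cmC_extC _ _ _ _ hφ],
    eq0_extC h3 hφ _ _ _, h4, fun x hx => litAt_extC hφ fun y hy => ?_,
    fun C hC => ⟨by rw [cmC_extC _ _ _ _ hφ]; exact (h6 C hC).1, (h6 C hC).2⟩⟩
  obtain ⟨e, he⟩ := hx y hy
  obtain ⟨z, hz, rfl⟩ := nk_image (K e) (S := {t | R ≤ σ e * t}) (h4 e) he
  rw [← hy, hπ e z ((K e).mem_src.2 (h4 e _ hz))]
  exact h5 e z hz

end

end Crest.Agent.X212.Pj41
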