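import Crest.Agent.X212.Pj41.Ml

/-!
# X212 / ML (helper41): the groupoid of identifications of marks and of marked lines; padding
-/

set_option autoImplicit false
set_option linter.unusedSectionVars false

open Set Function Filter Topology Matrix
open scoped ContDiff Manifold

namespace Crest.Agent.X212.M

open Cyl58 Cyf70 Pj41 Int54
open Line51 (Ln Uni em)
open Met55 (atx)
open Dr59 (mf pm)

noncomputable section

variable {X X' X'' : Mf 4} {A A' A'' A₀ A₁ κ lam lam' : Type} [Fintype κ] [Fintype lam]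
  [Fintype lam'] {M : Mark X A κ} {M' : Mark X' A' κ} {M'' : Mark X'' A'' κ}

/-! ### diffeomorphisms of three-manifolds -/

section dif
variable {Y Y' Y'' : Mf 3} (g : Y.M ≃ₘ^∞⟮Y.I, Y'.I⟯ Y'.M) (g' : Y'.M ≃ₘ^∞⟮Y'.I, Y''.I⟯ Y''.M)

theorem md_dif (y : Y.M) : MDifferentiableAt Y.I Y'.I g y := g.mdifferentiable (by simp) y

theorem mf_trans (y : Y.M) (v : Y.E) :
    mf Y.I Y''.I (g.trans g') y v = mf Y'.I Y''.I g' (g y) (mf Y.I Y'.I g y v) :=
  DFunLike.congr_fun (Dr59.mf_comp (md_dif g' _) (md_dif g y)) v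

theorem mf_symm (y : Y.M) (v : Y.E) : mf Y'.I Y.I g.symm (g y) (mf Y.I Y'.I g y v) = v := by
  rw [← mf_trans, Diffeomorph.self_trans_symm]
  exact DFunLike.congr_fun (Dr59.mf_id (I := Y.I) y) v

theorem pull_trans (L : Ln Y''.E Y''.M lam) :
    L.pull Y.I Y''.I (g.trans g') = (L.pull Y'.I Y''.I g').pull Y.I Y'.I g :=
  congrArg (Ln.mk _) (funext fun y => (Dr59.pm_comp (md_dif g' _) (md_dif g y)).symm)

theorem pull_symm {L : Ln Y.E Y.M lam} {L' : Ln Y'.E Y'.M lam} (h : L'.pull Y.I Y'.I g = L) :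
    L.pull Y'.I Y.I g.symm = L' := by
  rw [← h, ← pull_trans, Diffeomorph.symm_trans_self]
  exact Line51.Ln.pull_id _

end dif

/-- the identity along an equality of walls -/
def Mark.cY (M : Mark X A κ) {a a' : A} (h : a = a') :
    (M.bn a).Y.M ≃ₘ^∞⟮(M.bn a).Y.I, (M.bn a').Y.I⟯ (M.bn a').Y.M := h ▸ Diffeomorph.refl _ _ ∞

section cY
variable {a a' : A} (h : a = a')

theorem Mark.cY_j (y : (M.bn a).Y.M) (s : ℝ) : (M.bn a').j (M.cY h y, s) = (M.bn a).j (y, s) := by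
  subst h; rfl

theorem Mark.cY_gY (y : (M.bn a).Y.M) (k : κ) : mf (M.bn a).Y.I (M.bn a').Y.I (M.cY h) y
    (atx (M.gY a).e y k) = atx (M.gY a').e (M.cY h y) k := by
  subst h; exact DFunLike.congr_fun (Dr59.mf_id (I := (M.bn a).Y.I) y) _

theorem Mark.cY_th (y : (M.bn a).Y.M) : M.th a' (M.cY h y) = M.th a y := by subst h; rfl

theorem ML.cY_LY (N : ML M lam) :
    (N.LY a').pull (M.bn a).Y.I (M.bn a').Y.I (M.cY h) = N.LY a := by
  subst h; exact Line51.Ln.pull_id _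

end cY

/-! ### identifications of marks -/

/-- the identity -/
def MId.refl (M : Mark X A κ) : MId M M A where
  ψ := (Diffeomorph.refl X.I X.M ∞).toPartialDiffeomorph
  f := .refl _
  f' := .refl _
  g _ := Diffeomorph.refl _ _ ∞
  sub _ := subset_univ _
  jj _ _ := rfl
  sd _ _ _ _ := Iff.rfl
  pin _ := Iff.rfl
  gY a _ y := DFunLike.congr_fun (Dr59.mf_id (I := (M.bn a).Y.I) (M := (M.bn a).Y.M) y) _
  th _ _ _ := rfl
  ori := (M.resId (.refl _)).ori

namespace MId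
variable (I : MId M M' A₀)

theorem refl_glob : (refl M).Glob := ⟨rfl, rfl⟩

theorem md {x : X.M} (hx : x ∈ I.ψ.source) : MDifferentiableAt X.I X'.I I.ψ x :=
  I.ψ.mdifferentiableAt (by simp) hx

theorem image_slab (b : A₀) (s : Set ℝ) :
    I.ψ '' (M.bn (I.f b)).slab s = (M'.bn (I.f' b)).slab s := by
  ext z
  constructor
  · rintro ⟨_, ⟨q, hq, rfl⟩, rfl⟩
    rw [I.jj]; exact (M'.bn _).j_mem_slab.2 hq.2
  · rintro ⟨q, hq, rfl⟩
    exact ⟨_, ⟨((I.g b).symm q.1, q.2), ⟨trivial, hq.2⟩, rfl⟩, by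
      rw [I.jj, Diffeomorph.apply_symm_apply]⟩

theorem mem_slab (b : A₀) {s : Set ℝ} {x : X.M} (hx : x ∈ I.ψ.source) :
    I.ψ x ∈ (M'.bn (I.f' b)).slab s ↔ x ∈ (M.bn (I.f b)).slab s := by
  rw [← image_slab]
  exact ⟨fun ⟨y, hy, e⟩ => I.ψ.injOn (I.sub b ((M.bn _).slab_subset _ hy)) hx e ▸ hy,
    mem_image_of_mem _⟩

theorem jj' (b : A₀) (q : (M'.bn (I.f' b)).Y.M × ℝ) :
    I.ψ ((M.bn (I.f b)).j ((I.g b).symm q.1, q.2)) = (M'.bn (I.f' b)).j q := by
  rw [I.jj, Diffeomorph.apply_symm_apply]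

/-- fewer matched walls -/
def re (r : A₁ ↪ A₀) : MId M M' A₁ where
  ψ := I.ψ
  f := r.trans I.f
  f' := r.trans I.f'
  g b := I.g (r b)
  sub b := I.sub (r b)
  jj b := I.jj (r b)
  sd b := I.sd (r b)
  pin b := I.pin (r b)
  gY b := I.gY (r b)
  th b := I.th (r b)
  ori := I.ori

/-- the inverse -/
def symm : MId M' M A₀ where
  ψ := I.ψ.symm
  f := I.f'
  f' := I.f
  g b := (I.g b).symm
  sub b := by
    rintro _ ⟨q, rfl⟩
    rw [← I.jj']; exact I.ψ.map_source (I.sub b ⟨_, rfl⟩)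
  jj b q := by rw [← I.jj']; exact I.ψ.left_inv (I.sub b ⟨_, rfl⟩)
  sd b c x hx := by
    have := I.sd b c _ (I.ψ.map_target hx)
    rw [I.ψ.right_inv hx] at this
    exact this.symm
  pin b := (I.pin b).symm
  gY b k y := by
    obtain ⟨y, rfl⟩ : ∃ x, I.g b x = y := (I.g b).surjective y
    rw [← I.gY, Diffeomorph.symm_apply_apply]; exact mf_symm _ _ _
  th b h y := by
    obtain ⟨y, rfl⟩ : ∃ x, I.g b x = y := (I.g b).surjective y
    rw [Diffeomorph.symm_apply_apply, I.th b ((I.pin b).1 h)]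
  ori := fun x hx => by
    have := (I.ori.pm (fun y hy => I.ψ.symm.isLocalDiffeomorphAt _ _ _ hy)
      fun y hy => I.ψ.map_target hy).symm x hx
    rwa [Dr59.pm_comp (f := I.ψ.symm) (I.md (I.ψ.map_target hx))
      (I.ψ.symm.mdifferentiableAt (by simp) hx),
      Dr59.pm_of_eventually_id (f := I.ψ ∘ I.ψ.symm) (eventually_of_mem
        (I.ψ.open_target.mem_nhds hx) fun y hy => I.ψ.right_inv hy)] at this

/-- the composition -/
def trans (J : MId M' M'' A₀) (h : ∀ b, I.f' b = J.f b) : MId M M'' A₀ where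
  ψ := I.ψ.trans J.ψ
  f := I.f
  f' := J.f'
  g b := (I.g b).trans ((M'.cY (h b)).trans (J.g b))
  sub b := by
    rintro _ ⟨q, rfl⟩
    refine ⟨I.sub b ⟨_, rfl⟩, ?_⟩
    show I.ψ _ ∈ J.ψ.source
    rw [I.jj, ← M'.cY_j (h b)]; exact J.sub b ⟨_, rfl⟩
  jj b q := by
    show J.ψ (I.ψ _) = _
    rw [I.jj, ← M'.cY_j (h b), J.jj]; rfl
  sd b c x hx := (J.sd b c _ hx.2).trans (h b ▸ I.sd b c x hx.1)
  pin b := (J.pin b).trans (h b ▸ I.pin b)
  gY b k y := by rw [mf_trans, mf_trans, I.gY, M'.cY_gY, J.gY]; rfl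
  th b hp y := (J.th b (h b ▸ (I.pin b).2 hp) _).trans ((M'.cY_th _ _).trans (I.th b hp y))
  ori := fun x hx => by
    have := ((I.ori.mono (inter_subset_left (t := I.ψ ⁻¹' J.ψ.source))).trans
      (J.ori.pm (fun y hy => I.ψ.isLocalDiffeomorphAt _ _ _ hy.1) fun y hy => hy.2)) x hx
    rwa [Dr59.pm_comp (f := I.ψ) (J.md hx.2) (I.md hx.1)] at this

theorem refl_ψ (x : X.M) : (refl M).ψ x = x := rfl
theorem symm_ψ : I.symm.ψ = I.ψ.symm := rfl
theorem trans_ψ (J : MId M' M'' A₀) (h) (x : X.M) : (I.trans J h).ψ x = J.ψ (I.ψ x) := rfl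
theorem trans_source (J : MId M' M'' A₀) (h) :
    (I.trans J h).ψ.source = I.ψ.source ∩ I.ψ ⁻¹' J.ψ.source := rfl

variable {I}

theorem Glob.re (h : I.Glob) (r : A₁ ↪ A₀) : (I.re r).Glob := h

theorem Glob.symm (h : I.Glob) : I.symm.Glob := ⟨h.2, h.1⟩

theorem Glob.trans {J : MId M' M'' A₀} (h : I.Glob) (h' : J.Glob) (e) : (I.trans J e).Glob :=
  ⟨by rw [trans_source, h.1, h'.1]; simp, by
    show J.ψ.target ∩ J.ψ.symm ⁻¹' I.ψ.target = univ
    rw [h.2, h'.2]; simp⟩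

theorem Glob.image (h : I.Glob) : I.ψ '' univ = univ := by
  rw [← h.1, I.ψ.image_source_eq_target, h.2]

end MId

/-! ### identifications of marked lines -/

namespace LId
variable {N : ML M lam} {N' : ML M' lam} {N'' : ML M'' lam} {I : MId M M' A₀} {V : Set X.M}
  {w : X.M → Matrix lam lam ℂ}

theorem refl (N : ML M lam) : LId N N (.refl M) univ N.p :=
  ⟨isOpen_univ, subset_univ _, ⟨N.ok.sm, fun x _ => (N.ok.prj x trivial).refl⟩,
    fun _ => Line51.Ln.pull_id _, fun a q hq _ => ((N.um a).iso q hq).idem⟩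

theorem res (N : ML M lam) (f : A₀ ↪ A) : LId (N.res f) N (M.resId f) univ N.p :=
  ⟨isOpen_univ, subset_univ _, ⟨N.ok.sm, fun x _ => (N.ok.prj x trivial).refl⟩,
    fun _ => Line51.Ln.pull_id _, fun a q hq _ => ((N.um (f a)).iso q hq).idem⟩

theorem toRes (h : LId N N' I V w) : LId (N.res I.f) N' I.res V w := ⟨h.op, h.sub, h.uni, h.LY, h.m⟩

theorem re (h : LId N N' I V w) (r : A₁ ↪ A₀) : LId N N' (I.re r) V w :=
  ⟨h.op, h.sub, h.uni, fun b => h.LY (r b), fun b => h.m (r b)⟩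

theorem mono (h : LId N N' I V w) {V' : Set X.M} (op : IsOpen V') (hs : V' ⊆ V) :
    LId N N' I V' w := Pj41.LId.mono h op hs

theorem congr (h : LId N N' I V w) {w' : X.M → Matrix lam lam ℂ} (e : EqOn w' w V) :
    LId N N' I V w' :=
  ⟨h.op, h.sub, ⟨fun x hx => (h.uni.sm x hx).congr (eventually_of_mem (h.op.mem_nhds hx) e),
    fun x hx => e hx ▸ h.uni.iso x hx⟩, h.LY, fun b q hq hV => by rw [e hV]; exact h.m b q hq hV⟩

theorem symm (h : LId N N' I V w) :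
    LId N' N I.symm (I.ψ '' V) fun y => (w (I.ψ.symm y))ᴴ := by
  have k : ∀ x ∈ V, I.ψ.symm (I.ψ x) = x := fun x hx => I.ψ.left_inv (h.sub hx)
  refine lid_of_mX (I.ψ.toOpenPartialHomeomorph.isOpen_image_of_subset_source h.op h.sub)
    (fun _ ⟨x, hx, e⟩ => e ▸ I.ψ.map_source (h.sub hx)) ⟨?_, ?_⟩
    (fun b => pull_symm _ (h.LY b)) ?_
  · rintro _ ⟨x, hx, rfl⟩
    exact (MSm.comp (f := I.ψ.symm) (by rw [k x hx]; exact h.uni.sm x hx)
      (sm_ψ I.symm (I.ψ.map_source (h.sub hx)))).ct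
  · rintro _ ⟨x, hx, rfl⟩
    show PIso (w (I.ψ.symm _))ᴴ _ (N.p (I.ψ.symm _))
    rw [k x hx]; exact (h.uni.iso x hx).symm
  · rintro b _ hy ⟨x, hx, rfl⟩
    have hx' := (I.mem_slab b (h.sub hx)).1 hy
    show mX N (I.f b) (I.ψ.symm _) * (w (I.ψ.symm _))ᴴ = mX N' (I.f' b) _
    rw [k x hx, ← Pj41.LId.mX h b hx' hx, Matrix.mul_assoc, (h.uni.iso x hx).tgt]
    obtain ⟨q, hq, rfl⟩ := hx'
    exact (piso_mX_ψ N' I b (abs_le.2 hq.2)).idem

theorem trans {J : MId M' M'' A₀} {V' : Set X'.M} {w' : X'.M → Matrix lam lam ℂ}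
    (h : LId N N' I V w) (h' : LId N' N'' J V' w') (e : ∀ b, I.f' b = J.f b)
    (hV : MapsTo I.ψ V V') : LId N N'' (I.trans J e) V fun x => w' (I.ψ x) * w x := by
  refine lid_of_mX h.op (fun x hx => ⟨h.sub hx, h'.sub (hV hx)⟩)
    (h.uni.trans (h'.uni.comp ⟨fun x hx => sm_ψ I (h.sub hx), hV⟩)) (fun b => ?_) fun b x hx hv => ?_
  · refine (pull_trans (I.g b) ((M'.cY (e b)).trans (J.g b)) (N''.LY (J.f' b))).trans ?_
    rw [pull_trans, h'.LY, N'.cY_LY]; exact h.LY b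
  · show mX N'' (J.f' b) (J.ψ (I.ψ x)) * (w' (I.ψ x) * w x) = mX N (I.f b) x
    rw [← Matrix.mul_assoc, Pj41.LId.mX h' b (e b ▸ (I.mem_slab b (h.sub hv)).2 hx) (hV hv), ← e b]
    exact Pj41.LId.mX h b hx hv

end LId

/-! ### change of the line, padding -/

section tr
variable (N : ML M lam) {p u : X.M → Matrix lam lam ℂ}

/-- the marking transported to an isomorphic line -/
def ML.tr (hp : Ln.On X.I ⟨p, 0⟩ univ) (hu : Uni X.I p N.p u univ) : ML M lam where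
  p := p
  ok := hp
  LY := N.LY
  okY := N.okY
  cst := N.cst
  m a q := N.m a q * u ((M.bn a).j q)
  um a := (hu.comp ⟨fun q _ => (M.bn a).oe.contMDiff q, mapsTo_univ _ _⟩).trans (N.um a)

theorem ML.lid_tr (hp : Ln.On X.I ⟨p, 0⟩ univ) (hu : Uni X.I p N.p u univ) :
    LId (N.tr hp hu) N (.refl M) univ u :=
  ⟨isOpen_univ, subset_univ _, hu, fun _ => Line51.Ln.pull_id _, fun _ _ _ _ => rfl⟩

theorem ML.smo_tr (hp : Ln.On X.I ⟨p, 0⟩ univ) (hu : Uni X.I p N.p u univ) (h : Smo N) :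
    Smo (N.tr hp hu) := fun a q =>
  (h a q).mul ((hu.sm _ trivial).comp ((M.bn a).oe.contMDiff q))

end tr

section pad
variable [DecidableEq lam] {V : Matrix lam' lam ℂ} (hV : Vᴴ * V = 1)
include hV

theorem piso_pad {u p q : Matrix lam lam ℂ} (h : PIso u p q) :
    PIso (V * u * Vᴴ) (V * p * Vᴴ) (V * q * Vᴴ) := by
  have := ((Line51.piso_cj hV h.prj_src).symm.trans h).trans (Line51.piso_cj hV h.prj_tgt)
  rwa [conjTranspose_mul, h.prj_src.herm, ← Matrix.mul_assoc u, h.idem, ← Matrix.mul_assoc,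
    Matrix.mul_assoc V q, h.left] at this

theorem pad_mul (a b : Matrix lam lam ℂ) : V * a * Vᴴ * (V * b * Vᴴ) = V * (a * b) * Vᴴ := by
  simp only [Matrix.mul_assoc]
  rw [← Matrix.mul_assoc Vᴴ V, hV, Matrix.one_mul]

/-- stabilisation by a constant isometry -/
def ML.pad (N : ML M lam) : ML M lam' where
  p x := V * N.p x * Vᴴ
  ok := N.ok.cj isOpen_univ hV
  LY a := (N.LY a).cj V
  okY a := (N.okY a).cj isOpen_univ hV
  cst a h := let ⟨p₀, e⟩ := N.cst a h; ⟨V * p₀ * Vᴴ, by rw [e]; rfl⟩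
  m a q := V * N.m a q * Vᴴ
  um a := ⟨fun q hq => ((MSm.const V).mul ((N.um a).sm q hq)).mul (MSm.const _),
    fun q hq => piso_pad hV ((N.um a).iso q hq)⟩

theorem ML.smo_pad {N : ML M lam} (h : Smo N) : Smo (N.pad hV) := fun a q =>
  ((MSm.const V).mul (h a q)).mul (MSm.const _)

theorem LId.pad {N : ML M lam} {N' : ML M' lam} {I : MId M M' A₀} {U : Set X.M}
    {w : X.M → Matrix lam lam ℂ} (h : LId N N' I U w) :
    LId (N.pad hV) (N'.pad hV) I U fun x => V * w x * Vᴴ :=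
  ⟨h.op, h.sub, ⟨fun x hx => ((MSm.const V).mul (h.uni.sm x hx)).mul (MSm.const _),
    fun x hx => piso_pad hV (h.uni.iso x hx)⟩,
    fun b => (Line51.cj_pull V (I.g b)).trans (congrArg (fun L => Ln.cj L V) (h.LY b)),
    fun b q hq hU => (pad_mul hV _ _).trans (congrArg (fun a => V * a * Vᴴ) (h.m b q hq hU))⟩

theorem ML.spare_pad (N : ML M lam) (e : Fin 3 ↪ lam') (he : ∀ j k, V (e j) k = 0) :
    (N.pad hV).Spare :=
  ⟨e, fun a j y k => by simp [ML.pad, Ln.cj, Matrix.mul_apply, he]⟩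

end pad

theorem em_zero [DecidableEq lam'] {e : lam → lam'} {i : lam'} (h : i ∉ range e) (k : lam) :
    em e i k = 0 := one_apply_ne fun c => h ⟨k, c.symm⟩

/-- padding by three spare indices -/
def ML.pad3 [DecidableEq lam] (N : ML M lam) : ML M (lam ⊕ Fin 3) :=
  N.pad (Line51.em_iso Sum.inl_injective)

theorem ML.spare_pad3 [DecidableEq lam] (N : ML M lam) : N.pad3.Spare :=
  N.spare_pad _ .inr fun _ _ => em_zero (by simp) _

end

end Crest.Agent.X212.M
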