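import Crest.Agent.X212.Pj41.Md
import Crest.Agent.X212.Eqv71.Gau

/-!
# X212 / MDG (helper41): pull-back of local modules and connections along an equivalence of
backgrounds; `MEq` and `Par` over `φ` are `Iso0` and `Par0` into the pull-back.
-/

set_option autoImplicit false
set_option linter.unusedSectionVars false

open Set Function Filter Topology
open scoped ContDiff Manifold InnerProductSpace

namespace Crest.Agent.X212.Pj41

open An Sob92 Eqv71
open Wz78 (Cl LC Frm SA frm)

noncomputable section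

variable {E : Type} [NormedAddCommGroup E] [NormedSpace ℝ E] [FiniteDimensional ℝ E]
  [MeasurableSpace E] [BorelSpace E]
  {HM : Type} [TopologicalSpace HM] {I : ModelWithCorners ℝ E HM}
  {M : Type} [TopologicalSpace M] [ChartedSpace HM M] [IsManifold I ∞ M]
  [MeasurableSpace M] {ι : Type} [Fintype ι] {lam : Type} [Fintype lam]
  {E' : Type} [NormedAddCommGroup E'] [NormedSpace ℝ E'] [FiniteDimensional ℝ E']
  [MeasurableSpace E'] [BorelSpace E']
  {HM' : Type} [TopologicalSpace HM'] {I' : ModelWithCorners ℝ E' HM'}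
  {M' : Type} [TopologicalSpace M'] [ChartedSpace HM' M'] [IsManifold I' ∞ M']
  [MeasurableSpace M'] {ι' : Type} [Fintype ι'] {lam' : Type} [Fintype lam']

/-- the pull-back of a module -/
@[reducible] def pull (m' : Md M' ι' lam') (φ : M → M') (U : M → ι' → ι → ℝ)
    (v : M → CL (Eu lam) (Eu lam')) : Md M ι lam where
  N := m'.N
  J := m'.J
  p x := m'.p (φ x)
  ρ a x := ∑ b, U x b a • m'.ρ b (φ x)
  j x := m'.j (φ x) ∘L v x

/-- the pull-back of a connection -/
def pullW {m' : Md M' ι' lam'} (W' : m'.Cn) (φ : M → M') (U : M → ι' → ι → ℝ)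
    (v : M → CL (Eu lam) (Eu lam')) : (pull m' φ U v).Cn := fun a x => ∑ b, U x b a • W' b (φ x)

variable {B : Base M ι lam} {G : Geo I M ι lam} {B' : Base M' ι' lam'} {G' : Geo I' M' ι' lam'}
  {φ : OpenPartialHomeomorph M M'} {U : M → ι' → ι → ℝ} {v : M → CL (Eu lam) (Eu lam')}
  {m : Md M ι lam} {m' : Md M' ι' lam'} {O : Set M} {O' : Set M'}

theorem geq_be (g : GEq B G B' G' φ U v) {x : M} (hx : x ∈ φ.source) :
    BE B x B' (φ x) (U x) (v x) :=
  ⟨g.UU x hx, g.UU' x hx, fun b₁ b₂ b₃ b₄ => g.o x hx b₁ b₂ b₃ b₄, g.vv x hx, g.vv' x hx, g.il x hx⟩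

theorem geq_rot (g : GEq B G B' G' φ U v) :
    Rot I I' φ φ.source G.F.e B.P G'.F.e B'.P fun b a x => U x b a :=
  ⟨φ.open_source, fun x hx => (g.sm x hx).contMDiffAt (φ.open_source.mem_nhds hx),
    fun b a x hx => (g.sU b a x hx).contMDiffAt (φ.open_source.mem_nhds hx),
    fun b x hx => by rw [← g.e x hx b, map_sum]; simp only [map_smul],
    fun a b x hx => g.UU x hx a b, fun a b x hx => g.UU' x hx a b⟩

theorem geq_rot_symm (g : GEq B G B' G' φ U v) (hG : G.F.P = B.P) :
    Rot I' I φ.symm φ.target G'.F.e B'.P G.F.e B.P fun a b y => U (φ.symm y) b a := by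
  have R := geq_rot g
  have s' : ∀ y ∈ φ.target, ContMDiffAt I' I ∞ φ.symm y := fun y hy =>
    (g.sm' y hy).contMDiffAt (φ.open_target.mem_nhds hy)
  refine ⟨φ.open_target, s', fun a b y hy => (R.sU b a _ (φ.map_target hy)).comp y (s' y hy),
    fun a y hy => ?_, fun a b y hy => ?_, fun a b y hy => g.UU _ (φ.map_target hy) a b⟩
  · have hx := φ.map_target hy
    have h1 := R.fr' (hG ▸ frm G.F) hx a
    have e : (φ.symm ∘ φ) =ᶠ[𝓝 (φ.symm y)] id := φ.eventually_left_inverse hx
    have h2 : mfderiv I I (φ.symm ∘ φ) (φ.symm y) = ContinuousLinearMap.id ℝ _ :=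
      e.mfderiv_eq.trans mfderiv_id
    have h3 : MDifferentiableAt I' I φ.symm (φ (φ.symm y)) :=
      (s' _ (φ.map_source hx)).mdifferentiableAt (by simp)
    rw [mfderiv_comp _ h3 (R.md hx)] at h2
    have h4 := congrArg (fun L => L (G.F.e a (φ.symm y))) h2
    have h5 : mfderiv I' I φ.symm (φ (φ.symm y)) (mfderiv I I' φ (φ.symm y) (G.F.e a (φ.symm y))) =
      G.F.e a (φ.symm y) := h4
    rw [h1, map_sum] at h5
    simp only [map_smul] at h5
    rw [← h5]
    have key : ∀ z, z = y → ∑ a', U (φ.symm y) a' a • (mfderiv I' I φ.symm z (G'.F.e a' z) : E) =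
        ∑ a', U (φ.symm y) a' a • (mfderiv I' I φ.symm y (G'.F.e a' y) : E) := by
      rintro _ rfl; rfl
    exact key _ (φ.right_inv hy)
  · have := g.UU' _ (φ.map_target hy) a b
    rwa [φ.right_inv hy] at this

/-- the Levi-Civita coefficients downstairs -/
theorem geq_gam (g : GEq B G B' G' φ U v) (hG : G.F.P = B.P) (hG' : G'.F.P = B'.P) {x : M}
    (hx : x ∈ φ.source) (a b k : ι) :
    G.F.Gam a b k x = ∑ b', G.F.D a (fun y => U y b' b) x * U x b' k +
      ∑ a', ∑ b', ∑ k', U x a' a * U x b' b * U x k' k * G'.F.Gam a' b' k' (φ x) := by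
  have R := geq_rot g
  have R' := geq_rot_symm g hG
  have h := R'.gam_eq (hG' ▸ frm G'.F) (hG ▸ frm G.F) (hG ▸ G.F.P_ker) (hG' ▸ lc_gam G'.F) (hG ▸ lc_gam G.F)
    (φ.map_source hx) a b k
  rw [φ.left_inv hx] at h
  rw [h, gam]
  simp only [φ.left_inv hx, mul_add, Finset.sum_add_distrib, Finset.mul_sum, mul_assoc]
  congr 1
  rw [Finset.sum_comm]
  refine Finset.sum_congr rfl fun b' _ => ?_
  have h1 := R.D (hG ▸ frm G.F) hx a (f := fun y => U (φ.symm y) b' b)
    (R'.sU b b' _ (φ.map_source hx)).md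
  rw [dv_congr (v := fun y => U y b' b)
    ((φ.eventually_left_inverse hx).mono fun y hy => by simp only [hy])] at h1
  rw [Pre.D_def, h1, Finset.sum_mul]
  exact Finset.sum_congr rfl fun a' _ => by rw [smul_eq_mul, mul_assoc]

section pull

variable (g : GEq B G B' G' φ U v) (hO : O ⊆ φ.source) (hO' : MapsTo φ O O')
include g hO hO'

theorem pull_ρ (h : OKOn I' B' m' O') {x : M} (hx : x ∈ O) (b : ι') :
    ∑ a, U x b a • (pull m' φ U v).ρ a x = m'.ρ b (φ x) := by
  simp only [pull, Finset.smul_sum, smul_smul]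
  rw [Finset.sum_comm, ← (h.cl _ (hO' hx)).proj b]
  exact Finset.sum_congr rfl fun b' _ => by rw [← Finset.sum_smul, g.UU' x (hO hx)]

theorem pull_ok (hB : B.OK I) (h : OKOn I' B' m' O') : OKOn I B (pull m' φ U v) O := by
  have R := geq_rot g
  have sv : ∀ x ∈ O, FSm I v x := fun x hx =>
    (g.sv x (hO hx)).contMDiffAt (φ.open_source.mem_nhds (hO hx))
  refine ⟨h.Jsq, h.Jsk, fun x hx => R.sa_comp (hO hx) (h.sp _ (hO' hx)),
    fun a x hx => R.sa_pb (hO hx) (fun b => h.sρ b _ (hO' hx)) a,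
    fun x hx => ContMDiffAt.clm_comp (R.sa_comp (hO hx) (h.sj _ (hO' hx))) (sv x hx),
    fun x hx => h.psym _ (hO' hx), fun x hx => h.pidem _ (hO' hx), fun x hx => h.prk _ (hO' hx),
    fun x hx => h.Jp _ (hO' hx), fun x hx => ⟨fun a b => ?_, fun a => ?_, fun a => ?_, fun a => ?_⟩,
    fun a x hx => skw_sum _ fun b => h.ρsk b _ (hO' hx), fun a x hx => ?_,
    fun x hx s => h.jsym _ (hO' hx) _, fun x hx s => h.jJ _ (hO' hx) _, fun x hx s => ?_,
    fun x hx s => ?_, fun x hx s => ?_, fun x hx s => h.pj _ (hO' hx) _, fun a x hx s => ?_⟩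
  · have c := h.cl _ (hO' hx)
    have e := geq_be g (hO hx)
    simp only [pull, Finset.sum_mul_sum, smul_mul_smul_comm]
    rw [Finset.sum_comm (f := fun i j => (U x i b * U x j a) • (m'.ρ i (φ x) * m'.ρ j (φ x))),
      ← Finset.sum_add_distrib]
    have : ∀ i, ∑ j, (U x i a * U x j b) • (m'.ρ i (φ x) * m'.ρ j (φ x)) +
        ∑ j, (U x j b * U x i a) • (m'.ρ j (φ x) * m'.ρ i (φ x)) =
        (-2 * ∑ j, U x i a * U x j b * B'.P i j (φ x)) • m'.p (φ x) := fun i => by
      rw [← Finset.sum_add_distrib, Finset.mul_sum, Finset.sum_smul]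
      exact Finset.sum_congr rfl fun j _ => by
        rw [mul_comm (U x j b), ← smul_add, c.rel, smul_smul]; congr 1; ring
    rw [Finset.sum_congr rfl fun i _ => this i, ← Finset.sum_smul, ← Finset.mul_sum, ← e.UU a b]
    congr 2
    refine Finset.sum_congr rfl fun i _ => ?_
    have h2 : ∑ j, B'.P i j (φ x) * U x j b = U x i b := by
      simp only [← e.UU', Finset.sum_mul]
      rw [Finset.sum_comm, ← e.UP hB i b]
      exact Finset.sum_congr rfl fun k _ => by
        rw [← e.UU k b, Finset.mul_sum]; exact Finset.sum_congr rfl fun j _ => by ring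
    rw [← h2, Finset.mul_sum]
    exact Finset.sum_congr rfl fun j _ => by ring
  · simp only [pull, Finset.mul_sum, mul_smul_comm, (h.cl _ (hO' hx)).pl]
  · simp only [pull, Finset.sum_mul, smul_mul_assoc, (h.cl _ (hO' hx)).pr]
  · simp only [pull, Finset.smul_sum, smul_smul]
    rw [Finset.sum_comm]
    refine Finset.sum_congr rfl fun b _ => ?_
    rw [← Finset.sum_smul, ← (geq_be g (hO hx)).UP hB b a]
    congr 1
    exact Finset.sum_congr rfl fun k _ => by rw [(hB.pr x).symm a k, mul_comm]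
  · simp only [pull, Finset.mul_sum, Finset.sum_mul, mul_smul_comm, smul_mul_assoc,
      h.Jρ _ _ (hO' hx)]
  · have : v x (B.il s) = B'.il (v x s) := congrArg (fun L => L s) (g.il x (hO hx))
    show m'.j (φ x) (v x (B.il s)) = m'.J * m'.j (φ x) (v x s)
    rw [this, h.jil _ (hO' hx)]
  · have : v x (B.l x s) = v x s := congrArg (fun L => L s) ((geq_be g (hO hx)).vl hB)
    show m'.j (φ x) (v x (B.l x s)) = m'.j (φ x) (v x s)
    rw [this]
  · show m'.j (φ x) (v x s) * m'.j (φ x) (v x s) = ‖B.l x s‖ ^ 2 • m'.p (φ x)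
    have h1 : B'.l (φ x) (v x s) = v x s := congrArg (fun L => L s) ((geq_be g (hO hx)).lv hB)
    have h2 : ‖v x s‖ ^ 2 = ‖B.l x s‖ ^ 2 := by
      have e1 : trn (v x) (v x s) = B.l x s := congrArg (fun L => L s) (g.vv x (hO hx))
      have e2 : B.l x (B.l x s) = B.l x s := congrArg (fun L => L s) (hB.lidem x)
      rw [← real_inner_self_eq_norm_sq, ← real_inner_self_eq_norm_sq, ← inner_trn, e1,
        hB.lsym x s (B.l x s), e2, hB.lsym x s s]
    rw [h.jsq _ (hO' hx), h1, h2]
  · show m'.j (φ x) (v x s) * _ = _ * m'.j (φ x) (v x s)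
    simp only [Finset.mul_sum, Finset.sum_mul, mul_smul_comm, smul_mul_assoc,
      h.jρ _ _ (hO' hx)]

theorem pull_conn (hG : G.F.P = B.P) (hG' : G'.F.P = B'.P)
    (h : OKOn I' B' m' O') {W' : m'.Cn} (hW : ConnOn B' G' m' W' O') :
    ConnOn B G (pull m' φ U v) (pullW W' φ U v) O := by
  have R := geq_rot g
  have F : Frm I G.F.e B.P G.F.c := hG ▸ frm G.F
  have sv : ∀ x ∈ O, FSm I v x := fun x hx =>
    (g.sv x (hO hx)).contMDiffAt (φ.open_source.mem_nhds (hO hx))
  refine ⟨fun a x hx => R.sa_pb (hO hx) (fun b => hW.sm b _ (hO' hx)) a,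
    fun a x hx => R.pj_pb F (hO hx) W' a, fun a x hx => ?_, fun a b x hx => ?_,
    fun a x hx => skw_sum _ fun b => hW.sk b _ (hO' hx), fun a x hx => ?_, fun a x hx s => ?_⟩
  · have h1 := R.D F (hO hx) a (h.sp _ (hO' hx)).md
    show dv I (G.F.e a) (fun y => m'.p (φ y)) x + ((∑ b, U x b a • W' b (φ x)) * m'.p (φ x) -
      m'.p (φ x) * ∑ b, U x b a • W' b (φ x)) = 0
    rw [h1, Finset.sum_mul, Finset.mul_sum, ← Finset.sum_sub_distrib, ← Finset.sum_add_distrib]
    refine Finset.sum_eq_zero fun b _ => ?_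
    rw [smul_mul_assoc, mul_smul_comm, ← smul_sub, ← smul_add]
    exact (congrArg (U x b a • ·) (hW.par b _ (hO' hx))).trans (smul_zero _)
  · show dv I (G.F.e a) (fun y => ∑ b', U y b' b • m'.ρ b' (φ y)) x +
      ((∑ a', U x a' a • W' a' (φ x)) * (∑ b', U x b' b • m'.ρ b' (φ x)) -
        (∑ b', U x b' b • m'.ρ b' (φ x)) * ∑ a', U x a' a • W' a' (φ x)) =
      ∑ k, G.F.Gam a b k x • (pull m' φ U v).ρ k x
    have s1 := fun b' => R.sa_comp (hO hx) (h.sρ b' _ (hO' hx))
    have e1 : dv I (G.F.e a) (fun y => ∑ b', U y b' b • m'.ρ b' (φ y)) x =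
        ∑ b', G.F.D a (fun y => U y b' b) x • m'.ρ b' (φ x) +
          ∑ a', ∑ b', (U x a' a * U x b' b) • G'.F.D a' (m'.ρ b') (φ x) := by
      rw [Wz78.dv_sum' _ fun b' => (R.sU b' b x (hO hx)).smul (s1 b'), Finset.sum_comm,
        ← Finset.sum_add_distrib]
      refine Finset.sum_congr rfl fun b' _ => ?_
      rw [dv_smul (R.sU b' b x (hO hx)).md (s1 b').md, R.D F (hO hx) a (h.sρ b' _ (hO' hx)).md,
        Finset.smul_sum]
      simp only [smul_smul, mul_comm (U x b' b)]
      rfl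
    have e2 : ∑ k, G.F.Gam a b k x • (pull m' φ U v).ρ k x =
        ∑ b', G.F.D a (fun y => U y b' b) x • m'.ρ b' (φ x) +
          ∑ a', ∑ b', (U x a' a * U x b' b) • ∑ k', G'.F.Gam a' b' k' (φ x) • m'.ρ k' (φ x) := by
      simp only [geq_gam g hG hG' (hO hx), add_smul, Finset.sum_add_distrib, Finset.sum_smul]
      congr 1
      · rw [Finset.sum_comm]
        refine Finset.sum_congr rfl fun b' _ => ?_
        rw [← pull_ρ g hO hO' h hx b', Finset.smul_sum]
        simp only [smul_smul]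
      · rw [Finset.sum_comm]
        refine Finset.sum_congr rfl fun a' _ => ?_
        rw [Finset.sum_comm]
        refine Finset.sum_congr rfl fun b' _ => ?_
        rw [Finset.sum_comm, Finset.smul_sum]
        refine Finset.sum_congr rfl fun k' _ => ?_
        rw [← pull_ρ g hO hO' h hx k', Finset.smul_sum, Finset.smul_sum]
        exact Finset.sum_congr rfl fun k _ => by rw [smul_smul, smul_smul]; congr 1; ring
    rw [e1, e2, add_assoc, Finset.sum_mul_sum, Finset.sum_mul_sum,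
      Finset.sum_comm (f := fun b' a' => U x b' b • m'.ρ b' (φ x) * U x a' a • W' a' (φ x)),
      ← Finset.sum_sub_distrib, ← Finset.sum_add_distrib]
    congr 1
    refine Finset.sum_congr rfl fun a' _ => ?_
    rw [← Finset.sum_sub_distrib, ← Finset.sum_add_distrib]
    refine Finset.sum_congr rfl fun b' _ => ?_
    rw [smul_mul_smul_comm, smul_mul_smul_comm, mul_comm (U x b' b), ← smul_sub, ← smul_add,
      hW.comp a' b' _ (hO' hx)]
  · show m'.J * (∑ b, U x b a • W' b (φ x)) = (∑ b, U x b a • W' b (φ x)) * m'.J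
    simp only [Finset.mul_sum, Finset.sum_mul, mul_smul_comm, smul_mul_assoc, hW.J _ _ (hO' hx)]
  · show dv I (G.F.e a) (fun y => (m'.j (φ y) ∘L v y : CL (Eu lam) (En (Fin m'.N)))) x s +
      ((∑ b, U x b a • W' b (φ x)) * m'.j (φ x) (v x s) -
        m'.j (φ x) (v x s) * ∑ b, U x b a • W' b (φ x)) = m'.j (φ x) (v x (G.a a x s))
    have s1 := R.sa_comp (hO hx) (h.sj _ (hO' hx))
    let Lc : CL (CL (Eu lam') (En (Fin m'.N))) (CL (CL (Eu lam) (Eu lam')) (CL (Eu lam) (En (Fin m'.N)))) :=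
      ContinuousLinearMap.compL ℝ (Eu lam) (Eu lam') (En (Fin m'.N))
    have e1 := dv_bil (e := G.F.e a) Lc s1.md (sv x hx).md
    have e2 : v x (G.a a x s) = G.F.D a v x s + ∑ b, U x b a • G'.a b (φ x) (v x s) := by
      have := congrArg (fun L => L s) (sub_eq_zero.1 (g.par x (hO hx) a))
      simpa using this.symm
    have e3 := congrArg (fun L => L s) e1
    simp only [Lc, ContinuousLinearMap.compL_apply, add_apply, ContinuousLinearMap.comp_apply] at e3
    rw [e3, R.D F (hO hx) a (h.sj _ (hO' hx)).md, e2, map_add, map_sum, _root_.sum_apply,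
      Finset.sum_mul, Finset.mul_sum, ← Finset.sum_sub_distrib, add_right_comm,
      ← Finset.sum_add_distrib, add_comm]
    congr 1
    refine Finset.sum_congr rfl fun b _ => ?_
    rw [smul_mul_assoc, mul_smul_comm, ← smul_sub, smul_apply, ← smul_add, map_smul]
    exact congrArg (U x b a • ·) (hW.j b _ (hO' hx) (v x s))

/-- `MEq` over `φ` is an isomorphism into the pull-back -/
theorem iso0_of_mEq (hOo : IsOpen O) (hm : OKOn I B m O) {u : M → CL m.V m'.V}
    (h : MEq I m m' O φ U v u) : Iso0 I m (pull m' φ U v) O u := by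
  refine ⟨fun x hx => (h.su x hx).contMDiffAt (hOo.mem_nhds hx),
    fun x hx => CIso.of_prj (hm.pidem x hx) (by rw [ad_trn]; exact h.uu x hx)
      (by rw [ad_trn]; exact h.uu' x hx), fun x hx => (h.J x hx).symm, fun x hx a => ?_,
    fun x hx s => h.j x hx s⟩
  show (∑ b, U x b a • m'.ρ b (φ x)) ∘L u x = u x ∘L m.ρ a x
  simp only [ContinuousLinearMap.finsetSum_comp, ContinuousLinearMap.smul_comp, h.ρ x hx]
  rw [← (hm.cl x hx).proj a]
  simp only [ContinuousLinearMap.comp_finsetSum, ContinuousLinearMap.comp_smul, Finset.smul_sum,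
    smul_smul]
  rw [Finset.sum_comm]
  exact Finset.sum_congr rfl fun k _ => by rw [← Finset.sum_smul, g.UU x (hO hx)]

theorem mEq_of_iso0 (hm' : OKOn I' B' m' O') {u : M → CL m.V m'.V}
    (h : Iso0 I m (pull m' φ U v) O u) : MEq I m m' O φ U v u := by
  refine ⟨fun x hx => (h.su x hx).contMDiffWithinAt,
    fun x hx => by rw [← ad_trn]; exact (h.iso x hx).src,
    fun x hx => by rw [← ad_trn]; exact (h.iso x hx).tgt, fun x hx => (h.J x hx).symm,
    fun x hx b => ?_, fun x hx s => h.j x hx s⟩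
  rw [← pull_ρ g hO hO' hm' hx b, ContinuousLinearMap.finsetSum_comp,
    ContinuousLinearMap.comp_finsetSum]
  refine Finset.sum_congr rfl fun a _ => ?_
  rw [ContinuousLinearMap.smul_comp, ContinuousLinearMap.comp_smul]
  exact congrArg (U x b a • ·) (h.ρ x hx a)

theorem pull_mEq (hB : B.OK I) (hm' : OKOn I' B' m' O') :
    MEq I (pull m' φ U v) m' O φ U v fun x => m'.p (φ x) :=
  mEq_of_iso0 g hO hO' hm' (Iso0.refl (pull_ok g hO hO' hB hm'))

end pull

theorem par_iff_par0 {F : Fr I M ι} {W : m.Cn} {W' : m'.Cn} {ψ : M → M'} {u : M → CL m.V m'.V} :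
    Par F W W' O ψ U u ↔ Par0 F (m' := pull m' ψ U v) W (pullW W' ψ U v) O u := Iff.rfl

theorem ConnOn.par0_refl {W : m.Cn} (h : ConnOn B G m W O) : Par0 G.F W W O m.p := fun x hx a => by
  rw [add_sub_assoc]; exact h.par a x hx

end

end Crest.Agent.X212.Pj41
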