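import Crest.Agent.X212.Pj41.Cm
import Crest.Agent.X212.Tmp64.Sq

/-!
# X212 / MDG (helper41): affine combinations of connections, stabilisation, literal modules
-/

set_option autoImplicit false
set_option linter.unusedSectionVars false

open Set Function Filter Topology
open scoped ContDiff Manifold InnerProductSpace

namespace Crest.Agent.X212.Pj41

open An Sob92
open Tmp64 (AdmOn Eq0 admOn_univ)

noncomputable section

variable {E : Type} [NormedAddCommGroup E] [NormedSpace ℝ E] [FiniteDimensional ℝ E]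
  [MeasurableSpace E] [BorelSpace E]
  {HM : Type} [TopologicalSpace HM] {I : ModelWithCorners ℝ E HM}
  {M : Type} [TopologicalSpace M] [ChartedSpace HM M] [IsManifold I ∞ M]
  [MeasurableSpace M] {ι : Type} [Fintype ι] {lam : Type} [Fintype lam]
  {B : Base M ι lam} {G : Geo I M ι lam} {m m' : Md M ι lam} {O U : Set M} {r r' : ℕ}

/-! ### connections -/

theorem dv_conj {V W : Type} [NormedAddCommGroup V] [InnerProductSpace ℝ V] [FiniteDimensional ℝ V]
    [NormedAddCommGroup W] [InnerProductSpace ℝ W] [FiniteDimensional ℝ W]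
    {e : (x : M) → TangentSpace I x} {x : M} {a : M → V →L[ℝ] W} {s : M → V →L[ℝ] V}
    {A : V →L[ℝ] V} {A' : W →L[ℝ] W} (ha : FSm I a x) (hs : FSm I s x) (h1 : ad A = -A)
    (h2 : ad A' = -A') (h : dv I e a x + A' ∘L a x - a x ∘L A = 0) :
    dv I e (fun y => a y ∘L s y ∘L ad (a y)) x +
      (A' ∘L (a x ∘L s x ∘L ad (a x)) - (a x ∘L s x ∘L ad (a x)) ∘L A') =
    a x ∘L (dv I e s x + (A ∘L s x - s x ∘L A)) ∘L ad (a x) := by
  have e1 : dv I e a x = a x ∘L A - A' ∘L a x := by rw [← sub_eq_zero, ← h]; abel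
  rw [dv_cc ha (hs.cc ha.ad), dv_cc hs ha.ad, dv_ad ha, e1, ad_sub, ad_comp, ad_comp, h1, h2]
  ext v
  simp only [ContinuousLinearMap.comp_apply, sub_apply, add_apply, neg_apply, map_sub, map_add,
    map_neg]
  abel

/-- a skew connection form for which an isomorphism is parallel is admissible -/
theorem ConnOn.of_par {u : M → CL m.V m'.V} (h : Iso0 I m m' O u) (hO : IsOpen O)
    (hm : OKOn I B m O) (hm' : OKOn I B m' O) {W : m.Cn} (hW : ConnOn B G m W O) {W' : m'.Cn}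
    (sm : ∀ a, ∀ x ∈ O, FSm I (W' a) x) (proj : ∀ a, ∀ x ∈ O, ∑ b, B.P a b x • W' b x = W' a x)
    (sk : ∀ a, ∀ x ∈ O, Skw (W' a x)) (hJ : ∀ a, ∀ x ∈ O, m'.J * W' a x = W' a x * m'.J)
    (hp : Par0 G.F W W' O u) : ConnOn B G m' W' O := by
  have key := fun a x hx {s : M → En (Fin m.N)} (hs : FSm I s x) =>
    dv_conj (e := G.F.e a) (h.su x hx) hs (ad_skew.2 (hW.sk a x hx)) (ad_skew.2 (sk a x hx))
      (hp x hx a)
  have hp' : ∀ y ∈ O, u y ∘L m.p y ∘L ad (u y) = m'.p y := fun y hy => by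
    rw [(h.iso y hy).symm.left, (h.iso y hy).tgt]
  refine ⟨sm, proj, fun a x hx => ?_, fun a b x hx => ?_, sk, hJ, fun a x hx s => ?_⟩
  · have := key a x hx (hm.sp x hx)
    rw [dv_congr (v := m'.p) ((hO.eventually_mem hx).mono hp'), hp' x hx,
      show dv I (G.F.e a) m.p x + (W a x ∘L m.p x - m.p x ∘L W a x) = 0 from hW.par a x hx,
      ContinuousLinearMap.zero_comp, ContinuousLinearMap.comp_zero] at this
    exact this
  · have := key a x hx (hm.sρ b x hx)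
    rw [dv_congr (v := m'.ρ b) ((hO.eventually_mem hx).mono fun y hy => (h.ρ_eq hm' hy b).symm),
      ← h.ρ_eq hm' hx b] at this
    refine this.trans ?_
    rw [show dv I (G.F.e a) (m.ρ b) x + (W a x ∘L m.ρ b x - m.ρ b x ∘L W a x) = _ from
      hW.comp a b x hx]
    simp only [h.ρ_eq hm' hx, ContinuousLinearMap.comp_finsetSum,
      ContinuousLinearMap.finsetSum_comp, ContinuousLinearMap.comp_smul,
      ContinuousLinearMap.smul_comp]
  · have := key a x hx ((hm.sj x hx).clm_apply (contMDiffAt_const (c := s)))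
    rw [dv_congr (v := fun y => m'.j y s)
      ((hO.eventually_mem hx).mono fun y hy => (h.j_eq hm' hy s).symm), ← h.j_eq hm' hx s] at this
    have e1 : dv I (G.F.e a) (fun y => m'.j y s) x = G.F.D a m'.j x s :=
      dv_clm (ContinuousLinearMap.apply ℝ _ s) (hm'.sj x hx).md
    have e2 : dv I (G.F.e a) (fun y => m.j y s) x = G.F.D a m.j x s :=
      dv_clm (ContinuousLinearMap.apply ℝ _ s) (hm.sj x hx).md
    rw [e1, e2] at this
    refine this.trans ?_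
    rw [show G.F.D a m.j x s + (W a x ∘L m.j x s - m.j x s ∘L W a x) = _ from hW.j a x hx s,
      ← h.j_eq hm' hx]

/-- the affine combination `(1 - χ) W + χ W'` -/
def aff {α : Type} [AddCommGroup α] [Module ℝ α] (χ : M → ℝ) (f g : M → α) (x : M) : α :=
  f x + χ x • (g x - f x)

section aff
variable {α : Type} [NormedAddCommGroup α] [NormedSpace ℝ α] {χ : M → ℝ} {f g : M → α} {x : M}

theorem aff_zero (h : χ x = 0) : aff χ f g x = f x := by simp [aff, h]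

theorem aff_one (h : χ x = 1) : aff χ f g x = g x := by simp [aff, h]

theorem aff_eq (h : g x = f x) : aff χ f g x = f x := by simp [aff, h]

theorem FSm.aff (hχ : FSm I χ x) (hU : tsupport χ ⊆ U) (hf : FSm I f x) (hg : x ∈ U → FSm I g x) :
    FSm I (aff χ f g) x := by
  by_cases hx : x ∈ U
  · exact hf.add (ContMDiffAt.smul hχ ((hg hx).sub hf))
  · exact hf.congr_of_eventuallyEq ((notMem_tsupport_iff_eventuallyEq.1 fun h => hx (hU h)).mono
      fun y hy => aff_zero hy)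

theorem aff_lin {β : Type} [AddCommGroup β] [Module ℝ β] (L : α →ₗ[ℝ] β) {c : β}
    (hU : tsupport χ ⊆ U) (hf : L (f x) = c) (hg : x ∈ U → L (g x) = c) : L (aff χ f g x) = c := by
  by_cases hx : x ∈ U
  · simp [aff, hf, hg hx]
  · rw [aff_zero (image_eq_zero_of_notMem_tsupport fun h => hx (hU h)), hf]

end aff

/-- **affine combinations of connections** -/
theorem ConnOn.aff {W W' : m.Cn} {χ : M → ℝ} (h : ConnOn B G m W O) (h' : ConnOn B G m W' (O ∩ U))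
    (hχ : ∀ x ∈ O, FSm I χ x) (hU : tsupport χ ⊆ U) :
    ConnOn B G m (fun a => aff χ (W a) (W' a)) O := by
  have cm : ∀ a, ∀ x ∈ O, ∀ (s D R : En (Fin m.N)), D + (W a x * s - s * W a x) = R →
      (x ∈ U → D + (W' a x * s - s * W' a x) = R) →
      D + (Pj41.aff χ (W a) (W' a) x * s - s * Pj41.aff χ (W a) (W' a) x) = R :=
    fun a x _ s D R h1 h2 => by
      rw [← eq_sub_iff_add_eq'] at h1 ⊢
      exact aff_lin (LinearMap.mulRight ℝ s - LinearMap.mulLeft ℝ s) hU h1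
        fun hx => eq_sub_iff_add_eq'.2 (h2 hx)
  refine ⟨fun a x hx => FSm.aff (hχ x hx) hU (h.sm a x hx) fun k => h'.sm a x ⟨hx, k⟩,
    fun a x hx => ?_, fun a x hx => cm a x hx _ _ _ (h.par a x hx) fun k => h'.par a x ⟨hx, k⟩,
    fun a b x hx => cm a x hx _ _ _ (h.comp a b x hx) fun k => h'.comp a b x ⟨hx, k⟩,
    fun a x hx => ad_skew.1 (eq_neg_iff_add_eq_zero.2 ?_), fun a x hx => ?_,
    fun a x hx s => cm a x hx _ _ _ (h.j a x hx s) fun k => h'.j a x ⟨hx, k⟩ s⟩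
  · by_cases k : x ∈ U
    · simp only [Pj41.aff, smul_add, Finset.sum_add_distrib, smul_comm (B.P a _ x) (χ x),
        ← Finset.smul_sum, smul_sub (B.P a _ x), Finset.sum_sub_distrib, h.proj a x hx,
        h'.proj a x ⟨hx, k⟩]
    · simp only [aff_zero (image_eq_zero_of_notMem_tsupport fun h => k (hU h)), h.proj a x hx]
  · exact aff_lin (f := W a) (g := W' a) (adL.toLinearMap + LinearMap.id) hU
      (eq_neg_iff_add_eq_zero.1 (ad_skew.2 (h.sk a x hx)))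
      fun k => eq_neg_iff_add_eq_zero.1 (ad_skew.2 (h'.sk a x ⟨hx, k⟩))
  · have := cm a x hx m.J 0 0 (by rw [h.J a x hx]; simp) fun k => by rw [h'.J a x ⟨hx, k⟩]; simp
    rw [zero_add, sub_eq_zero] at this
    exact this.symm

theorem Par0.aff {F : Fr I M ι} {W : m.Cn} {W₁ W₂ : m'.Cn} {u : M → CL m.V m'.V} {χ : M → ℝ}
    (h : Par0 F W W₁ O u) (h' : Par0 F W W₂ (O ∩ U) u) (hU : tsupport χ ⊆ U) :
    Par0 F W (fun a => aff χ (W₁ a) (W₂ a)) O u := fun x hx a => by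
  have k : ∀ A : En (Fin m'.N), F.D a u x + A ∘L u x - u x ∘L W a x = 0 ↔
      A ∘L u x = u x ∘L W a x - F.D a u x := fun A => by
    rw [sub_eq_zero, eq_sub_iff_add_eq']
  exact (k _).2 (aff_lin ((ContinuousLinearMap.compL ℝ m.V m'.V m'.V).flip (u x)).toLinearMap hU
    ((k _).1 (h x hx a)) fun hU => (k _).1 (h' x ⟨hx, hU⟩ a))

theorem Iso0.pp {u : M → CL m.V m'.V} (h : Iso0 I m m' O u) {x : M} (hx : x ∈ O) (v : m.V) :
    m'.pp B x (u x v) = u x (m.pp B x v) := by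
  have k : ∀ b w, m'.ρ b x (u x w) = u x (m.ρ b x w) := fun b w =>
    congrArg (fun L : CL m.V m'.V => L w) (h.ρ x hx b)
  have h1 : m'.p x (u x v) = u x v := congrArg (fun L : CL m.V m'.V => L v) (h.iso x hx).left
  have h2 : u x (m.p x v) = u x v := congrArg (fun L : CL m.V m'.V => L v) (h.iso x hx).idem
  simp only [Md.pp, Md.om, smul_apply, sub_apply, sum_apply,
    mul_apply_eq_comp, map_smul, map_sub, map_sum, k, h1, h2]

theorem Iso0.congr {u u' : M → CL m.V m'.V} (h : Iso0 I m m' O u) (hO : IsOpen O)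
    (e : EqOn u' u O) : Iso0 I m m' O u' :=
  ⟨fun x hx => (h.su x hx).congr_of_eventuallyEq (eventually_of_mem (hO.mem_nhds hx) e),
    fun x hx => e hx ▸ h.iso x hx, fun x hx => e hx ▸ h.J x hx, fun x hx => e hx ▸ h.ρ x hx,
    fun x hx => e hx ▸ h.j x hx⟩

theorem Par0.congr {F : Fr I M ι} {W : m.Cn} {W' : m'.Cn} {u u' : M → CL m.V m'.V}
    (h : Par0 F W W' O u) (hO : IsOpen O) (e : EqOn u' u O) : Par0 F W W' O u' := fun x hx a => by
  rw [Pre.D_def, dv_congr (eventually_of_mem (hO.mem_nhds hx) e), e hx]; exact h x hx a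

theorem iso0_of_local {u : M → CL m.V m'.V} (h : ∀ x ∈ O, ∃ O', x ∈ O' ∧ Iso0 I m m' O' u) :
    Iso0 I m m' O u := by
  choose! o ho h using h
  exact ⟨fun x hx => (h x hx).su x (ho x hx), fun x hx => (h x hx).iso x (ho x hx),
    fun x hx => (h x hx).J x (ho x hx), fun x hx => (h x hx).ρ x (ho x hx),
    fun x hx => (h x hx).j x (ho x hx)⟩

theorem admOn_of_local {c : Cfg M ι lam r} (h1 : c.m.J * c.m.J = -1) (h2 : Skw c.m.J)
    (hz : r = 0 ∨ ‖c.z‖ = 1) (h : ∀ x ∈ O, ∃ O', x ∈ O' ∧ AdmOn c B G O') : AdmOn c B G O :=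
  ⟨OKOn.of_local h1 h2 fun x hx => (h x hx).imp fun _ k => ⟨k.1, k.2.ok⟩,
    ConnOn.of_local fun x hx => (h x hx).imp fun _ k => ⟨k.1, k.2.conn⟩,
    fun x hx => let ⟨_, k, k'⟩ := h x hx; k'.sm x k, fun x hx => let ⟨_, k, k'⟩ := h x hx; k'.pos x k,
    hz⟩

/-! ### modules with the same vector space -/

section same
variable {N : ℕ} {J : En (Fin N)} {p p' : M → En (Fin N)} {ρ ρ' W W' : ι → M → En (Fin N)}
  {j j' : M → CL (Eu lam) (En (Fin N))} (hO : IsOpen O) (e1 : EqOn p' p O)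
  (e2 : ∀ b, EqOn (ρ' b) (ρ b) O) (e3 : EqOn j' j O)
include hO e1 e2 e3

theorem OKOn.same (h : OKOn I B ⟨N, J, p, ρ, j⟩ O) :
    OKOn I B ⟨N, J, p', ρ', j'⟩ O ∧ Iso0 I ⟨N, J, p, ρ, j⟩ ⟨N, J, p', ρ', j'⟩ O p :=
  have k := Iso0.refl h
  h.of_conj (m' := ⟨N, J, p', ρ', j'⟩) hO h.sp (fun x hx => (k.iso x hx).src) h.Jsq h.Jsk h.Jp
    (fun x hx => (e1 hx).trans (k.iso x hx).tgt.symm) (fun b _ hx => (e2 b hx).trans (k.ρ_eq h hx b))
    (fun x hx => (h.sj x hx).congr_of_eventuallyEq (eventually_of_mem (hO.mem_nhds hx) e3))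
    fun _ hx s => (congrArg (fun L => L s) (e3 hx)).trans (k.j_eq h hx s)

theorem ConnOn.same (h : OKOn I B ⟨N, J, p, ρ, j⟩ O) (hW : ConnOn B G ⟨N, J, p, ρ, j⟩ W O)
    (e4 : ∀ b, EqOn (W' b) (W b) O) : ConnOn B G ⟨N, J, p', ρ', j'⟩ W' O :=
  have k := h.same hO e1 e2 e3
  (ConnOn.of_par k.2 hO h k.1 hW hW.sm hW.proj hW.sk hW.J hW.par0_refl).congr hO fun b _ hx => e4 b hx

theorem admOn_same {Φ Φ' : M → Eu (Fin N)} {z : EuclideanSpace ℂ (Fin r)}
    {z' : EuclideanSpace ℂ (Fin r')} (h : AdmOn ⟨⟨N, J, p, ρ, j⟩, W, Φ, z⟩ B G O)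
    (e4 : ∀ b, EqOn (W' b) (W b) O) (e5 : EqOn Φ' Φ O) (hz : r' = 0 ∨ ‖z'‖ = 1) :
    AdmOn ⟨⟨N, J, p', ρ', j'⟩, W', Φ', z'⟩ B G O :=
  ⟨(h.ok.same hO e1 e2 e3).1, ConnOn.same hO e1 e2 e3 h.ok h.conn e4,
    fun x hx => (h.sm x hx).congr_of_eventuallyEq (eventually_of_mem (hO.mem_nhds hx) e5),
    fun x hx => by
      have := h.pos x hx
      simp only [Md.pp, Md.om] at this ⊢
      simp only [e1 hx, e2 _ hx, e5 hx]; exact this, hz⟩

end same

/-! ### stabilisation -/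

/-- the conjugate module -/
@[reducible] def cjM {Z : Type} (m : Md Z ι lam) {N : ℕ} (J : En (Fin N))
    (a : Z → CL m.V (Eu (Fin N))) : Md Z ι lam :=
  ⟨N, J, fun x => cjL (a x) (m.p x), fun b x => cjL (a x) (m.ρ b x), fun x => cjL (a x) ∘L m.j x⟩

/-- conjugation of a configuration by a constant isometry -/
@[reducible] def stab {Z : Type} (c : Cfg Z ι lam r) {N : ℕ} (J : En (Fin N))
    (i : CL c.m.V (Eu (Fin N))) : Cfg Z ι lam r :=
  ⟨cjM c.m J fun _ => i, fun b x => cjL i (c.W b x), fun x => i (c.Φ x), c.z⟩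

/-- a complex linear isometric embedding -/
structure Emb {N N' : ℕ} (J : En (Fin N)) (J' : En (Fin N')) (i : CL (Eu (Fin N)) (Eu (Fin N'))) :
    Prop where
  iso : ad i ∘L i = 1
  J : J' ∘L i = i ∘L J
  sq : J' * J' = -1
  sk : Skw J'

theorem cjM_ok (h : OKOn I B m O) (hO : IsOpen O) {N : ℕ} {J : En (Fin N)}
    {a : M → CL m.V (Eu (Fin N))} (sa : ∀ x ∈ O, FSm I a x)
    (aa : ∀ x ∈ O, ad (a x) ∘L a x = m.p x) (h1 : J * J = -1) (h2 : Skw J)
    (hJ : ∀ x ∈ O, J ∘L a x = a x ∘L m.J) : OKOn I B (cjM m J a) O ∧ Iso0 I m (cjM m J a) O a :=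
  h.of_conj (m' := cjM m J a) hO sa aa h1 h2 hJ (fun x hx => by
      have := CIso.of_prj (h.pidem x hx) (aa x hx) rfl
      show a x ∘L m.p x ∘L ad (a x) = _
      rw [this.symm.left])
    (fun _ _ _ => rfl) (fun x hx => (sa x hx).cjj (h.sj x hx)) fun _ _ _ => rfl

theorem cjL_comp {U V W : Type} [NormedAddCommGroup U] [InnerProductSpace ℝ U]
    [FiniteDimensional ℝ U] [NormedAddCommGroup V] [InnerProductSpace ℝ V] [FiniteDimensional ℝ V]
    [NormedAddCommGroup W] [InnerProductSpace ℝ W] [FiniteDimensional ℝ W] (a : CL V W) (b : CL U V)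
    (s : CL U U) : cjL (a ∘L b) s = cjL a (b ∘L s ∘L ad b) := by
  rw [cjL_apply, cjL_apply, ad_comp]; rfl

section cjiso
variable {u : M → CL m.V m'.V} (h : Iso0 I m m' O u) (hm' : OKOn I B m' O) {x : M} (hx : x ∈ O)
  {N : ℕ} (i : CL m'.V (Eu (Fin N)))
include h hx

theorem Iso0.cj_p : cjL (i ∘L u x) (m.p x) = cjL i (m'.p x) := by
  rw [cjL_comp, (h.iso x hx).symm.left, (h.iso x hx).tgt]

include hm'

theorem Iso0.cj_ρ (b : ι) : cjL (i ∘L u x) (m.ρ b x) = cjL i (m'.ρ b x) := by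
  rw [cjL_comp, ← h.ρ_eq hm' hx]

theorem Iso0.cj_j : cjL (i ∘L u x) ∘L m.j x = cjL i ∘L m'.j x :=
  ContinuousLinearMap.ext fun s => by
    show cjL _ (m.j x s) = cjL i (m'.j x s)
    rw [cjL_comp, ← h.j_eq hm' hx]

end cjiso


theorem Emb.cj_skw {N N' : ℕ} (i : CL (Eu (Fin N)) (Eu (Fin N'))) {A : En (Fin N)} (h : Skw A) :
    Skw (cjL i A) := ad_skew.1 (by
  rw [cjL_apply, ad_comp, ad_comp, ad_ad, ad_skew.2 h]; ext v; simp)

theorem Emb.cj_J {N N' : ℕ} {J : En (Fin N)} {J' : En (Fin N')} {i : CL (Eu (Fin N)) (Eu (Fin N'))}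
    (hi : Emb J J' i) (hJ : Skw J) {A : En (Fin N)} (h : J * A = A * J) :
    J' * cjL i A = cjL i A * J' := by
  have k := ad_itw_skew (ad_skew.2 hJ) (ad_skew.2 hi.sk) hi.J
  show J' ∘L i ∘L A ∘L ad i = (i ∘L A ∘L ad i) ∘L J'
  rw [← ContinuousLinearMap.comp_assoc, hi.J, ContinuousLinearMap.comp_assoc,
    ContinuousLinearMap.comp_assoc, ContinuousLinearMap.comp_assoc, ← k]
  exact congrArg (fun T => i ∘L T ∘L ad i) h

/-- **stabilisation** -/
theorem stab_spec {c : Cfg M ι lam r} {N : ℕ} {J : En (Fin N)} {i : CL c.m.V (Eu (Fin N))}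
    (hi : Emb c.m.J J i) (hO : IsOpen O) (h : AdmOn c B G O) :
    AdmOn (stab c J i) B G O ∧ Eq0 G.F c (stab c J i) O fun x => i ∘L c.m.p x := by
  have k := Iso0.refl h.ok
  have ii : ∀ v, ad i (i v) = v := fun v => congrArg (fun L : En (Fin c.m.N) => L v) hi.iso
  obtain ⟨k1, k2⟩ := h.ok.of_conj (m' := (stab c J i).m) hO (a := fun x => i ∘L c.m.p x)
    (fun x hx => FSm.cc contMDiffAt_const (h.ok.sp x hx))
    (fun x hx => by
      rw [ad_comp, (h.ok.prj hx).herm]; ext1 v; simp [ii, (h.ok.prj hx).app])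
    hi.sq hi.sk (fun x hx => by
      rw [← ContinuousLinearMap.comp_assoc, hi.J]; exact congrArg (i ∘L ·) (h.ok.Jp x hx))
    (fun x hx => by
      show i ∘L c.m.p x ∘L ad i = _
      rw [ad_comp, (h.ok.prj hx).herm]; ext1 v; simp [(h.ok.prj hx).app])
    (fun b x hx => (k.cj_ρ h.ok hx i b).symm)
    (fun x hx => FSm.cjj contMDiffAt_const (h.ok.sj x hx))
    fun x hx s => congrArg (fun L => L s) (k.cj_j h.ok hx i).symm
  have k3 : Par0 G.F c.W (stab c J i).W O fun x => i ∘L c.m.p x := fun x hx a => by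
    have := congrArg (i ∘L ·) (h.conn.par0_refl x hx a)
    rw [Pre.D_def, dv_cc contMDiffAt_const (h.ok.sp x hx), dv_const, ← Pre.D_def]
    refine Eq.trans ?_ (this.trans (ContinuousLinearMap.comp_zero _))
    ext1 v
    simp [cjL_apply, ii]
  have k4 : ∀ x ∈ O, i (c.Φ x) = (i ∘L c.m.p x) (c.Φ x) := fun x hx => congrArg i (h.pΦ hx).symm
  exact ⟨⟨k1, ConnOn.of_par k2 hO h.ok k1 h.conn
    (fun a x hx => (cjL i).contDiff.contDiffAt.comp_contMDiffAt (h.conn.sm a x hx))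
    (fun a x hx => by simp only [← map_smul, ← map_sum, h.conn.proj a x hx])
    (fun a x hx => Emb.cj_skw i (h.conn.sk a x hx))
    (fun a x hx => hi.cj_J h.ok.Jsk (h.conn.J a x hx)) k3,
    fun x hx => i.contDiff.contDiffAt.comp_contMDiffAt (h.sm x hx),
    fun x hx => by
      show (stab c J i).m.pp B x (i (c.Φ x)) = i (c.Φ x)
      rw [k4 x hx, k2.pp hx, h.pos x hx], h.z⟩, k2, k3, k4, rfl⟩

/-- an orthogonal sum -/
structure Sum2 {N₁ N₂ N : ℕ} (J₁ : En (Fin N₁)) (J₂ : En (Fin N₂)) (J : En (Fin N))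
    (i₁ : CL (Eu (Fin N₁)) (Eu (Fin N))) (i₂ : CL (Eu (Fin N₂)) (Eu (Fin N))) : Prop where
  e₁ : Emb J₁ J i₁
  e₂ : Emb J₂ J i₂
  orth : ad i₁ ∘L i₂ = 0

theorem exists_sum2 {N₁ N₂ : ℕ} {J₁ : En (Fin N₁)} {J₂ : En (Fin N₂)} (h1 : J₁ * J₁ = -1)
    (h1' : Skw J₁) (h2 : J₂ * J₂ = -1) (h2' : Skw J₂) :
    ∃ (J : En (Fin (N₁ + N₂))) (i₁ : _) (i₂ : _), Sum2 J₁ J₂ J i₁ i₂ := by
  let b₁ := EuclideanSpace.basisFun (Fin N₁) ℝ
  let b₂ := EuclideanSpace.basisFun (Fin N₂) ℝ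
  let c := (EuclideanSpace.basisFun (Fin (N₁ + N₂)) ℝ).reindex finSumFinEquiv.symm
  have sq : (mx c c).symm (Matrix.fromBlocks (mx b₁ b₁ J₁) 0 0 (mx b₂ b₂ J₂)) *
      (mx c c).symm (Matrix.fromBlocks (mx b₁ b₁ J₁) 0 0 (mx b₂ b₂ J₂)) = -1 :=
    (mx c c).injective (by
      simp [mx_mul, Matrix.fromBlocks_multiply, ← mx_mul b₁, ← mx_mul b₂, h1, h2, mx_one,
        ← Matrix.fromBlocks_one, Matrix.fromBlocks_neg])
  have sk : Skw ((mx c c).symm (Matrix.fromBlocks (mx b₁ b₁ J₁) 0 0 (mx b₂ b₂ J₂))) :=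
    ad_skew.1 ((mx c c).injective (by
      rw [mx_ad, map_neg, LinearEquiv.apply_symm_apply, Matrix.fromBlocks_conjTranspose, ← mx_ad,
        ← mx_ad, ad_skew.2 h1', ad_skew.2 h2']
      simp [Matrix.fromBlocks_neg]))
  refine ⟨_, (mx b₁ c).symm (Matrix.fromRows 1 0), (mx b₂ c).symm (Matrix.fromRows 0 1),
    ⟨?_, ?_, sq, sk⟩, ⟨?_, ?_, sq, sk⟩, ?_⟩
  · refine (mx b₁ b₁).injective ?_
    simp [mx_comp b₁ c, mx_ad, mx_one, Matrix.transpose_fromRows, Matrix.fromCols_mul_fromRows]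
  · refine (mx b₁ c).injective ?_
    simp [mx_comp b₁ c c, mx_comp b₁ b₁ c, Matrix.fromBlocks_mul_fromRows]
  · refine (mx b₂ b₂).injective ?_
    simp [mx_comp b₂ c, mx_ad, mx_one, Matrix.transpose_fromRows, Matrix.fromCols_mul_fromRows]
  · refine (mx b₂ c).injective ?_
    simp [mx_comp b₂ c c, mx_comp b₂ b₂ c, Matrix.fromBlocks_mul_fromRows]
  · refine (mx b₂ b₁).injective ?_
    simp [mx_comp b₂ c, mx_ad, Matrix.transpose_fromRows, Matrix.fromCols_mul_fromRows]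

/-- `c'` at `x` is literally the stabilisation of `c` at `y` -/
structure LitAt {Z Z' : Type} (c' : Cfg Z' ι lam r) (c : Cfg Z ι lam r') (i : CL c.m.V c'.m.V)
    (x : Z') (y : Z) : Prop where
  p : c'.m.p x = cjL i (c.m.p y)
  ρ : ∀ b, c'.m.ρ b x = cjL i (c.m.ρ b y)
  j : c'.m.j x = cjL i ∘L c.m.j y
  W : ∀ b, c'.W b x = cjL i (c.W b y)
  Φ : c'.Φ x = i (c.Φ y)

end

end Crest.Agent.X212.Pj41
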