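import Crest.Agent.X212.Dec35.Cyl
import Crest.Agent.X212.Pj41.Two

/-!
# X212 / DEC-RED (helper41): the decay theorem on necks from the decay theorem on the cylinder
-/

set_option autoImplicit false
set_option linter.unusedSectionVars false
noncomputable section
open scoped Manifold ContDiff Topology InnerProductSpace
open Set Function Filter Real

namespace Crest.Agent.X212.Pj41
open An Map77 Sob92 Tmp64 Cyf70 Nd18 Dec35
open Bki64 (Cl ClsT win Cn BB cov dA dP csB)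
open Neck67 (Lb up dn cS)

section gen
variable {E : Type} [NormedAddCommGroup E] [NormedSpace ℝ E] [FiniteDimensional ℝ E]
  [MeasurableSpace E] [BorelSpace E]
  {HM : Type} [TopologicalSpace HM] {I : ModelWithCorners ℝ E HM} [I.Boundaryless]
  {M : Type} [TopologicalSpace M] [ChartedSpace HM M] [IsManifold I ∞ M]
  [MeasurableSpace M] [T2Space M] [BorelSpace M] [SecondCountableTopology M]
  {ι : Type} [Fintype ι] {lam : Type} [Fintype lam] {r r' : ℕ}
  {B : Base M ι lam} {G : Geo I M ι lam} {F : Fr I M ι} {c : Cfg M ι lam r} {c' : Cfg M ι lam r'}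
  {u : M → CL c.m.V c'.m.V} {O : Set M} {x : M} {ζ : M → Circle} {w w' : M → Cv c'} {t : ℝ}

/-- the difference of two connections is a one-form with values in `g` -/
theorem dA_mem (hG : G.F.P = B.P) (hu : Iso0 I c.m c'.m O u) (hO : IsOpen O) (hc : AdmOn c B G O)
    (hc' : AdmOn c' B G O) (hx : x ∈ O) : (∀ a, hsL (dA G.F c c' u a x) ∈ c'.m.gS x) ∧
      ∀ a, ∑ b, B.P a b x • dA G.F c c' u b x = dA G.F c c' u a x := by
  obtain ⟨C, P⟩ := conn_push hu hO hc.ok hc'.ok hG hc.conn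
  have C' := hc'.conn
  have H := hc'.ok
  generalize pshC G.F u c.W = W at C P
  have e : ∀ a, dA G.F c c' u a x = (c'.W a x - W a x) * c'.m.p x := fun a => by
    have : cov G.F c c' u a x = (c'.W a x - W a x) ∘L u x := by
      rw [← sub_zero (cov _ _ _ _ _ _), ← P x hx a, cov, ContinuousLinearMap.sub_comp]; abel
    rw [dA, this, ContinuousLinearMap.comp_assoc, ← ad_trn, (hu.iso x hx).tgt]; rfl
  have k : ∀ {a} {T D X : En (Fin c'.m.N)}, D + (c'.W a x * T - T * c'.W a x) = X →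
      D + (W a x * T - T * W a x) = X → (c'.W a x - W a x) * T = T * (c'.W a x - W a x) :=
    fun h h' => by
      have := h.trans h'.symm
      rw [add_right_inj] at this
      rw [sub_mul, mul_sub, sub_eq_iff_eq_add.1 this]; abel
  simp only [e]
  refine ⟨fun a => ?_, fun a => by
    simp only [← smul_mul_assoc, ← Finset.sum_mul, smul_sub, Finset.sum_sub_distrib, C.proj a x hx,
      C'.proj a x hx]⟩
  have hp := k (C'.par a x hx) (C.par a x hx)
  refine Wz78.mem_g (fun v v' => ?_) (by rw [← mul_assoc, ← hp, mul_assoc, H.pidem x hx]) ?_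
    (fun b => ?_) fun s => ?_
  · conv_rhs => rw [hp]
    simp only [mul_apply_eq_comp, sub_apply, inner_sub_left, map_sub, inner_sub_right,
      C.sk a x hx _ v', C'.sk a x hx _ v', H.psym x hx v]
    ring
  · rw [← mul_assoc, mul_sub, C.J a x hx, C'.J a x hx, ← sub_mul, mul_assoc, H.Jp x hx, mul_assoc]
  · rw [← mul_assoc, ← k (C'.comp a b x hx) (C.comp a b x hx), mul_assoc, mul_assoc,
      (H.cl x hx).pl, (H.cl x hx).pr]
  · rw [← mul_assoc, ← k (C'.j a x hx s) (C.j a x hx s), mul_assoc, mul_assoc, H.pj x hx,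
      H.jp hx]

variable (F c c' u ζ) in
/-- the difference as a variation -/
def dvar : M → Cv c' := base (fun a x => -dA F c c' u a x) fun x => dP c c' u (ζ x) x

theorem dvar_tg (hG : G.F.P = B.P) (hu : Iso0 I c.m c'.m O u) (hO : IsOpen O) (hc : AdmOn c B G O)
    (hc' : c'.Adm B G) (hx : x ∈ O) :
    c'.m.p1 B x (fa (dvar G.F c c' u ζ x)) = fa (dvar G.F c c' u ζ x) ∧
      c'.m.pp B x (fp (dvar G.F c c' u ζ x)) = fp (dvar G.F c c' u ζ x) := by
  obtain ⟨h1, h2⟩ := dA_mem hG hu hO hc ((admOn_univ.2 hc').mono (subset_univ _)) hx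
  refine ⟨Spn45.p1_iff.2 ⟨fun a => ?_, fun a => ?_⟩, ?_⟩
  · rw [dvar, fa_base, map_neg]; exact Submodule.neg_mem _ (h1 a)
  · simp only [dvar, fa_base, ← map_smul, ← map_sum, smul_neg, Finset.sum_neg_distrib, h2]
  · have e : c'.m.pp B x (u x (c.Φ x)) = u x (c.Φ x) := by rw [hu.pp hx, hc.pos x hx]
    simp only [dvar, fp_base, dP, cs, map_sub, map_add, map_smul, hc'.pos, e]
    rw [← mul_apply_eq_comp _ c'.m.J, ← Wz78.J_pp hc'.ok, mul_apply_eq_comp, e]

theorem lb_dvar (c' : Cfg M ι lam r') : ∃ K ≥ 0, ∀ r (c : Cfg M ι lam r) u ζ O k ε, 0 ≤ ε →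
    Cl F c c' u ζ O k ε → Lb F.toPre O k (dvar F c c' u ζ) (K * ε) := by
  let L : ι → CL (En (Fin c'.m.N)) (Cv c') := fun a => -(i1 _ _ ∘L ij _ a ∘L hsL)
  refine ⟨Fintype.card ι * (∑ a, ‖L a‖) + ‖(i2 _ _ : CL c'.m.V (Cv c'))‖, by positivity,
    fun r c u ζ O k ε hε h => ?_⟩
  have := (Lb.sum h.op Finset.univ (C := (∑ a, ‖L a‖) * ε) fun a _ =>
    ((h.A a).clm h.op (L a)).mono (mul_le_mul_of_nonneg_right
      (Finset.single_le_sum (f := fun a => ‖L a‖) (fun _ _ => norm_nonneg _) (Finset.mem_univ a))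
      hε)).add h.op (h.P.clm h.op (i2 _ _ : CL c'.m.V (Cv c')))
  refine (this.mono (le_of_eq (by rw [Finset.card_univ]; ring))).congr h.op fun x _ => ?_
  classical
  refine ext2 (fm_ext fun a => ?_) (by simp [dvar, base, L])
  simp [dvar, base, L, ij, apply_ite, ite_apply, Finset.sum_apply]

variable (F c c') in
/-- `u` maps `e^{it} c` to `c' + w` at `x` -/
def Ex (w : M → Cv c') (u : M → CL c.m.V c'.m.V) (t : ℝ) (x : M) : Prop :=
  (∀ a, cov F c c' u a x + oa a (w x) ∘L u x = 0) ∧ ph c' t (u x (c.Φ x)) = c'.Φ x + fp (w x)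

theorem cov_cf (a : ι) : cov F c (cf c' w) u a x = cov F c c' u a x + oa a (w x) ∘L u x := by
  change F.D a u x + (c'.W a x + oa a (w x)) ∘L u x - u x ∘L c.W a x = _
  rw [cov, ContinuousLinearMap.add_comp]; abel

theorem ex_dvar (hu : Iso0 I c.m c'.m O u) (hO : IsOpen O) (hc : AdmOn c B G O) (hx : x ∈ O)
    (hζ : ζ x = Circle.exp t) (e : w x = dvar G.F c c' u ζ x) : Ex G.F c c' w u t x :=
  ⟨fun a => by
    rw [e, dvar, oa_base, ContinuousLinearMap.neg_comp, Bki64.dA_u hu hO hc hx, add_neg_cancel],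
    by rw [e, dvar, fp_base, dP, hζ, ph_cs, add_sub_cancel]⟩

theorem Ex.rot (h : Ex F c c' w u t x) (hJ : c'.m.J * c'.m.J = -1) (φ : M → ℝ) :
    Ex F c c' (rot c' φ w) u (φ x + t) x :=
  ⟨fun a => by rw [oa_apply, fa_rot]; exact h.1 a, by rw [fp_rot, ← ph_ph hJ, h.2, add_sub_cancel]⟩

theorem Ex.comp (h : Ex F c c' w u t x) (hu : FSm I u x) {g : M → En (Fin c'.m.N)}
    (e : Eq0 F (cf c' w) (cf c' w') O g) (hx : x ∈ O) :
    Ex F c c' w' (fun y => g y ∘L u y) t x := by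
  refine ⟨fun a => ?_, ?_⟩
  · have := Bki64.cov_comp (F := F) (c := c) (c' := cf c' w) (c'' := cf c' w') (u := u) (h := g) hu
      (e.iso.su x hx) a
    rw [show cov F (cf c' w) (cf c' w') g a x = 0 from e.par x hx a, cov_cf, cov_cf, h.1 a] at this
    exact this.trans (ContinuousLinearMap.ext fun _ => (zero_add _).trans (map_zero (g x)))
  · refine Eq.trans ?_ (e.Φ x hx).symm
    change _ = g x (c'.Φ x + fp (w x))
    rw [← h.2, ph_cs, ph_cs]
    exact (Eqv71.map_cs (e.iso.J x hx).symm _ _).symm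

theorem cl_of_ex0 (hO : IsOpen O) (hu : Iso0 I c.m c'.m O u) (h : ∀ x ∈ O, Ex F c c' w u 0 x) :
    Cl F c (cf c' w) u (fun _ => 1) O 0 0 :=
  Cl.of_eq hO hu (fun a x hx => (cov_cf a).trans ((h x hx).1 a)) (fun x hx => by
    have := (h x hx).2
    rw [ph_zero] at this
    exact sub_eq_zero.2 ((Eqv71.cs_one _ _).trans this)) le_rfl

theorem cl_of_ex (hc : c'.m.OK I B) : ∃ K ≥ 0, ∀ r (c : Cfg M ι lam r) u w t O k m, 0 ≤ m →
    IsOpen O → Iso0 I c.m c'.m O u → Tg B c' w → (∀ x ∈ O, Ex F c c' w u t x) →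
    Lb F.toPre O k w m → Cl F c c' u (fun _ => Circle.exp t) O k (K * m) := by
  have p : 0 ≤ ∑ a, ‖-(oa a : CL (Cv c') _)‖ := by positivity
  refine ⟨∑ a, ‖-(oa a : CL (Cv c') _)‖ + ‖(fp : CL (Cv c') _)‖, by positivity,
    fun r c u w t O k m hm hO hu hw h hb => ⟨hO, hu, fun a => ?_, ?_⟩⟩
  · refine ((hb.clm hO (-oa a)).mono (mul_le_mul_of_nonneg_right ?_ hm)).congr hO fun x hx => ?_
    · exact (Finset.single_le_sum (f := fun a => ‖-(oa a : CL (Cv c') _)‖)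
        (fun _ _ => norm_nonneg _) (Finset.mem_univ a)).trans (le_add_of_nonneg_right (norm_nonneg _))
    · rw [dA, eq_neg_of_add_eq_zero_left ((h x hx).1 a), ContinuousLinearMap.neg_comp,
        ContinuousLinearMap.comp_assoc, ← ad_trn, (hu.iso x hx).tgt]
      exact congrArg Neg.neg (Wz78.g_p' hc (hw.mem x a))
  · refine ((hb.clm hO fp).mono (mul_le_mul_of_nonneg_right (le_add_of_nonneg_left p) hm)).congr hO
      fun x hx => ?_
    rw [dP, ← ph_cs, (h x hx).2, add_sub_cancel_left]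

end gen

/-! ### functions of time -/

theorem bd_of_iter {A : ℝ} : ∀ {k : ℕ} {f : ℝ → ℝ}, (∀ j ≤ k, ∀ t, |iteratedDeriv j f t| ≤ A) →
    Neck67.Bd k f A
  | 0, _, h => fun t => by simpa using h 0 le_rfl t
  | k + 1, _, h => ⟨fun t => by simpa using h 0 k.succ.zero_le t,
    bd_of_iter fun j hj t => by rw [← iteratedDeriv_succ']; exact h _ (by omega) t⟩

theorem cd_chi (p q : ℝ) : ContDiff ℝ ∞ (chi p q) :=
  (Neck67.sm_up le_rfl p).cd.mul (Neck67.sm_dn le_rfl q).cd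

theorem bd_chi (k : ℕ) (p q : ℝ) : Neck67.Bd k (chi p q) (2 ^ k * cS k * cS k) :=
  Neck67.Bd.mul (Neck67.sm_up le_rfl p).cd (Neck67.sm_dn le_rfl q).cd
    (Neck67.bd_up k le_rfl p).of_succ (Neck67.bd_dn k le_rfl q).of_succ

theorem chi_off {p q t : ℝ} (h : t ∉ Icc p q) : chi p q t = 0 := by
  rcases not_and_or.1 h with h | h
  · rw [chi, Neck67.up_zero one_pos (not_le.1 h).le, zero_mul]
  · rw [chi, Neck67.dn_zero one_pos (not_le.1 h).le, mul_zero]

theorem chi_on {p q t : ℝ} (h : t ∈ Icc (p + 1) (q - 1)) : chi p q t = 1 := by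
  rw [chi, Neck67.up_one one_pos h.1, Neck67.dn_one one_pos h.2, one_mul]

theorem exists_th {θ : ℝ → ℝ} (hθ : ContDiff ℝ ∞ θ) (p q : ℝ) : ∃ th : ℝ → ℝ, ContDiff ℝ ∞ th ∧
    deriv th = -(chi p q * deriv θ) ∧ (∀ t ∈ Icc (p + 1) (q - 1), th t = -θ t) ∧
    (θ = 0 → th = 0) := by
  have c : ContDiff ℝ ∞ (chi p q * deriv θ) := (cd_chi p q).mul (Neck67.cd_deriv hθ)
  have d : ∀ t, HasDerivAt (fun t => -(θ (p + 1) + ∫ s in (p + 1)..t, (chi p q * deriv θ) s))
      (-(chi p q * deriv θ) t) t := fun t =>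
    ((c.continuous.integral_hasStrictDerivAt _ t).hasDerivAt.const_add _).neg
  have e := funext fun t => (d t).deriv
  refine ⟨_, contDiff_infty_iff_deriv.2 ⟨fun t => (d t).differentiableAt, e ▸ c.neg⟩, e,
    fun t ht => ?_, fun h => by ext; simp [h]⟩
  rw [intervalIntegral.integral_congr (g := deriv θ) fun s hs => by
      rw [uIcc_of_le ht.1] at hs
      rw [Pi.mul_apply, chi_on ⟨hs.1, hs.2.trans ht.2⟩, one_mul],
    intervalIntegral.integral_deriv_eq_sub (fun s _ => Neck67.cd_diff hθ s)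
      ((Neck67.cd_deriv hθ).continuous.intervalIntegrable _ _), add_sub_cancel]

theorem exists_clamp {a b R s : ℝ} (hab : a ≤ b) (hR : 0 ≤ R) (h : s ∈ Icc (a - R) (b + R)) :
    ∃ s' ∈ Icc a b, |s - s'| ≤ R := by
  rcases le_total s a with h1 | h1
  · exact ⟨a, ⟨le_rfl, hab⟩, abs_le.2 ⟨by linarith [h.1], by linarith⟩⟩
  rcases le_total s b with h2 | h2
  · exact ⟨s, ⟨h1, h2⟩, by simpa⟩
  · exact ⟨b, ⟨hab, le_rfl⟩, abs_le.2 ⟨by linarith, by linarith [h.2]⟩⟩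

variable {E3 : Type} [NormedAddCommGroup E3] [NormedSpace ℝ E3] [FiniteDimensional ℝ E3]
  [MeasurableSpace E3] [BorelSpace E3]
  {H3 : Type} [TopologicalSpace H3] {I3 : ModelWithCorners ℝ E3 H3} [I3.Boundaryless]
  {Y : Type} [TopologicalSpace Y] [ChartedSpace H3 Y] [IsManifold I3 ∞ Y] [T2Space Y]
  [MeasurableSpace Y] [BorelSpace Y] [SecondCountableTopology Y] [CompactSpace Y]
  {κ : Type} [Fintype κ] {lam : Type} [Fintype lam] {D : YD I3 Y κ lam} {β : YC Y κ lam}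

theorem bb_phase {α : Type} {l : Filter α} {S : α → Set (Y × ℝ)} {k : ℕ} {F : Pre I3 Y κ}
    {θ : α → ℝ → ℝ} (hθ : ∀ n, ContDiff ℝ ∞ (θ n))
    (h : BB (cylP F) l S k fun n x => deriv (θ n) x.2) :
    BB (cylP F) l S (k + 1) fun n x => (Circle.exp (θ n x.2) : ℂ) := by
  have sm : ∀ n, ContDiff ℝ ∞ fun t => (Circle.exp (θ n t) : ℂ) := fun n =>
    ((Complex.ofRealCLM.contDiff.comp (hθ n)).mul contDiff_const).cexp
  refine (BB.zero_of h.op (C := 1) (Eventually.of_forall fun n x _ =>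
    ⟨sm_snd (sm n) x, (Circle.norm_coe _).le⟩)).boot fun j hj hb a => ?_
  cases a with
  | some a => simp only [D_some_snd F (sm _)]; exact BB.const h.op 0
  | none =>
    simp only [D_none_snd F (sm _)]
    refine ((h.of_le hj).smul (hb.clm (ContinuousLinearMap.mul ℝ ℂ Complex.I))).congr
      (Eventually.of_forall fun n x _ => ?_)
    refine (((((hθ n).differentiable (by simp)) x.2).hasDerivAt.ofReal_comp.mul_const
      Complex.I).cexp.deriv).trans ?_
    simp [mul_comm, mul_left_comm]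

theorem rot_bd (hβ : D.Adm β) (k : ℕ) (A : ℝ) : ∃ C, ∀ (v : Cz β) (th : ℝ → ℝ), Sm (IC I3) v →
    D.Z.CB k v A → ContDiff ℝ ∞ th → Neck67.Bd k (deriv th) A →
    D.Z.CB k (rot (cy β) (fun x => th x.2) v) C := by
  let α := {d : Cz β × (ℝ → ℝ) // Sm (IC I3) d.1 ∧ D.Z.CB k d.1 A ∧ ContDiff ℝ ∞ d.2 ∧
    Neck67.Bd k (deriv d.2) A}
  have o : ∀ᶠ _ : α in ⊤, IsOpen (univ : Set (Y × ℝ)) := Eventually.of_forall fun _ => isOpen_univ
  have h1 : BB D.Z.toPre (⊤ : Filter α) (fun _ => univ) k fun d => d.1.1 :=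
    ⟨A, Eventually.of_forall fun d => ⟨isOpen_univ, Lb.of_CB d.2.1 d.2.2.1⟩⟩
  have h2 := (bb_phase (F := D.F.toPre) (l := (⊤ : Filter α)) (S := fun _ => univ) (k := k)
    (fun d => d.2.2.2.1) ⟨A, Eventually.of_forall fun d => ⟨isOpen_univ, Lb.of_CB
      (sm_snd (Neck67.cd_deriv d.2.2.2.1)) (CB_snd k (Neck67.cd_deriv d.2.2.2.1) d.2.2.2.2)⟩⟩).of_le
    k.le_succ
  have h3 := (Bki64.fx_cy (k := k) hβ o).Φ
  obtain ⟨C, hC⟩ := ((h1.clm fa).clm (i1 _ (cy β).m.V)).add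
    ((((h2.clm (csB (cy β).m.J)).app (h3.add (h1.clm fp))).sub h3).clm (i2 _ _))
  refine ⟨C, fun v th a b c d => Lb.cb ((eventually_top.1 hC ⟨(v, th), a, b, c, d⟩).2.congr
    isOpen_univ fun x _ => ?_)⟩
  rw [rot, ph_cs]; rfl

theorem rot_vb (hβ : D.Adm β) {v : Cz β} {th : ℝ → ℝ} (hv : Vb D β v) (h : ContDiff ℝ ∞ th)
    (h' : Neck67.Sm (deriv th)) : Vb D β (rot (cy β) (fun x => th x.2) v) := by
  obtain ⟨A, s, hA⟩ := hv.cb
  choose A' hA' using h'.bd
  choose C hC using fun k => rot_bd hβ k (max (A k) (A' k))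
  exact ⟨⟨C, sm_rot hβ.adm (sm_snd h) s, fun k => hC k v th s (CB_mono (hA k) (le_max_left _ _)) h
    ((hA' k).mono (le_max_right _ _))⟩, tg_rot hβ.adm hv.tg _⟩

/-- the cut variation and the cut phase -/
theorem exists_cutW (hD : D.OK) (hβ : D.Adm β) (k : ℕ) : ∃ K ≥ 0,
    ∀ r (c : Cfg (Y × ℝ) (Option κ) lam r) u θ T ε p q, 0 ≤ ε → ClsT D c β u θ T k ε → IsOpen T →
      Icc p q ⊆ T → (∀ s ∈ Icc p q, AdmOn c D.B D.G (win Y s 7)) →
      ∃ (v : Cz β) (th : ℝ → ℝ), Vb D β v ∧ D.Z.CB k v (K * ε) ∧ ContDiff ℝ ∞ th ∧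
        Neck67.Sm (deriv th) ∧ Neck67.Bd k (deriv th) (K * ε) ∧ (θ = 0 → th = 0) ∧
        ∀ x : Y × ℝ, x.2 ∈ Icc (p + 1) (q - 1) → ∀ t,
          Ex D.Z c (cy β) (rot (cy β) (fun x => th x.2 + t) v) u t x := by
  obtain ⟨K, hK, H⟩ := lb_dvar (F := D.Z) (cy β)
  have p1 : 0 ≤ 2 ^ k * cS k * cS k := (bd_chi k 0 0).nonneg
  refine ⟨2 ^ k * (2 ^ k * cS k * cS k) * (K + 1), by positivity,
    fun r c u θ T ε p q hε h hT hs ha => ?_⟩
  obtain ⟨th, t1, t2, t3, t4⟩ := exists_th h.sm p q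
  have loc : ∀ x : Y × ℝ, x.2 ∈ Icc p q → ∃ O, IsOpen O ∧ x ∈ O ∧ AdmOn c D.B D.G O ∧
      Iso0 (IC I3) c.m (cy β).m O u := fun x hx =>
    ⟨_, (Bki64.win_op x.2 7).inter h.cl.op, ⟨⟨trivial, by linarith, by linarith⟩, trivial, hs hx⟩,
      (ha _ hx).mono inter_subset_left, h.cl.iso.mono inter_subset_right⟩
  let w := dvar D.Z c (cy β) u fun x => Circle.exp (θ x.2)
  have lb : Lb D.Z.toPre univ k (fun x => chi p q x.2 • w x)
      (2 ^ k * (2 ^ k * cS k * cS k) * (K + 1) * ε) := Bki64.lb_local fun x _ => by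
    by_cases hx : x.2 ∈ T
    · refine ⟨_, _, mk_mem_prod (mem_univ _) hx, EventuallyEq.rfl, (Lb.smul h.cl.op (Lb.of_CB
        (sm_snd (cd_chi p q)) (CB_snd k (cd_chi p q) (bd_chi k p q))) (H _ _ _ _ _ _ _ hε h.cl)).mono
        ?_⟩
      rw [abs_of_nonneg p1, abs_of_nonneg (by positivity), mul_assoc _ (K + 1)]
      gcongr; linarith
    · refine ⟨univ, fun _ => 0, trivial, ?_, (Lb.const isOpen_univ 0).mono (by
        rw [norm_zero]; positivity)⟩
      filter_upwards [(isClosed_Icc.preimage continuous_snd).isOpen_compl.mem_nhds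
        (x := x) fun h => hx (hs h)] with y hy
      rw [chi_off hy, zero_smul]
  have s : Sm (IC I3) fun x => chi p q x.2 • w x := fun x => lb.sm trivial
  have tg : ∀ x, (cy β).m.p1 D.B x (fa (chi p q x.2 • w x)) = fa (chi p q x.2 • w x) ∧
      (cy β).m.pp D.B x (fp (chi p q x.2 • w x)) = fp (chi p q x.2 • w x) := fun x => by
    by_cases hx : x.2 ∈ Icc p q
    · obtain ⟨O, o1, o2, o3, o4⟩ := loc x hx
      have := dvar_tg (G := D.G) (ζ := fun x => Circle.exp (θ x.2)) hD.G.P o4 o1 o3 hβ.adm o2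
      simp only [map_smul]
      exact ⟨congrArg _ this.1, congrArg _ this.2⟩
    · simp [chi_off hx]
  have c1 := Neck67.cd_deriv h.sm
  refine ⟨fun x => chi p q x.2 • w x, th, ⟨Cb_of_hcs s (HasCompactSupport.intro
      (isCompact_univ.prod (isCompact_Icc (a := p) (b := q))) fun x hx => by rw [chi_off fun h => hx ⟨trivial, h⟩, zero_smul]),
      Tg.of (fun x => (tg x).1) fun x => (tg x).2⟩, lb.cb, t1,
    Neck67.Sm.of_cpt (Neck67.cd_deriv t1) (HasCompactSupport.intro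
      (isCompact_Icc (a := p) (b := q)) fun t ht => by simp [t2, chi_off ht]), ?_, t4, fun x hx t => ?_⟩
  · rw [t2]
    refine (Neck67.Bd.mul (cd_chi p q) c1 (bd_chi k p q) (bd_of_iter (A := ε) fun j hj t => by
      rw [← iteratedDeriv_succ']; exact h.bd _ (by omega) (by omega) t)).neg.mono ?_
    rw [mul_assoc _ (K + 1)]
    gcongr; nlinarith
  · obtain ⟨O, o1, o2, o3, o4⟩ := loc x ⟨by linarith [hx.1], by linarith [hx.2]⟩
    have := (ex_dvar (G := D.G) (w := fun x => chi p q x.2 • w x) (t := θ x.2)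
      (ζ := fun x => Circle.exp (θ x.2)) o4 o1 o3 o2 rfl (by rw [chi_on hx, one_smul]; rfl)).rot hβ.adm.ok.Jsq fun x => th x.2 + t
    rwa [t3 _ hx, neg_add_cancel_comm] at this

/-- **DEC-RED** -/
theorem red : RedStmt I3 Y κ lam := by
  intro core fix D β τ ν H γ hγ
  have hD := H.ok
  have hβ := H.adm
  obtain ⟨δ, hδ, core⟩ := core D β τ ν H γ hγ
  refine ⟨δ, hδ, fun k' K k B hB => ?_⟩
  obtain ⟨K₁, p₁, h₁⟩ := cl_of_ex (F := D.Z) (c' := cy β) hβ.adm.ok
  obtain ⟨k₁, η₀, p₀, core⟩ := core (k + 11) (by omega) (B / (K₁ + 1)) (by positivity)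
  obtain ⟨K₂, p₂, h₂⟩ := exists_cutW hD hβ (max k₁ (k' (k + 11)))
  obtain ⟨C, hC⟩ := rot_bd hβ (k' (k + 11)) η₀
  have pε : 0 < η₀ / (K₂ + 1) := by positivity
  have hε : K₂ * (η₀ / (K₂ + 1)) ≤ η₀ := by
    rw [mul_div_assoc', div_le_iff₀ (by positivity)]; nlinarith
  obtain ⟨η₁, p₃, g⟩ : ∃ η > 0, ∀ r (c : Cfg (Y × ℝ) (Option κ) lam r) (S : Set ℝ),
      S.OrdConnected → (∀ s ∈ S, AdmOn c D.B D.G (win Y s 7) ∧ ∃ u ζ, Cn D c β u ζ (win Y s 7) η) →
      ∃ u θ, ClsT D c β u θ (Metric.thickening 1 S) (max k₁ (k' (k + 11))) (η₀ / (K₂ + 1)) ∧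
        (ν = 0 → θ = 0) := by
    by_cases hν : ν = 0
    · obtain ⟨ε, p, f⟩ := fix D β hD hβ H.conn (H.fix hν) (max k₁ (k' (k + 11))) _ pε
      obtain ⟨η, q, g⟩ := Bki64.g1' hD hβ (max k₁ (k' (k + 11))) p
      refine ⟨η, q, fun r c S h1 h2 => ?_⟩
      obtain ⟨u, θ, h⟩ := g r c S h1 h2
      exact (f r c u θ _ h).imp fun u' h' => ⟨0, h', fun _ => rfl⟩
    · obtain ⟨η, q, g⟩ := Bki64.g1' hD hβ (max k₁ (k' (k + 11))) pε
      exact ⟨η, q, fun r c S h1 h2 => (g r c S h1 h2).imp fun u h => h.imp fun θ h =>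
        ⟨h, fun e => (hν e).elim⟩⟩
  obtain ⟨R, hR, R4⟩ : ∃ R : ℝ, K (k + 11) C * exp (-γ * (R - 3)) ≤ η₀ ∧ 4 ≤ R := by
    have : Tendsto (fun R : ℝ => K (k + 11) C * exp (-γ * (R - 3))) atTop (𝓝 (K (k + 11) C * 0)) :=
      (tendsto_exp_atBot.comp ((tendsto_atTop_add_const_right _ (-3) tendsto_id).const_mul_atTop_of_neg
        (neg_neg_of_pos hγ))).const_mul _
    exact ((this.eventually (ge_mem_nhds (by simpa))).and (eventually_ge_atTop 4)).exists
  have pη : 0 < min η₁ (R + 7)⁻¹ := lt_min p₃ (by positivity)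
  have hη : R + 7 ≤ (min η₁ (R + 7)⁻¹)⁻¹ := le_inv_of_le_inv₀ pη (min_le_right _ _)
  refine ⟨_, pη, fun r c S a b hab hA hw => ?_⟩
  generalize min η₁ (R + 7)⁻¹ = η, min_le_left η₁ (R + 7)⁻¹ = hη' at hη pη hw
  have w7 : ∀ s ∈ Icc (a - R) (b + R), s ∈ S ∧ AdmOn c D.B D.G (win Y s 7) ∧
      ∃ u ζ, Cn D c β u ζ (win Y s 7) η₁ := fun s hs => by
    obtain ⟨s', h1, h2⟩ := exists_clamp hab (by linarith) hs
    obtain ⟨h3, h4, u, ζ, h5⟩ := hw s' h1
    have := Bki64.win_sub (Y := Y) (s := s) (s' := s') (L := 7) (L' := η⁻¹) (by linarith)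
    exact ⟨h3 ⟨by linarith [(abs_le.1 h2).1], by linarith [(abs_le.1 h2).2]⟩, h4.mono this, u, ζ,
      h5.mono (Bki64.win_op _ _) this pη hη'⟩
  obtain ⟨u, θ, hu, hν⟩ := g r c _ ordConnected_Icc fun s hs => (w7 s hs).2
  have sub := Metric.self_subset_thickening one_pos (Icc (a - R) (b + R))
  obtain ⟨v, th, v1, v2, t1, t2, t3, t4, ex⟩ := h₂ r c u θ _ _ _ _ pε.le hu
    Metric.isOpen_thickening sub fun s hs => (w7 s hs).2.1
  have v3 : ∀ j ≤ max k₁ (k' (k + 11)), D.Z.CB j v η₀ := fun j hj w hw x => (v2 w (hw.trans hj) x).trans hε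
  have iso : ∀ t L, a - R ≤ t - L → t + L ≤ b + R → Iso0 (IC I3) c.m (cy β).m (win Y t L) u :=
    fun t L h1 h2 => hu.cl.iso.mono (prod_mono_right fun s hs => sub ⟨h1.trans hs.1.le,
      hs.2.le.trans h2⟩)
  obtain ⟨u', h, θ₀, k1, k2, k3⟩ := core v th (a - 2) (b + 2) ⟨by linarith, v1,
    v3 _ (le_max_left _ _), t1, t2, (t3.of_le (le_max_left _ _)).mono hε, fun t ht => by
      have m0 : 0 ≤ min (t - (a - 2)) (b + 2 - t) := le_min (by linarith [ht.1]) (by linarith [ht.2])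
      have m1 := min_le_left (t - (a - 2)) (b + 2 - t)
      have m2 := min_le_right (t - (a - 2)) (b + 2 - t)
      generalize min (t - (a - 2)) (b + 2 - t) = m at m0 m1 m2
      refine (hA (k + 11) C _ u t (R - 3 + m) (by linarith)
        (fun s hs => (w7 s ⟨by linarith [hs.1], by linarith [hs.2]⟩).1) (rot_vb hβ v1 t1 t2)
        (hC v th v1.cb.choose_spec.1 (v3 _ (le_max_right _ _)) t1
          ((t3.of_le (le_max_right _ _)).mono hε))
        (cl_of_ex0 (Bki64.win_op _ _) (iso _ _ (by linarith) (by linarith)) fun x hx => by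
          simpa only [add_zero] using
            ex x ⟨by linarith [hx.2.1], by linarith [hx.2.2]⟩ 0)).mono le_rfl ?_
      rw [mul_add, exp_add, ← mul_assoc]
      gcongr⟩ fun e => t4 (hν e)
  refine ⟨fun x => h x ∘L u x, Circle.exp θ₀, fun s hs => ?_⟩
  have sb : win Y s 1 ⊆ univ ×ˢ Ioo (a - 2 + 1) (b + 2 - 1) :=
    prod_mono_right (Ioo_subset_Ioo (by linarith [hs.1]) (by linarith [hs.2]))
  have i1 := iso s 1 (by linarith [hs.1]) (by linarith [hs.2])
  refine (h₁ r c _ u' θ₀ _ k (B / (K₁ + 1) * exp (-δ * min (s - a) (b - s))) (by positivity)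
    (Bki64.win_op _ _) (i1.trans (k2.iso.mono sb)) k1.tg
    (fun x hx => (ex x ⟨by linarith [hx.2.1, hs.1], by linarith [hx.2.2, hs.2]⟩ θ₀).comp
      (i1.su x hx) k2 (sb hx))
    (Lb.of_Dw (fun x _ => k1.fl.sm x) fun w hw x hx => (k3 x.2
      ⟨by linarith [hx.2.1, hs.1], by linarith [hx.2.2, hs.2]⟩ w (by omega) x.1).trans ?_)).mono
    (Bki64.win_op _ _) Subset.rfl le_rfl ?_
  · refine mul_le_mul_of_nonneg_left (exp_le_exp.2 ?_) (by positivity)
    refine mul_le_mul_of_nonpos_left (min_le_min ?_ ?_) (by linarith)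
    · linarith [hx.2.1]
    · linarith [hx.2.2]
  · rw [← mul_assoc]
    gcongr
    rw [mul_div_assoc', div_le_iff₀ (by positivity)]; nlinarith

end Crest.Agent.X212.Pj41
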