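import Crest.Agent.X212.Pj41.Typ
import Crest.Agent.X212.Pj41.Red
import Crest.Agent.X212.Eqv71.PE
import Crest.Agent.X212.Eqv71.Gau

/-!
# X212 / LIN-LIM (helper41): a parallel line of a trajectory gives a parallel line of its limits
-/

set_option autoImplicit false
set_option linter.unusedSectionVars false
noncomputable section
open scoped Manifold ContDiff Topology InnerProductSpace
open Set Function Filter

namespace Crest.Agent.X212.Pj41
open An Tmp64 Cyf70 Nd18 Bki64 Sob92 Cmp73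
open Eqv71 (cj cj_cj inner_cj Itw sa_cj sa_trn sa_comp dv_ccomp trn_trn trn_comp trn_of_skw)

section gen
variable {E : Type} [NormedAddCommGroup E] [NormedSpace ℝ E] [FiniteDimensional ℝ E]
  [MeasurableSpace E] [BorelSpace E]
  {HM : Type} [TopologicalSpace HM] {I : ModelWithCorners ℝ E HM} [I.Boundaryless]
  {M : Type} [TopologicalSpace M] [ChartedSpace HM M] [IsManifold I ∞ M]
  [MeasurableSpace M] [T2Space M] [BorelSpace M] [SecondCountableTopology M] {ι : Type} [Fintype ι] {lam : Type} [Fintype lam] {r r' : ℕ}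
  {B : Base M ι lam} {G : Geo I M ι lam} {m m' : Md M ι lam} {O : Set M} {x : M}

/-- the projector onto a line in `g` -/
def LinAt (m : Md M ι lam) (x : M) (π : CL m.A m.A) : Prop :=
  Sym π ∧ π * π = π ∧ m.pg x * π = π ∧ LinearMap.trace ℝ _ (π : m.A →ₗ[ℝ] m.A) = 1

theorem LinAt.norm_le {π : CL m.A m.A} (h : LinAt m x π) : ‖π‖ ≤ 1 := by
  refine ContinuousLinearMap.opNorm_le_bound _ zero_le_one fun v => ?_
  have h1 : ‖π v‖ * ‖π v‖ ≤ ‖π v‖ * ‖v‖ := by
    rw [← real_inner_self_eq_norm_mul_norm, ← h.1, show π (π v) = π v from congrArg (· v) h.2.1]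
    exact real_inner_le_norm _ _
  rw [one_mul]
  rcases (norm_nonneg (π v)).eq_or_lt with h0 | h0
  · rw [← h0]; exact norm_nonneg _
  · exact le_of_mul_le_mul_left h1 h0

theorem closed_linAt (m : Md M ι lam) (x : M) : IsClosed {π | LinAt m x π} := by
  have t : Continuous fun π : CL m.A m.A => LinearMap.trace ℝ _ (π : m.A →ₗ[ℝ] m.A) :=
    ((LinearMap.trace ℝ m.A).comp (ContinuousLinearMap.coeLM ℝ)).continuous_of_finiteDimensional
  refine IsClosed.inter (s₁ := {π : CL m.A m.A | Sym π}) ?_ ((isClosed_eq (by fun_prop)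
    (by fun_prop)).inter ((isClosed_eq (by fun_prop) (by fun_prop)).inter
      (isClosed_eq t continuous_const)))
  simp only [An.Sym, ofPred_forall]
  exact isClosed_iInter fun v => isClosed_iInter fun w => isClosed_eq (by fun_prop) (by fun_prop)

theorem cj_mem {u : M → CL m.V m'.V} (h : Iso0 I m m' O u) (hm : OKOn I B m O)
    (hm' : OKOn I B m' O) (hx : x ∈ O) {ξ : m.A} (hξ : ξ ∈ m.gS x) : cj (u x) ξ ∈ m'.gS x := by
  have k := h.symm hm hm'
  simp only [ad_trn] at k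
  have cm : ∀ {S : En (Fin m.N)} {S' : En (Fin m'.N)}, S' ∘L u x = u x ∘L S →
      S * opL ξ = opL ξ * S → S ∘L trn (u x) = trn (u x) ∘L S' →
      S' * (u x ∘L opL ξ ∘L trn (u x)) = (u x ∘L opL ξ ∘L trn (u x)) * S' := fun a b c => by
    ext1 v
    have a' := fun w => congrArg (· w) a
    have b' := fun w => congrArg (· w) b
    have c' := fun w => congrArg (· w) c
    simp only [mul_apply_eq_comp, ContinuousLinearMap.comp_apply] at a' b' c' ⊢
    rw [a', b', c']
  rw [Eqv71.cj_apply]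
  refine Wz78.mem_g (Eqv71.skw_of_trn ?_) ?_ (cm (h.J x hx) hξ.2.2.1 (k.J x hx))
    (fun a => cm (h.ρ x hx a) (hξ.2.2.2.1 a) (k.ρ x hx a))
    fun s => cm (h.j x hx s) (hξ.2.2.2.2 s) (k.j x hx s)
  · rw [trn_comp, trn_comp, trn_trn, trn_of_skw hξ.1, ContinuousLinearMap.comp_neg,
      ContinuousLinearMap.neg_comp, ContinuousLinearMap.comp_assoc]
  · exact (ContinuousLinearMap.comp_assoc _ _ _).symm.trans (by rw [(h.iso x hx).left])

theorem LinAt.push {u : M → CL m.V m'.V} (h : Iso0 I m m' O u) (hm : OKOn I B m O)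
    (hm' : OKOn I B m' O) (hx : x ∈ O) {π : CL m.A m.A} (H : LinAt m x π) :
    LinAt m' x (cj (u x) ∘L π ∘L cj (trn (u x))) := by
  have mem : ∀ v, π v ∈ m.gS x := fun v =>
    (show m.pg x (π v) = π v from congrArg (· v) H.2.2.1) ▸ Wz78.pg_mem x _
  have key : ∀ v, cj (trn (u x)) (cj (u x) (π v)) = π v := fun v => by
    rw [cj_cj, ← ad_trn, (h.iso x hx).src, Eqv71.ME.cj_p (mem v)]
  refine ⟨fun v w => ?_, ?_, ?_, ?_⟩
  · simp only [ContinuousLinearMap.comp_apply]
    rw [inner_cj, H.1, inner_cj, trn_trn]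
  · ext1 v
    simp only [mul_apply_eq_comp, ContinuousLinearMap.comp_apply, key,
      show ∀ v, π (π v) = π v from fun v => congrArg (· v) H.2.1]
  · ext1 v
    exact Wz78.pg_of_mem (cj_mem h hm hm' hx (mem _))
  · rw [← H.2.2.2]
    refine (LinearMap.trace_comp_comm' ((cj (u x) ∘L π : CL _ _) : m.A →ₗ[ℝ] m'.A)
      (cj (trn (u x)) : m'.A →ₗ[ℝ] m.A)).symm.trans ?_
    congr 1
    exact LinearMap.ext key

variable {c : Cfg M ι lam r} {c' : Cfg M ι lam r'} {u : M → CL c.m.V c'.m.V}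

/-- the transport of a parallel endomorphism of `g` -/
theorem D_push (hG : G.F.P = B.P) (h : Iso0 I c.m c'.m O u) (hO : IsOpen O) (hc : AdmOn c B G O)
    (hc' : AdmOn c' B G O) (hx : x ∈ O) {π : M → CL c.m.A c.m.A} (s : FSm I π x)
    (p : ∀ a, G.F.D a π x + (c.m.adW c.W a x * π x - π x * c.m.adW c.W a x) = 0) (a : ι) :
    G.F.D a (fun y => cj (u y) ∘L π y ∘L cj (trn (u y))) x =
      Wz78.ad _ (Wz78.adcL (dA G.F c c' u a x)) (cj (u x) ∘L π x ∘L cj (trn (u x))) -
      Wz78.ad _ (Wz78.adcL (c'.W a x)) (cj (u x) ∘L π x ∘L cj (trn (u x))) := by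
  have su := h.su x hx
  have k1 : ∀ a, Skw (c.W a x) := fun a => hc.conn.sk a x hx
  have k2 : ∀ a, Skw (c'.W a x - dA G.F c c' u a x) := fun a v w => by
    have := ((dA_mem hG h hO hc hc' hx).1 a).1 v w
    rw [Wz78.opL_hsL] at this
    simp only [sub_apply, inner_sub_left, inner_sub_right, this, hc'.conn.sk a x hx v w]
    ring
  have i : Itw I G.F.e c.W (fun a y => c'.W a y - dA G.F c c' u a y) u x := fun a => by
    rw [ContinuousLinearMap.sub_comp, dA_u h hO hc hx, cov, Pre.D_def]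
    abel
  have i1 := eq_sub_of_add_eq (i.cj su k1 k2 a)
  have i2 := eq_sub_of_add_eq ((i.trn su k1 k2).cj (sa_trn su) k2 k1 a)
  have p' := eq_neg_of_add_eq_zero_left (p a)
  rw [Pre.D_def] at p' ⊢
  rw [dv_ccomp (sa_cj su) (sa_comp s (sa_cj (sa_trn su))), dv_ccomp s (sa_cj (sa_trn su)), i1, i2,
    p']
  ext1 v
  simp only [← Wz78.adcL_apply, Md.adW, Wz78.ad_apply, add_apply, sub_apply, neg_apply,
    mul_apply_eq_comp, ContinuousLinearMap.comp_apply, map_sub, map_add, map_neg]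
  abel

end gen

variable {E3 : Type} [NormedAddCommGroup E3] [NormedSpace ℝ E3] [FiniteDimensional ℝ E3]
  [MeasurableSpace E3] [BorelSpace E3]
  {H3 : Type} [TopologicalSpace H3] {I3 : ModelWithCorners ℝ E3 H3} [I3.Boundaryless]
  {Y : Type} [TopologicalSpace Y] [ChartedSpace H3 Y] [IsManifold I3 ∞ Y] [T2Space Y]
  [MeasurableSpace Y] [BorelSpace Y] [SecondCountableTopology Y] [CompactSpace Y]
  {κ : Type} [Fintype κ] {lam : Type} [Fintype lam] {D : YD I3 Y κ lam} {β β' : YC Y κ lam}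
  {c : Cfg (Y × ℝ) (Option κ) lam 0} {ζ ζ' : Circle} {l : Filter ℝ}

/-- **bounded almost parallel sections on windows converge to a `t`-invariant parallel section** -/
theorem par_lim {α N : Type} [NormedAddCommGroup N] [NormedSpace ℝ N] [FiniteDimensional ℝ N]
    {F : Pre I3 Y κ} {𝒰 : Ultrafilter α} {s : α → ℝ} {L C : ℝ} (hL : 0 < L) {T : α → Y × ℝ → N}
    {A : Option κ → Y → CL N N} {Z : Option κ → α → Y × ℝ → CL N N} (hA : ∀ a, Sm I3 (A a))
    (h0 : ∀ y, A none y = 0) (hZ : ∀ k a, ZZ (cylP F) 𝒰 (fun n => win Y (s n) L) k (Z a))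
    (hT : ∀ᶠ n in 𝒰, ∀ x ∈ win Y (s n) L, (FSm (IC I3) (T n) x ∧ ‖T n x‖ ≤ C) ∧
      ∀ a, (cylP F).D a (T n) x = Z a n x (T n x) - A a x.1 (T n x)) :
    ∃ g : Y → N, Sm I3 g ∧ (∀ a x, (cylP F).D a (fun x => g x.1) x + A a x.1 (g x.1) = 0) ∧
      ∀ y, Tendsto (fun n => T n (y, s n)) 𝒰 (𝓝 (g y)) := by
  have ho := win_op (Y := Y) 0 L
  have op := (hZ 0 none).op
  have b := fun k => (BB.boot (k := k) (BB.zero_of (F := cylP F) op (hT.mono fun n h x hx =>
    (h x hx).1)) fun j _ hb a => (((hZ j a).bb.app hb).sub ((BB.fst op j (hA a)).app hb)).congr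
      (hT.mono fun n h x hx => (h x hx).2 a)).of_le k.le_succ
  have tr : ∀ n, sq (· + s n) ⁻¹' win Y (s n) L = win Y 0 L := fun n => win_tr (zero_add _).symm L
  have hb := fun k => (b k).tr s
  have hz := fun k a => ((hZ k a).app (b k)).tr s
  simp only [tr] at hb hz
  obtain ⟨g, hg⟩ := MBOn.exists_cv (Ω := win Y 0 L) fun k x hx => (hb k).mb hx
  have sg : ∀ x ∈ win Y 0 L, FSm (IC I3) g x := fun x hx => hg.smoothAt ho hx
  have hp : ∀ a, ∀ x ∈ win Y 0 L, (cylP F).D a g x + A a x.1 (g x) = 0 := fun a x hx =>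
    ((hg.D ho (cylP F) a).add ((Cv.fixed' (sm_fst (hA a))).app hg)).eq_of
      (ZZ.cv fun k => hz k a) hx (hT.mono fun n h => by
        have hx' : sq (· + s n) x ∈ win Y (s n) L := (tr n).ge hx
        have e : (cylP F).D a (fun x => T n (sq (· + s n) x)) x =
            (cylP F).D a (T n) (sq (· + s n) x) :=
          (D_sq F (sm_add _) (h _ hx').1.1 a).trans (by cases a <;> simp [sw])
        rw [e, (h _ hx').2 a]
        exact sub_add_cancel _ _)
  have m0 : ∀ y : Y, (y, (0 : ℝ)) ∈ win Y 0 L := fun y => ⟨trivial, by simpa, by simpa⟩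
  have ti : ∀ x ∈ win Y 0 L, g x = g (x.1, 0) := fun x hx => by
    refine isOpen_Ioo.is_const_of_deriv_eq_zero (f := fun s => g (x.1, s)) isPreconnected_Ioo
      (fun s hs => (diff_slice_snd (sg (x.1, s) ⟨trivial, hs⟩).md).differentiableWithinAt)
      (fun s hs => ?_) hx.2 (m0 x.1).2
    have := hp none (x.1, s) ⟨trivial, hs⟩
    rw [h0, zero_apply, add_zero] at this
    exact (D_none_at F (sg (x.1, s) ⟨trivial, hs⟩).md).symm.trans this
  have sm : Sm I3 fun y => g (y, 0) := fun y => sm_slice (sg _ (m0 y))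
  refine ⟨fun y => g (y, 0), sm, fun a x => ?_, fun y => by
    simpa only [Tmp64.sq, zero_add] using hg.pt _ (m0 y)⟩
  have e : (cylP F).D a (fun x : Y × ℝ => g (x.1, 0)) x =
      (cylP F).D a (fun x => g (x.1, 0)) (x.1, 0) := by
    cases a with
    | none =>
      have := D_none_fst F sm
      exact (congrFun this x).trans (congrFun this (x.1, 0)).symm
    | some a =>
      have := D_some_fst F sm a
      exact (congrFun this x).trans (congrFun this (x.1, 0)).symm
  rw [e, ← hp a _ (m0 x.1), Pre.D_def, Pre.D_def, dv_congr (v := g)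
    (Eventually.mono (ho.mem_nhds (m0 x.1)) fun x hx => (ti x hx).symm)]

/-- **The limit of a configuration with a parallel line has a parallel line.** -/
theorem lin_lim (hβ : D.Adm β) (A : c.Adm D.B D.G) [l.NeBot]
    (hl : ∀ S ∈ l, ∀ᶠ s in l, Ioo (s - 2) (s + 2) ⊆ S) (h : D.nk.Lim c β ζ l)
    (hL : Nd18.Lin D.Z c univ) : D.Ln β := by
  obtain ⟨u, hu⟩ : ∃ u : Y × ℝ → CL c.m.V (cy β).m.V, ∀ k, ∀ η > 0, ∃ S ∈ l, S ⊆ D.nk.J ∧
    D.Cls c β u ζ S k η := h
  have A' := admOn_univ.2 A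
  have B' := admOn_univ.2 hβ.adm
  let 𝒰 := Ultrafilter.of l
  have H : ∀ k, CZ D.Z 𝒰 (fun s => win Y s 2) k (fun _ => c) (cy β) (fun _ => u) fun _ _ => ζ :=
    fun k ε hε => by
      obtain ⟨S, h1, -, h2⟩ := hu k ε hε
      exact ((hl S h1).filter_mono (Ultrafilter.of_le l)).mono fun s hs =>
        (cl_of_cls hβ (A'.mono (subset_univ _)) h2).mono (win_op _ _) (prod_mono_right hs) le_rfl
          le_rfl
  obtain ⟨π, s, p⟩ := hL
  have s' : ∀ x, FSm (IC I3) π x := fun x => (s x trivial).contMDiffAt univ_mem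
  have la : ∀ᶠ n in (𝒰 : Filter ℝ), ∀ x ∈ win Y n 2,
      LinAt (cy β).m x (cj (u x) ∘L π x ∘L cj (trn (u x))) := (H 0).iso.mono fun n i x hx =>
    LinAt.push i (A'.mono (subset_univ _)).ok (B'.mono (subset_univ _)).ok hx
      ⟨(p x trivial).1, (p x trivial).2.1, (p x trivial).2.2.1, (p x trivial).2.2.2.1⟩
  obtain ⟨g, sg, pg, tg⟩ := par_lim (F := D.F.toPre) (𝒰 := 𝒰) (s := id) (C := 1) two_pos
    (N := CL (cy β).m.A (cy β).m.A) (T := fun _ x => cj (u x) ∘L π x ∘L cj (trn (u x)))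
    (A := fun a y => Wz78.ad _ (Wz78.adcL ((cy β).W a (y, 0))))
    (Z := fun a _ x => Wz78.ad _ (Wz78.adcL (dA D.G.F c (cy β) u a x)))
    (fun a y => Wz78.SA.clm _ (Wz78.SA.clm _ (sm_slice (t := 0) (hβ.adm.conn.cc.sm a _))))
    (fun y => by rw [show (cy β).W none (y, 0) = 0 from hβ.tmp y, map_zero, map_zero])
    (fun k a => (((H k).A a).clm _).clm _)
    (((H 0).iso.and la).mono fun n h x hx => ⟨⟨sa_comp (sa_cj (h.1.su x hx)) (sa_comp (s' x)
      (sa_cj (sa_trn (h.1.su x hx)))), (h.2 x hx).norm_le⟩, fun a => by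
        have := D_push (G := D.G) (c' := cy β) rfl h.1 (win_op _ _) (A'.mono (subset_univ _))
          (B'.mono (subset_univ _)) hx (s' x) (p x trivial).2.2.2.2 a
        rw [show (cy β).W a x = (cy β).W a (x.1, 0) from rfl] at this
        exact this⟩)
  refine ⟨fun x => g x.1, fun x _ => (sm_fst sg x).contMDiffWithinAt, fun x _ => ?_⟩
  have := (closed_linAt (cy β).m x).mem_of_tendsto (tg x.1) (la.mono fun n h =>
    h (x.1, n) ⟨trivial, by linarith, by linarith⟩)
  exact ⟨this.1, this.2.1, this.2.2.1, this.2.2.2, fun a => pg a x⟩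

/-- **LIN-LIM** -/
theorem traj_lin {N : ND Y lam} {q : YW I3 Y →₀ ℝ} (hβ : D.Adm β) (hβ' : D.Adm β')
    (h : N.Traj D q c β β' ζ ζ') (hL : Nd18.Lin D.Z c univ) : D.Ln β ∧ D.Ln β' :=
  ⟨lin_lim hβ h.sol.toAdm ev_bot h.bot hL, lin_lim hβ' h.sol.toAdm ev_top h.top hL⟩

end Crest.Agent.X212.Pj41
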