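import Crest.Agent.X212.Pj41.Lit

/-!
# X212 / MDG (helper41): literally related backgrounds, extension of a configuration
-/

set_option autoImplicit false
set_option linter.unusedSectionVars false

open Set Function Filter Topology
open scoped ContDiff Manifold InnerProductSpace

namespace Crest.Agent.X212.Pj41

open An Sob92
open Tmp64 (AdmOn Eq0 admOn_univ)

noncomputable section

variable {E : Type} [NormedAddCommGroup E] [NormedSpace ℝ E] [FiniteDimensional ℝ E]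
  [MeasurableSpace E] [BorelSpace E]
  {HM : Type} [TopologicalSpace HM] {I : ModelWithCorners ℝ E HM} [I.Boundaryless]
  {M : Type} [TopologicalSpace M] [ChartedSpace HM M] [IsManifold I ∞ M]
  [MeasurableSpace M] {ι : Type} [Fintype ι] {lam : Type} [Fintype lam]
  {E' : Type} [NormedAddCommGroup E'] [NormedSpace ℝ E'] [FiniteDimensional ℝ E']
  [MeasurableSpace E'] [BorelSpace E']
  {HM' : Type} [TopologicalSpace HM'] {I' : ModelWithCorners ℝ E' HM'} [I'.Boundaryless]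
  {M' : Type} [TopologicalSpace M'] [ChartedSpace HM' M'] [IsManifold I' ∞ M']
  [MeasurableSpace M']
  {B : Base M ι lam} {G : Geo I M ι lam} {B' : Base M' ι lam} {G' : Geo I' M' ι lam}
  {ψ : M → M'} {O O₁ : Set M} {r r' : ℕ}
  {V : Type} [NormedAddCommGroup V] [NormedSpace ℝ V]

theorem fsm_ld {x : M} (h : IsLocalDiffeomorphAt I I' ∞ ψ x) {u : M' → V}
    (hu : FSm I (fun y => u (ψ y)) x) : FSm I' u (ψ x) := by
  have h3 : FSm I (fun y => u (ψ y)) (h.localInverse (ψ x)) := by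
    rwa [h.localInverse_left_inv h.localInverse_mem_target]
  refine (ContMDiffAt.comp (ψ x) h3 h.localInverse_contMDiffAt).congr_of_eventuallyEq ?_
  filter_upwards [h.localInverse_eventuallyEq_right] with y hy
  simp only [comp_apply] at hy ⊢
  rw [hy]; rfl

theorem FRel.isOpen_image {F : Fr I M ι} {F' : Fr I' M' ι} (h : FRel F F' ψ O) :
    IsOpen (ψ '' O) := isOpen_iff_mem_nhds.2 (forall_mem_image.2 fun x hx => by
  have k := h.ld x hx
  have h1 : k.localInverse ⁻¹' O ∈ 𝓝 (ψ x) := k.localInverse_contMDiffAt.continuousAt.preimage_mem_nhds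
    (by rw [k.localInverse_left_inv k.localInverse_mem_target]; exact h.op.mem_nhds hx)
  filter_upwards [h1, k.localInverse_eventuallyEq_right] with y h2 h3 using ⟨_, h2, h3⟩)

variable (B G B' G' ψ O) in
/-- backgrounds which are literally related by the local diffeomorphism `ψ` over the open `O` -/
structure GRel : Prop where
  fr : FRel G.F G'.F ψ O
  P : ∀ a b, ∀ x ∈ O, B.P a b x = B'.P a b (ψ x)
  o : ∀ a b c d, ∀ x ∈ O, B.o a b c d x = B'.o a b c d (ψ x)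
  l : ∀ x ∈ O, B.l x = B'.l (ψ x)
  il : B.il = B'.il
  a : ∀ a, ∀ x ∈ O, G.a a x = G'.a a (ψ x)

theorem FRel.gRel (h : FRel G.F G'.F ψ O) (hB : B = cmB ψ B')
    (ha : ∀ a, ∀ x ∈ O, G.a a x = G'.a a (ψ x)) : GRel B G B' G' ψ O :=
  hB ▸ ⟨h, fun _ _ _ _ => rfl, fun _ _ _ _ _ _ => rfl, fun _ _ => rfl, rfl, ha⟩

namespace GRel
variable (h : GRel B G B' G' ψ O)
include h

theorem mono (h1 : IsOpen O₁) (hs : O₁ ⊆ O) : GRel B G B' G' ψ O₁ :=
  ⟨h.fr.mono h1 hs, fun a b x hx => h.P a b x (hs hx), fun a b c d x hx => h.o a b c d x (hs hx),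
    fun x hx => h.l x (hs hx), h.il, fun a x hx => h.a a x (hs hx)⟩

theorem pp (m : Md M' ι lam) {x : M} (hx : x ∈ O) : (cmM ψ m).pp B x = m.pp B' (ψ x) := by
  simp only [Md.pp, Md.om, h.o _ _ _ _ x hx]

theorem okOn_iff {m : Md M' ι lam} : OKOn I B (cmM ψ m) O ↔ OKOn I' B' m (ψ '' O) := by
  have s : ∀ {V : Type} [NormedAddCommGroup V] [NormedSpace ℝ V] {u : M' → V}, ∀ x ∈ O,
      FSm I (fun y => u (ψ y)) x ↔ FSm I' u (ψ x) := fun x hx =>
    ⟨fsm_ld (h.fr.ld x hx), h.fr.sm hx⟩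
  refine ⟨fun k => ⟨k.Jsq, k.Jsk, forall_mem_image.2 fun x hx => (s x hx).1 (k.sp x hx),
    fun a => forall_mem_image.2 fun x hx => (s x hx).1 (k.sρ a x hx),
    forall_mem_image.2 fun x hx => (s x hx).1 (k.sj x hx), forall_mem_image.2 k.psym,
    forall_mem_image.2 k.pidem, forall_mem_image.2 k.prk, forall_mem_image.2 k.Jp,
    forall_mem_image.2 fun x hx => by simpa only [h.P _ _ x hx] using k.cl x hx,
    fun a => forall_mem_image.2 (k.ρsk a), fun a => forall_mem_image.2 (k.Jρ a),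
    forall_mem_image.2 k.jsym, forall_mem_image.2 k.jJ, forall_mem_image.2 (h.il ▸ k.jil),
    forall_mem_image.2 fun x hx => h.l x hx ▸ k.jl x hx,
    forall_mem_image.2 fun x hx => h.l x hx ▸ k.jsq x hx, forall_mem_image.2 k.pj,
    fun a => forall_mem_image.2 (k.jρ a)⟩, fun k' => ?_⟩
  have k := cmM_okOn (fun x hx => (h.fr.ld x hx).contMDiffAt) (mapsTo_image ψ O) k'
  exact ⟨k.Jsq, k.Jsk, k.sp, k.sρ, k.sj, k.psym, k.pidem, k.prk, k.Jp,
    fun x hx => by simp only [h.P _ _ x hx]; exact k.cl x hx, k.ρsk, k.Jρ, k.jsym, k.jJ,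
    h.il ▸ k.jil, fun x hx => h.l x hx ▸ k.jl x hx, fun x hx => h.l x hx ▸ k.jsq x hx, k.pj, k.jρ⟩

theorem connOn_iff {m : Md M' ι lam} {W : m.Cn} :
    ConnOn B G (cmM ψ m) (fun a x => W a (ψ x)) O ↔ ConnOn B' G' m W (ψ '' O) := by
  have d : ∀ {V : Type} [NormedAddCommGroup V] [NormedSpace ℝ V] (u : M' → V) (a), ∀ x ∈ O,
      G.F.D a (fun y => u (ψ y)) x = G'.F.D a u (ψ x) := fun u a x hx =>
    h.fr.D hx a (.of_forall fun _ => rfl)
  refine ⟨fun k => ⟨fun a => forall_mem_image.2 fun x hx => fsm_ld (h.fr.ld x hx) (k.sm a x hx),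
    fun a => forall_mem_image.2 fun x hx => by simpa only [h.P _ _ x hx] using k.proj a x hx,
    fun a => forall_mem_image.2 fun x hx => by simpa only [d _ _ x hx] using k.par a x hx,
    fun a b => forall_mem_image.2 fun x hx => by
      simpa only [d _ _ x hx, h.fr.Gam hx] using k.comp a b x hx,
    fun a => forall_mem_image.2 (k.sk a), fun a => forall_mem_image.2 (k.J a),
    fun a => forall_mem_image.2 fun x hx s => by
      simpa only [d _ _ x hx, h.a a x hx] using k.j a x hx s⟩, fun k' => ?_⟩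
  have k := h.fr.connOn h.a (mapsTo_image ψ O) k'
  exact ⟨k.sm, fun a x hx => by simp only [h.P _ _ x hx]; exact k.proj a x hx, k.par, k.comp, k.sk,
    k.J, k.j⟩

/-- **admissibility is invariant** -/
theorem admOn_iff {c : Cfg M' ι lam r} : AdmOn (cmC ψ c) B G O ↔ AdmOn c B' G' (ψ '' O) :=
  ⟨fun k => ⟨h.okOn_iff.1 k.ok, h.connOn_iff.1 k.conn,
    forall_mem_image.2 fun x hx => fsm_ld (h.fr.ld x hx) (k.sm x hx),
    forall_mem_image.2 fun x hx => h.pp c.m hx ▸ k.pos x hx, k.z⟩,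
   fun k => ⟨h.okOn_iff.2 k.ok, h.connOn_iff.2 k.conn, fun x hx => h.fr.sm hx (k.sm _ ⟨x, hx, rfl⟩),
    fun x hx => (h.pp c.m hx).symm ▸ k.pos _ ⟨x, hx, rfl⟩, k.z⟩⟩

end GRel

section frel
variable {F : Fr I M ι} {F' : Fr I' M' ι} (h : FRel F F' ψ O) {m m' : Md M' ι lam}
  {u : M' → CL m.V m'.V}
include h

theorem FRel.iso0_push (k : Iso0 I (cmM ψ m) (cmM ψ m') O fun x => u (ψ x)) :
    Iso0 I' m m' (ψ '' O) u :=
  ⟨forall_mem_image.2 fun x hx => fsm_ld (h.ld x hx) (k.su x hx), forall_mem_image.2 k.iso,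
    forall_mem_image.2 k.J, forall_mem_image.2 k.ρ, forall_mem_image.2 k.j⟩

theorem FRel.par0_push {W : m.Cn} {W' : m'.Cn} (k : Par0 F (m := cmM ψ m) (m' := cmM ψ m')
    (fun a x => W a (ψ x)) (fun a x => W' a (ψ x)) O fun x => u (ψ x)) :
    Par0 F' W W' (ψ '' O) u := forall_mem_image.2 fun x hx a => by
  rw [← h.D hx a (u := fun x => u (ψ x)) (.of_forall fun _ => rfl)]; exact k x hx a

end frel

/-! ### bounds -/

/-- all data of a configuration have the bounds `C` -/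
structure CBc (F : Pre I M ι) (c : Cfg M ι lam r) (C : ℕ → ℝ) : Prop where
  p : F.CBs c.m.p C
  ρ : ∀ a, F.CBs (c.m.ρ a) C
  j : F.CBs c.m.j C
  W : ∀ a, F.CBs (c.W a) C
  Φ : F.CBs c.Φ C

/-- `f` is near `x` the transport of a function with the bounds `C` -/
def BAt (F : Pre I M ι) (f : M → V) (C : ℕ → ℝ) (x : M) : Prop :=
  ∀ k, ∀ w : List ι, w.length ≤ k → ‖F.Dw w f x‖ ≤ C k

theorem FRel.bAt {F : Fr I M ι} {F' : Fr I' M' ι} (h : FRel F F' ψ O) {x : M} (hx : x ∈ O)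
    {f : M' → V} {g : M → V} (e : ∀ᶠ y in 𝓝 x, g y = f (ψ y)) {C : ℕ → ℝ} (hg : F.CBs g C) :
    BAt F'.toPre f C (ψ x) := fun k w hw => h.Dw hx w e ▸ hg.2 k w hw x

theorem cbs_of_bAt {F : Pre I M ι} {f : M → V} {C : ℕ → ℝ} (hf : Sm I f) (h : ∀ x, BAt F f C x) :
    F.CBs f C := ⟨hf, fun k w hw x => h x k w hw⟩

theorem CBs_mono {F : Pre I M ι} {f : M → V} {C C' : ℕ → ℝ} (h : F.CBs f C) (e : ∀ k, C k ≤ C' k) :
    F.CBs f C' := ⟨h.1, fun k => CB_mono (h.2 k) (e k)⟩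

theorem CBc.mono {F : Pre I M ι} {c : Cfg M ι lam r} {C C' : ℕ → ℝ} (h : CBc F c C)
    (e : ∀ k, C k ≤ C' k) : CBc F c C' :=
  ⟨CBs_mono h.p e, fun a => CBs_mono (h.ρ a) e, CBs_mono h.j e, fun a => CBs_mono (h.W a) e,
    CBs_mono h.Φ e⟩

theorem exists_cbc {F : Pre I M ι} {c : Cfg M ι lam r} : (∃ C, CBc F c C) ↔ F.Cb c.m.p ∧
    (∀ a, F.Cb (c.m.ρ a)) ∧ F.Cb c.m.j ∧ (∀ a, F.Cb (c.W a)) ∧ F.Cb c.Φ := by
  refine ⟨fun ⟨C, h⟩ => ⟨⟨C, h.p⟩, fun a => ⟨C, h.ρ a⟩, ⟨C, h.j⟩, fun a => ⟨C, h.W a⟩, C, h.Φ⟩,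
    fun ⟨⟨C1, h1⟩, h2, ⟨C3, h3⟩, h4, C5, h5⟩ => ?_⟩
  choose C2 h2 using h2
  choose C4 h4 using h4
  choose A2 k2 using fun k => (finite_range fun a => C2 a k).bddAbove
  choose A4 k4 using fun k => (finite_range fun a => C4 a k).bddAbove
  exact ⟨fun k => max (max (C1 k) (A2 k)) (max (C3 k) (max (A4 k) (C5 k))),
    CBs_mono h1 fun k => by simp,
    fun a => CBs_mono (h2 a) fun k => (k2 k ⟨a, rfl⟩).trans (by simp), CBs_mono h3 fun k => by simp,
    fun a => CBs_mono (h4 a) fun k => (k4 k ⟨a, rfl⟩).trans (by simp), CBs_mono h5 fun k => by simp⟩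

theorem exists_cbc_stab {F : Pre I M ι} {c : Cfg M ι lam r} {C : ℕ → ℝ} (h : CBc F c C) {N : ℕ}
    (J : En (Fin N)) (i : CL c.m.V (Eu (Fin N))) : ∃ C, CBc F (stab c J i) C :=
  exists_cbc.2 ⟨Cb_clm (cjL i) ⟨C, h.p⟩, fun a => Cb_clm (cjL i) ⟨C, h.ρ a⟩,
    Cb_comp (Cb_const (cjL i)) ⟨C, h.j⟩, fun a => Cb_clm (cjL i) ⟨C, h.W a⟩, Cb_clm i ⟨C, h.Φ⟩⟩

/-! ### configurations which are locally literal -/

section lit
variable {c : Cfg M' ι lam r} {c₀ : Cfg M ι lam r'} {i : CL c₀.m.V c.m.V}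

theorem GRel.admOn_lit (h : GRel B G B' G' ψ O) (h0 : AdmOn c₀ B G O) (hi : Emb c₀.m.J c.m.J i)
    (hl : ∀ x ∈ O, LitAt c c₀ i (ψ x) x) (hz : r = 0 ∨ ‖c.z‖ = 1) : AdmOn c B' G' (ψ '' O) :=
  h.admOn_iff.1 (admOn_same h.fr.op (fun x hx => (hl x hx).p) (fun b x hx => (hl x hx).ρ b)
    (fun x hx => (hl x hx).j) (stab_spec hi h.fr.op h0).1 (fun b x hx => (hl x hx).W b)
    (fun x hx => (hl x hx).Φ) hz)

/-- bounds of all data at a point -/
structure BAc (F : Pre I M ι) (c : Cfg M ι lam r) (C : ℕ → ℝ) (x : M) : Prop where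
  p : BAt F c.m.p C x
  ρ : ∀ a, BAt F (c.m.ρ a) C x
  j : BAt F c.m.j C x
  W : ∀ a, BAt F (c.W a) C x
  Φ : BAt F c.Φ C x

theorem FRel.bAc {F : Fr I M ι} {F' : Fr I' M' ι} (h : FRel F F' ψ O) {C : ℕ → ℝ}
    (h0 : CBc F.toPre (cmC ψ c) C) {x : M} (hx : x ∈ O) : BAc F'.toPre c C (ψ x) :=
  ⟨h.bAt hx (.of_forall fun _ => rfl) h0.p, fun a => h.bAt hx (.of_forall fun _ => rfl) (h0.ρ a),
    h.bAt hx (.of_forall fun _ => rfl) h0.j, fun a => h.bAt hx (.of_forall fun _ => rfl) (h0.W a),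
    h.bAt hx (.of_forall fun _ => rfl) h0.Φ⟩

theorem FRel.bAc_lit {F : Fr I M ι} {F' : Fr I' M' ι} (h : FRel F F' ψ O) {C : ℕ → ℝ}
    (h0 : CBc F.toPre (stab c₀ c.m.J i) C) (hl : ∀ x ∈ O, LitAt c c₀ i (ψ x) x) {x : M}
    (hx : x ∈ O) : BAc F'.toPre c C (ψ x) :=
  have e := (h.op.eventually_mem hx).mono hl
  ⟨h.bAt hx (e.mono fun _ k => k.p.symm) h0.p,
    fun a => h.bAt hx (e.mono fun _ k => (k.ρ a).symm) (h0.ρ a),
    h.bAt hx (e.mono fun _ k => k.j.symm) h0.j,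
    fun a => h.bAt hx (e.mono fun _ k => (k.W a).symm) (h0.W a),
    h.bAt hx (e.mono fun _ k => k.Φ.symm) h0.Φ⟩

theorem cbc_of_bAc {F : Pre I' M' ι} {C : ℕ → ℝ} (hc : c.Adm B' G') (h : ∀ x, BAc F c C x) :
    CBc F c C :=
  ⟨cbs_of_bAt hc.ok.sp fun x => (h x).p, fun a => cbs_of_bAt (hc.ok.sρ a) fun x => (h x).ρ a,
    cbs_of_bAt hc.ok.sj fun x => (h x).j,
    fun a => cbs_of_bAt (fun x => hc.conn.cc.sm a x) fun x => (h x).W a,
    cbs_of_bAt hc.sm fun x => (h x).Φ⟩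

theorem BAc.mono {F : Pre I' M' ι} {C C' : ℕ → ℝ} {x : M'} (h : BAc F c C x)
    (e : ∀ k, C k ≤ C' k) : BAc F c C' x :=
  ⟨fun k w hw => (h.p k w hw).trans (e k), fun a k w hw => (h.ρ a k w hw).trans (e k),
    fun k w hw => (h.j k w hw).trans (e k), fun a k w hw => (h.W a k w hw).trans (e k),
    fun k w hw => (h.Φ k w hw).trans (e k)⟩

end lit

/-! ### extension -/

section ext
variable {S X Y : Type} (φ : S → X) (π : X → Y) (c : Cfg S ι lam r) (β : Cfg Y ι lam r')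
  (i : CL β.m.V c.m.V)

/-- `c` on the image of `φ`, the stabilisation of `β ∘ π` elsewhere -/
@[reducible] def extC : Cfg X ι lam r :=
  ⟨⟨c.m.N, c.m.J, extend φ c.m.p fun x => cjL i (β.m.p (π x)),
    fun b => extend φ (c.m.ρ b) fun x => cjL i (β.m.ρ b (π x)),
    extend φ c.m.j fun x => cjL i ∘L β.m.j (π x)⟩,
   fun b => extend φ (c.W b) fun x => cjL i (β.W b (π x)), extend φ c.Φ fun x => i (β.Φ (π x)), c.z⟩

variable {φ}

theorem cfg_ext {N : ℕ} {J : En (Fin N)} {p p' : S → En (Fin N)} {ρ ρ' W W' : ι → S → En (Fin N)}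
    {j j' : S → CL (Eu lam) (En (Fin N))} {Φ Φ' : S → Eu (Fin N)} {z : EuclideanSpace ℂ (Fin r)}
    (e1 : p = p') (e2 : ρ = ρ') (e3 : j = j') (e4 : W = W') (e5 : Φ = Φ') :
    (⟨⟨N, J, p, ρ, j⟩, W, Φ, z⟩ : Cfg S ι lam r) = ⟨⟨N, J, p', ρ', j'⟩, W', Φ', z⟩ := by
  subst_vars; rfl

theorem cmC_extC [TopologicalSpace S] [TopologicalSpace X] (hφ : Injective φ) :
    cmC φ (extC φ π c β i) = c :=
  cfg_ext (funext (hφ.extend_apply c.m.p fun x => cjL i (β.m.p (π x))))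
    (funext fun b => funext (hφ.extend_apply (c.m.ρ b) fun x => cjL i (β.m.ρ b (π x))))
    (funext (hφ.extend_apply c.m.j fun x => cjL i ∘L β.m.j (π x)))
    (funext fun b => funext (hφ.extend_apply (c.W b) fun x => cjL i (β.W b (π x))))
    (funext (hφ.extend_apply c.Φ fun x => i (β.Φ (π x))))

variable {π c β i}

theorem litAt_extC (hφ : Injective φ) {x : X} (h : ∀ y, φ y = x → LitAt c β i y (π x)) :
    LitAt (extC φ π c β i) β i x (π x) := by
  have e : ∀ {α : Type} {f : S → α} (g : X → α), (∀ y, φ y = x → f y = g x) →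
      extend φ f g x = g x := fun g k => by
    by_cases hx : ∃ y, φ y = x
    · obtain ⟨y, rfl⟩ := hx
      exact (hφ.extend_apply _ _ y).trans (k y rfl)
    · exact extend_apply' _ _ _ hx
  exact ⟨e (fun x => cjL i (β.m.p (π x))) fun y k => (h y k).p,
    fun b => e (fun x => cjL i (β.m.ρ b (π x))) fun y k => (h y k).ρ b,
    e (fun x => cjL i ∘L β.m.j (π x)) fun y k => (h y k).j,
    fun b => e (fun x => cjL i (β.W b (π x))) fun y k => (h y k).W b,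
    e (fun x => i (β.Φ (π x))) fun y k => (h y k).Φ⟩

end ext

end

end Crest.Agent.X212.Pj41
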