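import Crest.Agent.X212.Nd18.Ms
import Crest.Agent.X212.Bki64.G1
import Crest.Agent.X212.Abel74.Gap

/-!
# X212 / MS-TYP (helper41): the limits of trajectories which are fixed by the circle
-/

set_option autoImplicit false
set_option linter.unusedSectionVars false
noncomputable section
open scoped Manifold ContDiff Topology InnerProductSpace
open Set Function Filter

namespace Crest.Agent.X212.Pj41
open An Tmp64 Cyf70 Nd18 Bki64
open Wz78 (nab nabE SA rk1_apply)

section gen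
variable {E : Type} [NormedAddCommGroup E] [NormedSpace ℝ E] [FiniteDimensional ℝ E]
  [MeasurableSpace E] [BorelSpace E]
  {HM : Type} [TopologicalSpace HM] {I : ModelWithCorners ℝ E HM} [I.Boundaryless]
  {M : Type} [TopologicalSpace M] [ChartedSpace HM M] [IsManifold I ∞ M]
  [MeasurableSpace M] [T2Space M] [BorelSpace M] [SecondCountableTopology M]
  {ι : Type} [Fintype ι] {lam : Type} [Fintype lam] {r r' : ℕ}
  {B : Base M ι lam} {G : Geo I M ι lam} {c : Cfg M ι lam r} {ξ : M → c.m.A}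

theorem Iso0.itx' {m m' : Md M ι lam} {O : Set M} {x : M} {U : M → CL m.V m'.V}
    (h : Iso0 I m m' O U) (hx : x ∈ O) : Std94.Itx m m' x (U x) :=
  ⟨fun y => congrArg (· y) (h.iso x hx).left, fun y => congrArg (· y) (h.iso x hx).idem,
    fun a y => (congrArg (· y) (h.ρ x hx a)).symm, fun y => (congrArg (· y) (h.J x hx)).symm,
    fun s y => (congrArg (· y) (h.j x hx s)).symm⟩

/-- a parallel section of `g` of constant positive length spans a parallel line -/
theorem lin_of_par (A : c.Adm B G) (h : ParS G.F c univ ξ) (n : ∀ x, ⟪ξ x, ξ x⟫_ℝ = 16) :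
    Nd18.Lin G.F c univ := by
  have s : ∀ x, SA I ξ x := fun x => (h.sm x trivial).contMDiffAt univ_mem
  have s1 : ∀ x, SA I (fun y => rk1 (ξ y) (ξ y)) x := fun x =>
    SA.app (SA.clm (ContinuousLinearMap.smulRightL ℝ c.m.A c.m.A) (SA.clm (innerSL ℝ) (s x))) (s x)
  have s0 : ∀ x, SA I (fun _ : M => (1 / 16 : ℝ)) x := fun _ => contMDiffAt_const
  refine ⟨fun y => (1 / 16 : ℝ) • rk1 (ξ y) (ξ y),
    fun x _ => ((s0 x).smul (s1 x)).contMDiffWithinAt, fun x _ => ⟨fun v w => ?_, ?_, ?_, ?_,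
      fun a => ?_⟩⟩
  · simp only [smul_apply, rk1_apply, real_inner_smul_left, real_inner_smul_right,
      real_inner_comm v]
    ring
  · ext1 v
    simp only [mul_apply_eq_comp, smul_apply, rk1_apply, real_inner_smul_right, n, smul_smul]
    congr 1; ring
  · ext1 v
    simp only [mul_apply_eq_comp, smul_apply, rk1_apply, map_smul, Wz78.pg_of_mem (h.mem x trivial)]
  · have := InnerProductSpace.trace_rankOne (𝕜 := ℝ) (ξ x) (ξ x)
    rw [n] at this
    rw [ContinuousLinearMap.toLinearMap_smul, map_smul]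
    exact (congrArg ((1 / 16 : ℝ) • ·) this).trans (by norm_num)
  · change nabE I G.F.e (c.m.adW c.W) a (fun y => (1 / 16 : ℝ) • rk1 (ξ y) (ξ y)) x = 0
    rw [Wz78.nabE_smul a (s0 x) (s1 x)]
    have e : nabE I G.F.e (c.m.adW c.W) a (fun y => rk1 (ξ y) (ξ y)) x = 0 := by
      ext1 w
      have hc : SA I (fun _ : M => w) x := contMDiffAt_const
      have := Wz78.nab_app' (e := G.F.e) (A := c.m.adW c.W) a (s1 x) hc
      simp only [rk1_apply] at this
      rw [Wz78.nab_smul a ((s x).inner hc) (s x),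
        Wz78.dv_inner (A := c.m.adW c.W) a (Wz78.adc_skw (A.conn.sk a x)) (s x) hc,
        h.par a x trivial] at this
      simpa using this.symm
    simp [e]

/-- the section of a configuration of type S is an automorphism -/
theorem aut_of_fix [PreconnectedSpace M] (hB : B.OK I) (A : c.Adm B G) (h : ParS G.F c univ ξ)
    (hΦ : ∀ x, opL (ξ x) (c.Φ x) = c.m.J (c.Φ x)) {y : M} (hy : c.Φ y ≠ 0) :
    Iso0 I c.m c.m univ (fun x => opL (ξ x)) ∧
      ∀ a x, cov G.F c c (fun x => opL (ξ x)) a x = 0 := by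
  have s : ∀ x, SA I ξ x := fun x => (h.sm x trivial).contMDiffAt univ_mem
  have H := Std94.pmx A.ok
  obtain ⟨t, ht⟩ := Abel74.const_of_D (F := G.F) isOpen_univ isPreconnected_univ
    (fun x _ => SA.inner (s x) (s x)) fun a x _ => by
      rw [Pre.D_def, Wz78.dv_inner (A := c.m.adW c.W) a (Wz78.adc_skw (A.conn.sk a x)) (s x) (s x),
        h.par a x trivial]
      simp
  have sq := fun x => Std94.g_sq hB (H x) (h.mem x trivial)
  have e : ‖ξ y‖ ^ 2 = 16 := by
    have e1 := congrArg (· (c.Φ y)) (sq y)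
    have e2 := congrArg (· (c.Φ y)) (h.mem y trivial).2.2.1
    have e3 := congrArg (· (c.Φ y)) A.ok.Jsq
    simp only [mul_apply_eq_comp, smul_apply, hΦ, (admOn_univ.2 A).pΦ (mem_univ y), neg_apply,
      one_apply_eq_self] at e1 e2 e3
    rw [← e2, e3, ← neg_one_smul ℝ] at e1
    linarith [smul_left_injective ℝ hy e1]
  have sq' : ∀ x, opL (ξ x) * opL (ξ x) = -c.m.p x := fun x => by
    rw [sq, ← real_inner_self_eq_norm_sq, ht x trivial, ← ht y trivial, real_inner_self_eq_norm_sq,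
      e, ← neg_one_smul ℝ (c.m.p x)]
    norm_num
  refine ⟨⟨fun x _ => SA.clm opL (s x), fun x _ => ?_, fun x _ => (h.mem x trivial).2.2.1,
    fun x _ => (h.mem x trivial).2.2.2.1, fun x _ => (h.mem x trivial).2.2.2.2⟩, fun a x => ?_⟩
  · have a := ad_skew.2 (h.mem x trivial).1
    exact ⟨by rw [a, ContinuousLinearMap.neg_comp]; exact neg_eq_iff_eq_neg.2 (sq' x),
      by rw [a, ContinuousLinearMap.comp_neg]; exact neg_eq_iff_eq_neg.2 (sq' x),
      Std94.g_p hB (H x) (h.mem x trivial)⟩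
  · have := Wz78.opL_nab (e := G.F.e) (W := c.W) a (s x)
    rw [h.par a x trivial, map_zero] at this
    rw [← this, cov, add_sub_assoc]; rfl

/-- closeness after an exact automorphism -/
theorem cl_aut {c' : Cfg M ι lam r'} {F : Fr I M ι} {u : M → CL c.m.V c'.m.V} {ζ ε : Circle}
    {O : Set M} {k : ℕ} {η : ℝ} (h : Cl F c c' u (fun _ => ζ) O k η) (hJ : c'.m.J * c'.m.J = -1)
    {T : M → En (Fin c.m.N)} (i : Iso0 I c.m c.m O T) (p : ∀ a x, cov F c c T a x = 0)
    (q : ∀ x, dP c c T ε x = 0) : Cl F c c' (fun x => u x ∘L T x) (fun _ => ζ * ε) O k η :=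
  ⟨h.op, i.trans h.iso, fun a => (h.A a).congr h.op fun x hx => by
      rw [dA_comp i h.iso hx, Bki64.dA, Bki64.dA, p]; simp,
    h.P.congr h.op fun x hx => by rw [dP_comp hJ h.iso hx, q]; simp⟩

end gen

variable {E3 : Type} [NormedAddCommGroup E3] [NormedSpace ℝ E3] [FiniteDimensional ℝ E3]
  [MeasurableSpace E3] [BorelSpace E3]
  {H3 : Type} [TopologicalSpace H3] {I3 : ModelWithCorners ℝ E3 H3} [I3.Boundaryless]
  {Y : Type} [TopologicalSpace Y] [ChartedSpace H3 Y] [IsManifold I3 ∞ Y] [T2Space Y]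
  [MeasurableSpace Y] [BorelSpace Y] [SecondCountableTopology Y] [CompactSpace Y]
  {κ : Type} [Fintype κ] {lam : Type} [Fintype lam] {D : YD I3 Y κ lam} {β : YC Y κ lam}
  {c : Cfg (Y × ℝ) (Option κ) lam 0} {ζ : Circle} {l : Filter ℝ}

/-- `-i` -/
def negI : Circle := ⟨-Complex.I, by simp [Submonoid.unitSphere]⟩

theorem cs_negI {κ : Type} [Fintype κ] (J : En κ) (v : Eu κ) : cs J negI v = -J v := by
  simp [cs, negI]

/-- **The limit of a fixed configuration.** -/
theorem typ_lim [PreconnectedSpace Y] (hD : D.OK) (hβ : D.Adm β) (irr : D.Zr β → ¬D.Ln β)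
    (A : c.Adm D.B D.G) [l.NeBot] (hl : ∀ S ∈ l, ∀ᶠ s in l, Ioo (s - 2) (s + 2) ⊆ S)
    (h : D.nk.Lim c β ζ l) (hF : Fix D.Z c univ) : D.Fx β ∧ (D.Zr β ↔ Nd18.Zr c univ) := by
  obtain ⟨u, hu⟩ : ∃ u : Y × ℝ → CL c.m.V β.m.V, ∀ k, ∀ η > 0, ∃ S ∈ l, S ⊆ D.nk.J ∧
    D.Cls c β u ζ S k η := h
  have A' := admOn_univ.2 A
  let 𝒰 := Ultrafilter.of l
  have H : ∀ k, CZ D.Z 𝒰 (fun s => win Y s 2) k (fun _ => c) (cy β) (fun _ => u) fun _ _ => ζ :=
    fun k ε hε => by
      obtain ⟨S, h1, -, h2⟩ := hu k ε hε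
      exact ((hl S h1).filter_mono (Ultrafilter.of_le l)).mono fun s hs =>
        (cl_of_cls hβ (A'.mono (subset_univ _)) h2).mono (win_op _ _) (prod_mono_right hs) le_rfl
          le_rfl
  have mem : ∀ (y : Y) (s L : ℝ), 0 < L → (y, s) ∈ win Y s L := fun y s L hL =>
    ⟨trivial, by linarith, by linarith⟩
  by_cases hz : Nd18.Zr c univ
  · have z : D.Zr β := fun y => norm_le_zero_iff.1 (le_of_forall_pos_le_add fun ε hε => by
      obtain ⟨s, hs⟩ := ((H 0).P.le hε).exists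
      have := hs _ (mem y s 2 two_pos)
      rw [Bki64.dP, hz _ trivial] at this
      rw [add_comm, add_zero]
      simpa [cs] using (show ‖cs β.m.J ζ (u (y, s) 0) - β.Φ y‖ ≤ ε from this))
    exact ⟨⟨fun _ => 0, ⟨contMDiffOn_const, fun _ _ => Submodule.zero_mem _,
      fun a x _ => by simp [nab]⟩, fun x _ => by simp [show (cy β).Φ x = 0 from z x.1]⟩,
      iff_of_true z hz⟩
  obtain ⟨ξ, p, hξ⟩ := hF
  obtain ⟨x₀, hx₀⟩ : ∃ x, c.Φ x ≠ 0 := by
    by_contra! e
    exact hz fun x _ => e x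
  obtain ⟨i, pa⟩ := aut_of_fix hD.B A p (fun x => hξ x trivial) hx₀
  have JJ : ∀ {N : ℕ} {J : En (Fin N)}, J * J = -1 → ∀ v, J (J v) = -v := fun h v =>
    congrArg (· v) h
  obtain ⟨g, ε, S, e, z⟩ := step_fam hβ hβ (𝒰 := 𝒰) (s := id) (c := fun _ => c) one_lt_two two_pos
    (Eventually.of_forall fun _ => A'.mono (subset_univ _)) H (ζ' := fun _ => ζ * negI)
    fun k η hη => (H k η hη).mono fun s hs => cl_aut hs hβ.adm.ok.Jsq (i.mono (subset_univ _)) pa
      fun x => by rw [Bki64.dP, hξ x trivial, cs_negI, JJ A.ok.Jsq, neg_neg, sub_self]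
  obtain rfl : negI = ε := by
    rw [mul_div_cancel_left] at e
    exact tendsto_nhds_unique tendsto_const_nhds e
  have sk : ∀ y, Skw (g y) := fun y => by
    refine IsClosed.mem_of_tendsto (s := {T : En (Fin β.m.N) | Skw T}) (b := 𝒰)
      (f := fun s => (u (y, s) ∘L opL (ξ (y, s))) ∘L ad (u (y, s))) ?_ ?_
      (Eventually.of_forall fun s v w => ?_)
    · simp only [Skw, ofPred_forall]
      exact isClosed_iInter fun v => isClosed_iInter fun w => isClosed_eq (by fun_prop) (by fun_prop)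
    · exact tendsto_iff_norm_sub_tendsto_zero.2 (NormedAddGroup.tendsto_nhds_zero.2 fun η hη =>
        ((z 0).le (half_pos hη)).mono fun s hs => by
          rw [norm_norm]; exact (hs _ (mem y s 1 one_pos)).trans_lt (half_lt_self hη))
    · simp only [ContinuousLinearMap.comp_apply]
      rw [← inner_ad_right, (p.mem _ trivial).1, inner_ad_left]
  have P : ParS D.Z (cy β) univ fun x => hsL (g x.1) :=
    ⟨fun x _ => (SA.clm hsL (S.iso.su x trivial)).contMDiffWithinAt,
      fun x _ => Std94.Fx.mem_of_itx (S.iso.itx' (mem_univ x)) (sk x.1), fun a x _ => by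
        refine (Wz78.hsL_nab (m := (cy β).m) a (S.iso.su x trivial)).trans ?_
        rw [← map_zero hsL, ← S.par a x, cov, add_sub_assoc]
        rfl⟩
  refine ⟨⟨_, P, fun x _ => ?_⟩, iff_of_false (fun z => irr z (lin_of_par hβ.adm P fun x => ?_)) hz⟩
  · have := congrArg β.m.J (S.Φ x.1)
    rw [cs_negI, map_neg, JJ (J := β.m.J) hβ.adm.ok.Jsq, neg_neg] at this
    exact (congrArg (· (β.Φ x.1)) (Wz78.opL_hsL (g x.1))).trans this
  · exact (Std94.inner_hs _ _).trans (hs_iso (OK.on hβ.adm.ok univ) trivial (S.iso.iso x trivial))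

theorem ev_top (S : Set ℝ) (h : S ∈ (atTop : Filter ℝ)) :
    ∀ᶠ s in (atTop : Filter ℝ), Ioo (s - 2) (s + 2) ⊆ S := by
  obtain ⟨a, ha⟩ := mem_atTop_sets.1 h
  exact (eventually_ge_atTop (a + 2)).mono fun s hs t ht => ha t (by linarith [ht.1])

theorem ev_bot (S : Set ℝ) (h : S ∈ (atBot : Filter ℝ)) :
    ∀ᶠ s in (atBot : Filter ℝ), Ioo (s - 2) (s + 2) ⊆ S := by
  obtain ⟨a, ha⟩ := mem_atBot_sets.1 h
  exact (eventually_le_atBot (a - 2)).mono fun s hs t ht => ha t (by linarith [ht.2])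

/-- **MS-TYP** -/
theorem typ [PreconnectedSpace Y] (hD : D.OK) {N : ND Y lam} (S : N.CD D) (q : YW I3 Y →₀ ℝ) :
    S.Typ q := fun i j _ _ _ h hF =>
  have a := typ_lim hD ⟨(S.crit i).sol.toAdm, (S.crit i).tmp⟩ (S.irr i) h.sol.toAdm ev_bot h.bot hF
  have b := typ_lim hD ⟨(S.crit j).sol.toAdm, (S.crit j).tmp⟩ (S.irr j) h.sol.toAdm ev_top h.top hF
  ⟨a.1, b.1, a.2, b.2⟩

end Crest.Agent.X212.Pj41
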