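import Crest.Agent.X212.Taub88.Key
import Crest.Agent.X212.Std94.Loc
import Crest.Agent.X212.Std94.Smo
import Crest.Agent.X212.Wz78.Sd

/-!
# X212 / TAUB (helper41): modules with unit pure spinors; the canonical module

Two modules with unit pure spinors `u`, `u'` have a unique isomorphism with `u ↦ u'` (`pure_iso`);
gluing the local standard modules along these gives the canonical module (`pure_can`).
-/

set_option autoImplicit false
set_option linter.unusedSectionVars false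

open Set Function Filter Topology Module Quaternion
open scoped ContDiff Manifold InnerProductSpace

namespace Crest.Agent.X212.Pj41

open An Std94
open Taub88 (PC Qt Qf Cx SD tr tr_comm tr_neg tr_smul tr_sub)
open Wz78 (spin omA)

noncomputable section

section pt

variable {V V' L : Type} [NormedAddCommGroup V] [InnerProductSpace ℝ V] [FiniteDimensional ℝ V]
  [NormedAddCommGroup V'] [InnerProductSpace ℝ V'] [FiniteDimensional ℝ V']
  [NormedAddCommGroup L] [InnerProductSpace ℝ L] [FiniteDimensional ℝ L]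
  {ι : Type} [Fintype ι]
  {P θ : ι → ι → ℝ} {o : ι → ι → ι → ι → ℝ} {l il : L →L[ℝ] L} {p J : V →L[ℝ] V}
  {ρ : ι → V →L[ℝ] V} {j : L →L[ℝ] V →L[ℝ] V} {p' J' : V' →L[ℝ] V'} {ρ' : ι → V' →L[ℝ] V'}
  {j' : L →L[ℝ] V' →L[ℝ] V'} {U : Fin 4 → ι → ℝ} {s₀ : L} {A C : V →L[ℝ] V'} {u : V} {u' : V'}

theorem itw_add (i : Itw p J ρ j p' J' ρ' j' A) (i' : Itw p J ρ j p' J' ρ' j' C) :
    Itw p J ρ j p' J' ρ' j' (A + C) :=
  ⟨fun y => by simp [i.pl, i'.pl], fun y => by simp [i.pr, i'.pr], fun a y => by simp [i.ρ, i'.ρ],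
    fun y => by simp [i.J, i'.J], fun s y => by simp [i.j, i'.j]⟩

theorem itw_sub (i : Itw p J ρ j p' J' ρ' j' A) (i' : Itw p J ρ j p' J' ρ' j' C) :
    Itw p J ρ j p' J' ρ' j' (A - C) :=
  ⟨fun y => by simp [i.pl, i'.pl], fun y => by simp [i.pr, i'.pr], fun a y => by simp [i.ρ, i'.ρ],
    fun y => by simp [i.J, i'.J], fun s y => by simp [i.j, i'.j]⟩

theorem itw_Q (i : Itw p J ρ j p' J' ρ' j' A) (v : V) :
    A (Qt o p J ρ θ v) = Qt o p' J' ρ' θ (A v) := by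
  simp [Qt, Taub88.pp, omA, spin, i.ρ, i.J, i.pr, i.pl]

theorem tr_Q (h : PM P l il p J ρ j) (hs : LF l il s₀) (c : PC P o p J ρ) :
    tr (Qt o p J ρ θ) = 4 := by
  have kk : j s₀ * j s₀ = p := by rw [h.jsq, hs.ls, hs.n1, one_pow, one_smul]
  have e1 : j s₀ * (spin ρ θ * J) = -(spin ρ θ * J * j s₀) := by
    rw [← mul_assoc, Taub88.comm_spin (fun a => h.jρ a s₀), mul_assoc, h.jJ, mul_neg, mul_assoc]
  have e2 : spin ρ θ * J * p = spin ρ θ * J := by
    rw [mul_assoc, h.Jp, ← mul_assoc]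
    simp only [spin, smul_mul_assoc, Finset.sum_mul, mul_assoc, h.cl.pr]
  have e3 : tr (spin ρ θ * J) = -tr (spin ρ θ * J) := by
    conv_lhs => rw [← e2, ← kk, ← mul_assoc, tr_comm, ← mul_assoc, e1, neg_mul, mul_assoc, kk, e2,
      tr_neg]
  have e4 : tr p = 16 := h.prk
  rw [Qt, tr_smul, tr_sub, Taub88.pp, tr_smul, tr_sub, c.tr_anti c.om_ρ c.om_p, e4]
  linarith

theorem hs_rk (u : V) (w : V') (D : V →L[ℝ] V') :
    hs ((innerSL ℝ u).smulRight w) D = ⟪w, D u⟫_ℝ := by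
  rw [hs_eq_sum (stdOrthonormalBasis ℝ V)]
  conv_rhs => rw [← (stdOrthonormalBasis ℝ V).sum_repr' u]
  simp only [map_sum, map_smul, inner_sum, real_inner_smul_right,
    ContinuousLinearMap.smulRight_apply, innerSL_apply_apply, real_inner_smul_left,
    real_inner_comm u]

variable (h : PM P l il p J ρ j) (h' : PM P l il p' J' ρ' j') (hU : ON P U) (hs₀ : LF l il s₀)
include h h' hU hs₀

theorem itw_hs (i : Itw p J ρ j p' J' ρ' j' A) (i' : Itw p J ρ j p' J' ρ' j' C) (n : ‖u‖ = 1)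
    (pu : p u = u) : hs A C = 16 * ⟪A u, C u⟫_ℝ := by
  have e : ∀ {A : V →L[ℝ] V'}, Itw p J ρ j p' J' ρ' j' A → hs A A = 16 * ⟪A u, A u⟫_ℝ :=
    fun i => by rw [i.inner h h' hU hs₀, pu, real_inner_self_eq_norm_sq, n]; ring
  have e3 := e (itw_add i i')
  rw [hs_add, hs_comm A, hs_comm C, hs_add, hs_add, e i, e i', hs_comm C, add_apply,
    inner_add_left, inner_add_right, inner_add_right, real_inner_comm (A u) (C u)] at e3
  linarith

theorem itw_zero (i : Itw p J ρ j p' J' ρ' j' A) (n : hs A A = 0) : A = 0 :=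
  ContinuousLinearMap.ext fun y => inner_self_eq_zero.1 (by rw [i.inner h h' hU hs₀, n]; simp)

theorem itw_unq (i : Itw p J ρ j p' J' ρ' j' A) (i' : Itw p J ρ j p' J' ρ' j' C) (n : ‖u‖ = 1)
    (pu : p u = u) (e : A u = C u) : A = C :=
  sub_eq_zero.1 (itw_zero h h' hU hs₀ (itw_sub i i')
    (by rw [itw_hs h h' hU hs₀ (itw_sub i i') (itw_sub i i') n pu]; simp [e]))

theorem exists_itw_pure (c : PC P o p J ρ) (c' : PC P o p' J' ρ') (hθ : Cx P θ) (sd : SD o θ)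
    (n : ‖u‖ = 1) (q : Qt o p J ρ θ u = u) (q' : Qt o p' J' ρ' θ u' = u') :
    ∃ A, Itw p J ρ j p' J' ρ' j' A ∧ A u = u' := by
  obtain ⟨f, hf⟩ := h.exists_frm hU hs₀
  obtain ⟨f', hf'⟩ := h'.exists_frm hU hs₀
  have i : ∀ a, Itw p J ρ j p' J' ρ' j' (Xi f' f a) := fun a =>
    (itw_iff_Xi h h' hU hs₀ hf hf' _).2 ⟨a, rfl⟩
  have pu : p u = u := by rw [← q, ← mul_apply_eq_comp, c.p_Q]
  let Q : V' →ₗ[ℝ] V' := Qt o p' J' ρ' θ
  have r : finrank ℝ Q.range = 4 :=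
    finrank_range_of_trace (fun w => congrArg (fun T : V' →L[ℝ] V' => T w) (c'.Q_Q hθ sd))
      (by exact_mod_cast tr_Q h' hs₀ c')
  let φ : ℍ →ₗ[ℝ] Q.range := LinearMap.codRestrict _ (LinearMap.applyₗ u ∘ₗ
    ContinuousLinearMap.coeLM ℝ ∘ₗ Xi f' f) fun a => ⟨Xi f' f a u, by
      change Qt o p' J' ρ' θ _ = Xi f' f a u
      rw [← itw_Q (i a), q]⟩
  have inj : Injective φ := fun a b e => Xi_inj f' f
    (itw_unq h h' hU hs₀ (i a) (i b) n pu (congrArg Subtype.val e))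
  obtain ⟨a, ha⟩ := (LinearMap.injective_iff_surjective_of_finrank_eq_finrank
    (by rw [r, Quaternion.finrank_eq_four])).1 inj ⟨u', u', q'⟩
  exact ⟨_, i a, congrArg Subtype.val ha⟩

/-- the formula for the intertwiner -/
theorem itw_formula (i : Itw p J ρ j p' J' ρ' j' A) (n : ‖u‖ = 1) (pu : p u = u) :
    (16 : ℝ) • Std94.Pi J ρ j J' ρ' j' ((innerSL ℝ u).smulRight (A u)) = A := by
  have i2 := itw_sub ((itw_Pi h h' hU hs₀ ((innerSL ℝ u).smulRight (A u))).smul 16) i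
  refine sub_eq_zero.1 (itw_zero h h' hU hs₀ i2 ?_)
  generalize hD : (16 : ℝ) • Std94.Pi J ρ j J' ρ' j' ((innerSL ℝ u).smulRight (A u)) - A = D at i2
  nth_rewrite 1 [← hD]
  rw [hs_sub, hs_smul, hs_Pi h h' hU hs₀ _ i2, itw_hs h h' hU hs₀ i i2 n pu, hs_rk, sub_self]

omit h' hU hs₀ in
/-- transport along an isometry -/
theorem pm_conj (e : V ≃ₗᵢ[ℝ] V') :
    PM P l il (cjL (e : V →L[ℝ] V') p) (cjL (e : V →L[ℝ] V') J)
      (fun a => cjL (e : V →L[ℝ] V') (ρ a)) (cjL (e : V →L[ℝ] V') ∘L j) := by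
  have a : ad (e : V →L[ℝ] V') = (e.symm : V' →L[ℝ] V) :=
    ad_eq fun w v => by simpa using (e.inner_map_map (e.symm w) v).symm
  let φ := e.toContinuousLinearEquiv.conjContinuousAlgEquiv
  have e1 : ∀ T, cjL (e : V →L[ℝ] V') T = φ T := fun T => by rw [cjL_apply, a]; rfl
  have e2 : ∀ T v w, ⟪φ T v, w⟫_ℝ = ⟪T (e.symm v), e.symm w⟫_ℝ := fun T v w => by
    rw [← e.inner_map_map]; simp [φ]
  have e3 : ∀ T v w, ⟪v, φ T w⟫_ℝ = ⟪e.symm v, T (e.symm w)⟫_ℝ := fun T v w => by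
    rw [← e.inner_map_map]; simp [φ]
  have e4 : LinearMap.trace ℝ V' (φ p : V' →ₗ[ℝ] V') = 16 :=
    (LinearMap.trace_conj' (p : V →ₗ[ℝ] V) e.toLinearEquiv).trans h.prk
  refine ⟨?_, fun v w => ?_, fun v w => ?_, ?_, ?_, ?_, ⟨fun a b => ?_, fun a => ?_, fun a => ?_,
    fun a => ?_⟩, fun a v w => ?_, fun a => ?_, fun s v w => ?_, fun s => ?_, fun s => ?_,
    fun s => ?_, fun s => ?_, fun s => ?_, fun a s => ?_⟩ <;>
    simp only [e1, e2, e3, e4, ContinuousLinearMap.comp_apply, ← map_mul, ← map_add, ← map_smul,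
      ← map_sum, ← map_neg, h.Jsq, h.Jsk, h.psym, h.pidem, h.Jp, h.cl.rel, h.cl.pl, h.cl.pr,
      h.cl.proj, h.ρsk, h.Jρ, h.jsym, h.jJ, h.jil, h.jl, h.jsq, h.pj, h.jρ]
  rw [map_neg, map_one]

end pt

variable {E : Type} [NormedAddCommGroup E] [NormedSpace ℝ E] [FiniteDimensional ℝ E]
  [MeasurableSpace E] [BorelSpace E]
  {HM : Type} [TopologicalSpace HM] {I : ModelWithCorners ℝ E HM}
  {M : Type} [TopologicalSpace M] [ChartedSpace HM M] [IsManifold I ∞ M]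
  [MeasurableSpace M] {ι : Type} [Fintype ι] {lam : Type} [Fintype lam]
  {B : Base M ι lam} {m m' : Md M ι lam} {O : Set M} {x : M} {θ : ι → ι → M → ℝ}

theorem pcx (hB : B.OK I) (H : PMx B m x) :
    PC (fun a b => B.P a b x) (fun a b c d => B.o a b c d x) (m.p x) m.J fun a => m.ρ a x :=
  ⟨hB.pr x, Wz78.b_on hB x, H.cl, H.psym, H.ρsk, H.Jsk, H.Jρ, H.Jp,
    by rw [H.Jsq, neg_mul, one_mul]⟩

theorem Iso0.itx {U : M → CL m.V m'.V} (h : Iso0 I m m' O U) (hx : x ∈ O) : Itx m m' x (U x) :=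
  ⟨fun y => congrArg (· y) (h.iso x hx).left, fun y => congrArg (· y) (h.iso x hx).idem,
    fun a y => (congrArg (· y) (h.ρ x hx a)).symm, fun y => (congrArg (· y) (h.J x hx)).symm,
    fun s y => (congrArg (· y) (h.j x hx s)).symm⟩

variable (I) in
/-- unit pure spinors over `O` -/
def Pur (B : Base M ι lam) (m : Md M ι lam) (θ : ι → ι → M → ℝ) (O : Set M) (u : M → m.V) : Prop :=
  ∀ x ∈ O, FSm I u x ∧ ‖u x‖ = 1 ∧ Qf B.o m.p m.J m.ρ θ x (u x) = u x

theorem Pur.p (hB : B.OK I) (H : OKOn I B m O) {u : M → m.V} (h : Pur I B m θ O u) (hx : x ∈ O) :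
    m.p x (u x) = u x := by
  rw [← (h x hx).2.2, Qf, ← mul_apply_eq_comp, (pcx hB (pmx_on H hx)).p_Q]

/-- an isomorphism is determined by the image of a pure spinor -/
theorem pure_unq (hB : B.OK I) (H : OKOn I B m O) (H' : OKOn I B m' O) {u : M → m.V}
    (h : Pur I B m θ O u) (hx : x ∈ O) {A C : CL m.V m'.V} (i : Itx m m' x A) (i' : Itx m m' x C)
    (e : A (u x) = C (u x)) : A = C :=
  let ⟨_, _, b⟩ := exists_bx hB x
  itw_unq (pmx_on H hx) (pmx_on H' hx) b.of.toON b.lf i i' (h x hx).2.1 (h.p hB H hx) e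

theorem Iso0.pur (hB : B.OK I) (H : OKOn I B m O) {U : M → CL m.V m'.V} (hU : Iso0 I m m' O U)
    {u : M → m.V} (h : Pur I B m θ O u) : Pur I B m' θ O fun x => U x (u x) := fun x hx => by
  refine ⟨(hU.su x hx).clm_apply (h x hx).1, ?_, ?_⟩
  · have e : ⟪U x (u x), U x (u x)⟫_ℝ = ⟪u x, u x⟫_ℝ := by
      rw [← inner_ad_right, ← ContinuousLinearMap.comp_apply, (hU.iso x hx).src, h.p hB H hx]
    rw [norm_eq_sqrt_real_inner, e, ← norm_eq_sqrt_real_inner, (h x hx).2.1]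
  · exact (itw_Q (hU.itx hx) (u x)).symm.trans (congrArg _ (h x hx).2.2)

variable (hB : B.OK I) (cx : ∀ x, Cx (fun a b => B.P a b x) fun a b => θ a b x)
  (sd : ∀ x, SD (fun a b c d => B.o a b c d x) fun a b => θ a b x)
include hB cx sd

/-- **modules with unit pure spinors are isomorphic** -/
theorem pure_iso (H : OKOn I B m O) (H' : OKOn I B m' O) {u : M → m.V} {u' : M → m'.V}
    (h : Pur I B m θ O u) (h' : Pur I B m' θ O u') :
    ∃ U, Iso0 I m m' O U ∧ ∀ x ∈ O, U x (u x) = u' x := by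
  let U : M → CL m.V m'.V := fun x => (16 : ℝ) • Pix m m' x ((innerSL ℝ (u x)).smulRight (u' x))
  have k : ∀ x ∈ O, Itx m m' x (U x) ∧ U x (u x) = u' x ∧ hs (U x) (U x) = 16 := fun x hx => by
    obtain ⟨_, _, b⟩ := exists_bx hB x
    have a := pmx_on H hx
    have a' := pmx_on H' hx
    obtain ⟨A, i, e⟩ := exists_itw_pure a a' b.of.toON b.lf (pcx hB a) (pcx hB a') (cx x) (sd x)
      (h x hx).2.1 (h x hx).2.2 (h' x hx).2.2
    have e2 : U x = A := by
      rw [← itw_formula a a' b.of.toON b.lf i (h x hx).2.1 (h.p hB H hx), e]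
    rw [e2, itw_hs a a' b.of.toON b.lf i i (h x hx).2.1 (h.p hB H hx), e,
      real_inner_self_eq_norm_sq, (h' x hx).2.1]
    exact ⟨i, rfl, by norm_num⟩
  refine ⟨U, ⟨fun y hy => ?_, fun y hy => ?_,
    fun y hy => ContinuousLinearMap.ext fun v => ((k y hy).1.J v).symm,
    fun y hy b => ContinuousLinearMap.ext fun v => ((k y hy).1.ρ b v).symm,
    fun y hy s => ContinuousLinearMap.ext fun v => ((k y hy).1.j s v).symm⟩,
    fun y hy => (k y hy).2.1⟩
  · exact Kl.csmul (K := smAt I y) _ ((smAt I y).app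
      (Kl.Pi ((smAt I y).const _) (fun a => H.sρ a y hy) (H.sj y hy) ((smAt I y).const _)
        (fun a => H'.sρ a y hy) (H'.sj y hy))
      (Kl.bil (ContinuousLinearMap.smulRightL ℝ m.V m'.V)
        (Kl.clm (innerSL ℝ : m.V →L[ℝ] m.V →L[ℝ] ℝ) (h y hy).1) (h' y hy).1))
  · have := itx_norm hB (pmx_on H hy) (pmx_on H' hy) (k y hy).1
    rw [(k y hy).2.2, div_self (by norm_num), one_smul, one_smul, ← ad_trn] at this
    exact ⟨this.1, this.2, ContinuousLinearMap.ext (k y hy).1.pr⟩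

omit cx sd in
/-- local modules exist -/
theorem exists_md_near (x₀ : M) : ∃ (m : Md M ι lam) (O : Set M), IsOpen O ∧ x₀ ∈ O ∧
    OKOn I B m O := by
  obtain ⟨U₀, t₀, h₀⟩ := exists_bx hB x₀
  obtain ⟨U, s, -, -, h⟩ := exists_bx_near hB h₀
  obtain ⟨O, h1, h2, h3⟩ := mem_nhds_iff.1 h
  let e := (stdOrthonormalBasis ℝ S4).repr
  let c := cjL (e : S4 →L[ℝ] Eu (Fin (finrank ℝ S4)))
  let m : Md M ι lam := ⟨finrank ℝ S4, c J0, fun _ => c 1, fun a x => c (r0 (tq (U x) a)),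
    fun x => c ∘L j0 B.il (s x)⟩
  have H : ∀ x ∈ O, PMx B m x := fun x hx =>
    pm_conj (pm_std (h1 hx).2.2.of.toON (plx hB x) (h1 hx).2.2.lf) e
  refine ⟨m, O, h2, h3, (H _ h3).Jsq, (H _ h3).Jsk, fun x _ => (smAt I x).const _,
    fun a x hx => Kl.clm (K := smAt I x) c ?_,
    fun x hx => Kl.comp (K := smAt I x) ((smAt I x).const c) (Kl.j0 B.il (h1 hx).2.1),
    fun x hx => (H x hx).psym, fun x hx => (H x hx).pidem, fun x hx => (H x hx).prk,
    fun x hx => (H x hx).Jp, fun x hx => (H x hx).cl, fun a x hx => (H x hx).ρsk a,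
    fun a x hx => (H x hx).Jρ a, fun x hx => (H x hx).jsym, fun x hx => (H x hx).jJ,
    fun x hx => (H x hx).jil, fun x hx => (H x hx).jl, fun x hx => (H x hx).jsq,
    fun x hx => (H x hx).pj, fun a x hx => (H x hx).jρ a⟩
  simp only [r0_tq]
  exact Kl.fsum _ fun i => Kl.smul (K := smAt I x) ((h1 hx).1 i a) ((smAt I x).const _)

omit cx sd in
theorem sm_Qf (sm : ∀ a b, Sm I (θ a b)) (H : OKOn I B m O) (hx : x ∈ O) :
    FSm I (Qf B.o m.p m.J m.ρ θ) x := by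
  have D : Kl.Dat (smAt I x) B m id := ⟨fun a b => hB.sP a b x, fun a b c d => hB.so a b c d x,
    H.sp x hx, fun a => H.sρ a x hx, H.sj x hx⟩
  exact Kl.csmul (K := smAt I x) _ (Kl.sub D.pp (Kl.mulL (Kl.csmul _ (Kl.fsum _ fun a =>
    Kl.fsum _ fun b => Kl.smul (sm a b x) (Kl.mulL (D.ρ a) (D.ρ b)))) ((smAt I x).const _)))

/-- local pure spinors exist -/
theorem exists_pur_near (sm : ∀ a b, Sm I (θ a b)) (hO : IsOpen O) (H : OKOn I B m O)
    (hx : x ∈ O) : ∃ (O' : Set M) (u : M → m.V), IsOpen O' ∧ x ∈ O' ∧ O' ⊆ O ∧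
      Pur I B m θ O' u := by
  obtain ⟨_, _, b⟩ := exists_bx hB x
  obtain ⟨v, hv⟩ : ∃ v, Qf B.o m.p m.J m.ρ θ x v ≠ 0 := by
    by_contra! e
    have := tr_Q (θ := fun a b => θ a b x) (pmx_on H hx) b.lf (pcx hB (pmx_on H hx))
    rw [show Qt _ _ _ _ _ = 0 from ContinuousLinearMap.ext e] at this
    simp [tr] at this
  let w : M → m.V := fun y => Qf B.o m.p m.J m.ρ θ y v
  have sw : ∀ y ∈ O, (smAt I y).mem w := fun y hy => Kl.appc (sm_Qf hB sm H hy) v
  obtain ⟨O', h1, h2, h3⟩ := mem_nhds_iff.1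
    (((ContMDiffAt.continuousAt (sw x hx)).eventually_ne hv).and (hO.eventually_mem hx))
  refine ⟨O', fun y => (√⟪w y, w y⟫_ℝ)⁻¹ • w y, h2, h3, fun y hy => (h1 hy).2, fun y hy =>
    ⟨(smAt_inv_sqrt (Kl.inner (sw y (h1 hy).2) (sw y (h1 hy).2))
      (real_inner_self_pos.2 (h1 hy).1)).smul (sw y (h1 hy).2), ?_, ?_⟩⟩
  · simp only [← norm_eq_sqrt_real_inner]
    exact norm_smul_inv_norm (𝕜 := ℝ) (h1 hy).1
  · simp only [map_smul]
    exact congrArg _ (congrArg (· v) ((pcx hB (pmx_on H (h1 hy).2)).Q_Q (cx y) (sd y)))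

/-- **the canonical module** -/
theorem pure_can [T2Space M] [CompactSpace M] (sm : ∀ a b, Sm I (θ a b)) :
    ∃ (m : Md M ι lam) (u : M → m.V), m.OK I B ∧ Pur I B m θ univ u := by
  have loc : ∀ x : M, ∃ (m : Md M ι lam) (O : Set M) (u : M → m.V), IsOpen O ∧ x ∈ O ∧
      OKOn I B m O ∧ Pur I B m θ O u := fun x => by
    obtain ⟨m, O, a, b, c⟩ := exists_md_near hB x
    obtain ⟨O', u, a', b', c', d⟩ := exists_pur_near hB cx sd sm a c b
    exact ⟨m, O', u, a', b', c.mono c', d⟩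
  choose mi Oi ui op mem ok pu using loc
  obtain ⟨t, ht⟩ := isCompact_univ.elim_finite_subcover Oi op fun x _ => mem_iUnion.2 ⟨x, mem x⟩
  have cov : ∀ x, ∃ i : t, x ∈ Oi i := fun x => by simpa using ht (mem_univ x)
  have pm : ∀ i {O}, O ⊆ Oi i → Pur I B (mi i) θ O (ui i) := fun i _ s x hx => pu i x (s hx)
  choose U hU hu using fun i j : t => pure_iso hB cx sd ((ok j).mono inter_subset_right)
    ((ok i).mono inter_subset_left) (pm j inter_subset_right) (pm i inter_subset_left)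
  have C : MCoc I B (fun i : t => Oi i) (fun i => mi i) U :=
    ⟨fun i => op i, cov, fun i => ok i, hU, fun i j l x hi hj hl => by
      have s : ∀ {S : Set M}, x ∈ S → {x} ⊆ S := fun h => singleton_subset_iff.2 h
      refine pure_unq hB ((ok l).mono (s hl)) ((ok i).mono (s hi)) (pm l (s hl)) rfl
        ((((hU j l).mono (s ⟨hj, hl⟩)).trans ((hU i j).mono (s ⟨hi, hj⟩))).itx rfl)
        ((hU i l).itx ⟨hi, hl⟩) ?_
      rw [ContinuousLinearMap.comp_apply, hu j l x ⟨hj, hl⟩, hu i j x ⟨hi, hj⟩, hu i l x ⟨hi, hl⟩]⟩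
  obtain ⟨m, a, hm, ha, hc⟩ := md_glue C
  have q := fun i : t => (ha i).pur hB (ok i) (pu i)
  obtain ⟨u, su, hu'⟩ := exists_patch_fsm (I := I) (fun i : t => op i) cov
    (fun i x => a i x (ui i x)) (fun i x hx => (q i x hx).1) fun i j x hi hj => by
      rw [← (hc i j x hi hj).2, ContinuousLinearMap.comp_apply, hu i j x ⟨hi, hj⟩]
  refine ⟨m, u, hm, fun x _ => ⟨su x, ?_⟩⟩
  obtain ⟨i, hi⟩ := cov x
  rw [hu' i x hi]
  exact (q i x hi).2

end

end Crest.Agent.X212.Pj41
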