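import Crest.Agent.X212.M.Rel
import Crest.Agent.X212.Line51.Lit

/-!
# X212 / ML (helper41): existence of marked lines and of their identifications
-/

set_option autoImplicit false
set_option linter.unusedSectionVars false

open Set Function Filter Topology Matrix
open scoped ContDiff Manifold

namespace Crest.Agent.X212.Pj41

open Crest.Agent.X212.M Cyl58 Cyf70
open Line51 (Ln Uni em)

noncomputable section

section gen

variable {E : Type*} [NormedAddCommGroup E] [NormedSpace ℝ E] [FiniteDimensional ℝ E]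
  {H : Type*} [TopologicalSpace H] {I : ModelWithCorners ℝ E H}
  {Z : Type*} [TopologicalSpace Z] [ChartedSpace H Z] [IsManifold I ∞ Z] [T2Space Z]
  {κ l : Type*}

/-- patching over a closed set -/
theorem exists_patch_closed [SigmaCompactSpace Z] {ι : Type*} [Finite ι] {C : Set Z}
    (hC : IsClosed C) {U : ι → Set Z} (hU : ∀ i, IsOpen (U i)) (hc : C ⊆ ⋃ i, U i)
    (s : ι → Z → Matrix κ l ℂ) (h : ∀ i j, ∀ x ∈ C, x ∈ U i → x ∈ U j → s i x = s j x) :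
    ∃ t : Z → Matrix κ l ℂ, (∀ x, (∀ i, x ∈ U i → MSm I (s i) x) → MSm I t x) ∧
      ∀ x ∈ C, ∀ i, x ∈ U i → t x = s i x := by
  obtain ⟨f, hf⟩ := SmoothPartitionOfUnity.exists_isSubordinate I hC U hU hc
  have := Fintype.ofFinite ι
  refine ⟨fun x => ∑ i, f i x • s i x,
    fun x hx => MSm.sum fun i _ => MSm.cutoff ((f i).contMDiff x) (hf i) (hx i), fun x hx i hi => ?_⟩
  have h1 := f.sum_eq_one hx
  rw [finsum_eq_sum_of_fintype] at h1
  rw [← one_smul ℝ (s i x), ← h1, Finset.sum_smul]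
  refine Finset.sum_congr rfl fun j _ => ?_
  by_cases h0 : f j x = 0
  · simp [h0]
  · rw [h j i x hx (hf j (subset_tsupport _ h0)) hi]

variable [Fintype κ] [Fintype l]

/-- a family of isometries without triple overlaps is a cocycle -/
theorem coc_of_graph {ι : Type*} [Fintype ι] [DecidableEq ι] {U : ι → Set Z}
    (hU : ∀ i, IsOpen (U i)) {q : ι → Z → Matrix κ κ ℂ} {t : ι → ι → Z → Matrix κ κ ℂ}
    (hq : ∀ i, ∀ x ∈ U i, MSm I (q i) x ∧ Prj (q i x))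
    (ht : ∀ i j, i ≠ j → Uni I (q j) (q i) (t i j) (U i ∩ U j))
    (hs : ∀ i j, i ≠ j → ∀ x ∈ U i, x ∈ U j → (t i j x)ᴴ = t j i x)
    (h3 : ∀ i j k, ∀ x ∈ U i, x ∈ U j → x ∈ U k → i = j ∨ j = k ∨ i = k) :
    Coc I (κ := fun _ => κ) U fun i j => if i = j then q i else t i j := by
  have iso : ∀ i j, ∀ x ∈ U i, x ∈ U j → PIso ((if i = j then q i else t i j) x) (q j x) (q i x) := by
    intro i j x hi hj
    split_ifs with h
    · subst h; exact (hq i x hi).2.refl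
    · exact (ht i j h).iso x ⟨hi, hj⟩
  have ct : ∀ i j, ∀ x ∈ U i, x ∈ U j →
      ((if i = j then q i else t i j) x)ᴴ = (if j = i then q j else t j i) x := by
    intro i j x hi hj
    by_cases h : i = j
    · subst h; simp only [if_true]; exact (hq i x hi).2.herm
    · rw [if_neg h, if_neg (Ne.symm h)]; exact hs i j h x hi hj
  refine ⟨hU, fun i j x hi hj => ?_, ct, fun i j k x hi hj hk => ?_⟩
  · split_ifs with h
    exacts [(hq i x hi).1, (ht i j h).sm x ⟨hi, hj⟩]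
  · rcases h3 i j k x hi hj hk with rfl | rfl | rfl
    · rw [if_pos rfl]; exact (iso i k x hi hk).left
    · rw [if_pos (rfl : j = j)]; exact (iso i j x hi hj).idem
    · rw [← ct i j x hi hj, if_pos (rfl : i = i)]; exact (iso i j x hi hj).tgt

variable [I.Boundaryless] [CompactSpace Z]

/-- an isometry on the core of a cylinder extends to a marking -/
theorem exists_mark {p : Z × ℝ → Matrix κ κ ℂ} (sp : ∀ z, MSm (I.prod 𝓘(ℝ, ℝ)) p z)
    (hp : ∀ z, Pic56.Rk1 (p z)) {q : Z → Matrix l l ℂ} {v : Z → Matrix l κ ℂ}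
    (hv : Uni I (fun y => p (y, 0)) q v univ) (R : ℝ) :
    ∃ m : Z × ℝ → Matrix l κ ℂ, (∀ z, MSm (I.prod 𝓘(ℝ, ℝ)) m z) ∧
      (∀ z : Z × ℝ, |z.2| ≤ R → PIso (m z) (p z) (q z.1)) ∧ (0 ≤ R → ∀ y, m (y, 0) = v y) := by
  obtain ⟨c, S, h1, h2, h3⟩ := Line51.exists_clamp R
  obtain ⟨u, hu⟩ := Line51.exists_uni_htpy sp hp h1 h2
  have s0 : ∀ z : Z × ℝ, ContMDiffAt (I.prod 𝓘(ℝ, ℝ)) (I.prod 𝓘(ℝ, ℝ)) ∞
      (fun z : Z × ℝ => (z.1, (0 : ℝ))) z := fun z => contMDiffAt_fst.prodMk contMDiffAt_const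
  by_cases hR : 0 ≤ R
  · have c0 : c 0 = 0 := h3 0 (by simpa using hR)
    have i0 : ∀ y, PIso (u (y, 0)) (p (y, 0)) (p (y, 0)) := fun y => by
      simpa only [c0] using hu.iso (y, 0) trivial
    refine ⟨fun z => v z.1 * u (z.1, 0) * (u z)ᴴ, fun z => (((hv.sm z.1 trivial).comp
      contMDiffAt_fst).mul ((hu.sm _ trivial).comp (s0 z))).mul (hu.sm z trivial).ct,
      fun z hz => ?_, fun _ y => ?_⟩
    · have := (hu.iso z trivial).symm
      rw [h3 _ hz] at this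
      exact this.trans ((i0 z.1).trans (hv.iso z.1 trivial))
    · show v y * u (y, 0) * (u (y, 0))ᴴ = v y
      rw [Matrix.mul_assoc, (i0 y).tgt, (hv.iso y trivial).idem]
  · exact ⟨0, fun _ => MSm.const _, fun z hz => absurd ((abs_nonneg _).trans hz) hR,
      fun h => absurd h hR⟩

end gen

variable {X X' : Mf 4} {A A' A₀ κ lam lam' : Type} [Fintype κ] [Fintype lam] [Fintype lam']

/-- the round sphere -/
theorem round_homeo {Y : Mf 3} [CompactSpace Y.M] {F : An.Fr Y.I Y.M κ} {θ : Y.M → V4}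
    (h : Round F θ) : ∃ e : Y.M ≃ₜ Metric.sphere (0 : V4) 1, ∀ y, (e y : V4) = θ y := by
  have e : ∀ y, θ y = (fun p : Y.M × ℝ => Real.exp p.2 • θ p.1) (y, 0) := fun y => by simp
  let f : Y.M → Metric.sphere (0 : V4) 1 := fun y => ⟨θ y, by simp [h.nrm]⟩
  have cθ : Continuous θ := by rw [funext e]; exact h.oe.continuous.comp (by fun_prop)
  have hf : Bijective f := ⟨fun y y' k => congrArg Prod.fst (h.oe.inj ((e y).symm.trans
    ((congrArg Subtype.val k).trans (e y')))),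
    fun v => (h.surj v (mem_sphere_zero_iff_norm.1 v.2)).imp fun _ k => Subtype.ext k⟩
  exact ⟨Continuous.homeoOfEquivCompactToT2 (f := Equiv.ofBijective f hf) (cθ.subtype_mk _),
    fun _ => rfl⟩

/-- lines on the round sphere are trivial -/
theorem uni_sphere {Y : Mf 3} [CompactSpace Y.M] {F : An.Fr Y.I Y.M κ} {θ : Y.M → V4}
    (h : Round F θ) {q : Y.M → Matrix lam lam ℂ} (sq : ∀ y, MSm Y.I q y)
    (hq : ∀ y, Pic56.Rk1 (q y)) {p₀ : Matrix lam' lam' ℂ} (h0 : Pic56.Rk1 p₀) :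
    ∃ v, Uni Y.I q (fun _ => p₀) v univ := by
  classical
  obtain ⟨g, -⟩ := round_homeo h
  have cq : Continuous q := continuous_iff_continuousAt.2 fun y => (sq y).continuousAt
  obtain ⟨s, hs⟩ := Pic56.frame_sphere (E := V4) (.inr (by simp))
    (Pic56.isLine_clm (cq.comp g.symm.continuous).continuousOn fun _ _ => hq _)
  obtain ⟨e, he, rfl⟩ := h0
  have e0 : e ≠ 0 := fun k => by simp [k] at he
  obtain ⟨u, hu⟩ := Pic56.exists_liso (I := Y.I) sq (fun _ => MSm.const _) hq (fun _ => ⟨e, he, rfl⟩)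
    (m := fun y => vecMulVec e (star (s (g y))))
    (Pic56.continuous_vmv ((continuousOn_univ.1 hs.cont).comp g.continuous)
      continuous_const)
    (fun y => Pic56.sand_vmv (hq y).herm (by simpa using hs.sec (g y) trivial)
      (by rw [Pic56.vmv_mulVec, he, one_smul]))
    fun y => Pic56.vmv_ne (hs.ne _ trivial) e0
  exact ⟨u, Line51.uni_of_liso hu fun y => (hq y).idem⟩

variable {M : Mark X A κ} {M' : Mark X' A' κ}

/-- the closed slab on which markings are isometric -/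
abbrev sl3 (M : Mark X A κ) (a : A) : Set X.M := (M.bn a).slab (Icc (-3) 3)

theorem mem_sl3 {a : A} {q : (M.bn a).Y.M × ℝ} : (M.bn a).j q ∈ sl3 M a ↔ |q.2| ≤ 3 :=
  (M.bn a).j_mem_slab.trans abs_le.symm

/-- the markings are smooth along the whole bands -/
def Smo (N : ML M lam) : Prop := ∀ a q, MSm (IC (M.bn a).Y.I) (N.m a) q

/-- the restriction of a line to the core of a band -/
def coreL (M : Mark X A κ) (p : X.M → Matrix lam lam ℂ) (a : A) :
    Ln (M.bn a).Y.E (M.bn a).Y.M lam := ⟨fun y => p ((M.bn a).j (y, 0)), 0⟩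

theorem on_zero {Z : Mf 3} {q : Z.M → Matrix lam lam ℂ} (sq : ∀ y, MSm Z.I q y)
    (hq : ∀ y, Prj (q y) ∧ (q y).trace = 1) : Ln.On Z.I ⟨q, 0⟩ univ :=
  ⟨fun y _ => sq y, fun y _ => (hq y).1, fun y _ => (hq y).2, fun _ _ => Dr59.cAt_zero,
    Dr59.Dg.zero⟩

section ex
variable {p : X.M → Matrix lam lam ℂ} (hp : Ln.On X.I ⟨p, 0⟩ univ)
include hp

theorem msm_core (a : A) (y : (M.bn a).Y.M) :
    MSm (M.bn a).Y.I (fun y => p ((M.bn a).j (y, 0))) y :=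
  (hp.sm _ trivial).comp (((M.bn a).oe.contMDiff _).comp y (contMDiffAt_id.prodMk contMDiffAt_const))

theorem coreL_on (a : A) : (coreL M p a).On (M.bn a).Y.I univ :=
  on_zero (msm_core hp a) fun _ => ⟨hp.prj _ trivial, hp.tr _ trivial⟩

theorem uni_coreL (a : A) : Uni (M.bn a).Y.I (fun y => p ((M.bn a).j (y, 0))) (coreL M p a).p
    (fun y => p ((M.bn a).j (y, 0))) univ :=
  ⟨fun y _ => msm_core hp a y, fun _ _ => (hp.prj _ trivial).refl⟩

theorem uni_pin {a : A} (h : M.pin a) {p₀ : Matrix lam' lam' ℂ} (h0 : Pic56.Rk1 p₀) :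
    ∃ v, Uni (M.bn a).Y.I (fun y => p ((M.bn a).j (y, 0))) (fun _ => p₀) v univ :=
  uni_sphere (M.rnd a h) (msm_core hp a) (fun _ => hp.rk1 trivial) h0

theorem exists_mark_band (a : A) {q : (M.bn a).Y.M → Matrix lam' lam' ℂ}
    {v : (M.bn a).Y.M → Matrix lam' lam ℂ}
    (hv : Uni (M.bn a).Y.I (fun y => p ((M.bn a).j (y, 0))) q v univ) (R : ℝ) :
    ∃ m : (M.bn a).Y.M × ℝ → Matrix lam' lam ℂ, (∀ z, MSm (IC (M.bn a).Y.I) m z) ∧
      (∀ z : (M.bn a).Y.M × ℝ, |z.2| ≤ R → PIso (m z) (p ((M.bn a).j z)) (q z.1)) ∧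
      (0 ≤ R → ∀ y, m (y, 0) = v y) :=
  exists_mark (p := fun z => p ((M.bn a).j z))
    (fun z => (hp.sm _ trivial).comp ((M.bn a).oe.contMDiff z)) (fun _ => hp.rk1 trivial) hv R

/-- **marked lines with prescribed lines and isometries on the cores** -/
theorem exists_ml (LY : ∀ a, Ln (M.bn a).Y.E (M.bn a).Y.M lam)
    (okY : ∀ a, (LY a).On (M.bn a).Y.I univ) (cst : ∀ a, M.pin a → ∃ p₀, LY a = ⟨fun _ => p₀, 0⟩)
    {v : ∀ a, (M.bn a).Y.M → Matrix lam lam ℂ}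
    (hv : ∀ a, Uni (M.bn a).Y.I (fun y => p ((M.bn a).j (y, 0))) (LY a).p (v a) univ) :
    ∃ N : ML M lam, N.p = p ∧ N.LY = LY ∧ Smo N ∧ ∀ a y, N.m a (y, 0) = v a y := by
  choose m h1 h2 h3 using fun a => exists_mark_band hp a (hv a) 3
  exact ⟨⟨p, hp, LY, okY, cst, m, fun a => ⟨fun q _ => h1 a q, h2 a⟩⟩, rfl, rfl, h1,
    fun a => h3 a (by norm_num)⟩

/-- only the cylindrical walls need data -/
theorem exists_ml' {p₀ : Matrix lam lam ℂ} (h0 : Pic56.Rk1 p₀)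
    (LY : ∀ a, Ln (M.bn a).Y.E (M.bn a).Y.M lam)
    (okY : ∀ a, ¬M.pin a → (LY a).On (M.bn a).Y.I univ)
    {v : ∀ a, (M.bn a).Y.M → Matrix lam lam ℂ}
    (hv : ∀ a, ¬M.pin a → Uni (M.bn a).Y.I (fun y => p ((M.bn a).j (y, 0))) (LY a).p (v a) univ) :
    ∃ N : ML M lam, N.p = p ∧ (∀ a, M.pin a → N.LY a = ⟨fun _ => p₀, 0⟩) ∧
      (∀ a, ¬M.pin a → N.LY a = LY a ∧ ∀ y, N.m a (y, 0) = v a y) ∧ Smo N := by
  classical
  choose v' hv' using fun (a : A) (h : M.pin a) => uni_pin hp h h0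
  obtain ⟨N, h1, h2, h3, h4⟩ := exists_ml hp (fun a => if M.pin a then ⟨fun _ => p₀, 0⟩ else LY a)
    (fun a => by
      split_ifs with h
      exacts [on_zero (fun _ => MSm.const _) fun _ => ⟨⟨h0.herm, h0.idem⟩, h0.trace_eq⟩, okY a h])
    (fun a h => ⟨p₀, if_pos h⟩) (v := fun a => if h : M.pin a then v' a h else v a) fun a => by
      split_ifs with h
      exacts [hv' a h, hv a h]
  exact ⟨N, h1, fun a h => by rw [h2]; exact if_pos h,
    fun a h => ⟨by rw [h2]; exact if_neg h, fun y => by rw [h4, dif_neg h]⟩, h3⟩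

/-- every line can be marked -/
theorem exists_ml₀ : ∃ N : ML M lam, N.p = p ∧ Smo N := by
  have := M.con
  obtain ⟨N, h1, -, -, h2⟩ := exists_ml' (M := M) hp (hp.rk1 (mem_univ (Classical.arbitrary X.M)))
    (coreL M p) (fun a _ => coreL_on hp a) fun a _ => uni_coreL hp a
  exact ⟨N, h1, h2⟩

end ex

/-! ### markings as functions on `X` -/

/-- the marking of the band `a` as a function on `X` -/
def mX (N : ML M lam) (a : A) : X.M → Matrix lam lam ℂ := extend (M.bn a).j (N.m a) 0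

theorem mX_j (N : ML M lam) (a : A) (q : (M.bn a).Y.M × ℝ) : mX N a ((M.bn a).j q) = N.m a q :=
  (M.bn a).oe.inj.extend_apply _ _ q

theorem msm_mX {N : ML M lam} {a : A} {q : (M.bn a).Y.M × ℝ}
    (h : MSm (IC (M.bn a).Y.I) (N.m a) q) : MSm X.I (mX N a) ((M.bn a).j q) :=
  MSm.extend (M.bn a).oe.inj ((M.bn a).oe.loc q) h _

section id
variable (N' : ML M' lam) (I : MId M M' A₀)

theorem mX_ψ (b : A₀) (q : (M.bn (I.f b)).Y.M × ℝ) :
    mX N' (I.f' b) (I.ψ ((M.bn (I.f b)).j q)) = N'.m (I.f' b) (I.g b q.1, q.2) := by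
  rw [I.jj, mX_j]

theorem sm_ψ {x : X.M} (hx : x ∈ I.ψ.source) : ContMDiffAt X.I X'.I ∞ I.ψ x :=
  I.ψ.contMDiffOn_toFun.contMDiffAt (I.ψ.open_source.mem_nhds hx)

theorem msm_mX_ψ (b : A₀) {q : (M.bn (I.f b)).Y.M × ℝ}
    (h : MSm (IC (M'.bn (I.f' b)).Y.I) (N'.m (I.f' b)) (I.g b q.1, q.2)) :
    MSm X.I (fun x => mX N' (I.f' b) (I.ψ x)) ((M.bn (I.f b)).j q) :=
  MSm.comp (by rw [I.jj]; exact msm_mX h) (sm_ψ I (I.sub b ⟨q, rfl⟩))

theorem piso_mX_ψ (b : A₀) {q : (M.bn (I.f b)).Y.M × ℝ} (h : |q.2| ≤ 3) :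
    PIso (mX N' (I.f' b) (I.ψ ((M.bn (I.f b)).j q))) (N'.p (I.ψ ((M.bn (I.f b)).j q)))
      ((N'.LY (I.f' b)).p (I.g b q.1)) := by
  rw [mX_ψ, I.jj]; exact (N'.um _).iso (I.g b q.1, q.2) h

theorem msm_p_ψ {x : X.M} (hx : x ∈ I.ψ.source) : MSm X.I (fun x => N'.p (I.ψ x)) x :=
  (N'.ok.sm _ trivial).comp (sm_ψ I hx)

variable {N' I} {N : ML M lam} {V : Set X.M} {w : X.M → Matrix lam lam ℂ}

theorem LId.mX (h : LId N N' I V w) (b : A₀) {x : X.M} (hx : x ∈ sl3 M (I.f b)) (hV : x ∈ V) :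
    mX N' (I.f' b) (I.ψ x) * w x = mX N (I.f b) x := by
  obtain ⟨q, hq, rfl⟩ := hx
  rw [mX_ψ, mX_j]
  exact h.m b q (abs_le.2 hq.2) hV

theorem lid_of_mX (op : IsOpen V) (sub : V ⊆ I.ψ.source)
    (uni : Uni X.I N.p (fun x => N'.p (I.ψ x)) w V)
    (LY : ∀ b, (N'.LY (I.f' b)).pull (M.bn (I.f b)).Y.I (M'.bn (I.f' b)).Y.I (I.g b) = N.LY (I.f b))
    (h : ∀ b, ∀ x ∈ sl3 M (I.f b), x ∈ V → mX N' (I.f' b) (I.ψ x) * w x = mX N (I.f b) x) :
    LId N N' I V w :=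
  ⟨op, sub, uni, LY, fun b q hq hV => by
    have := h b _ (mem_sl3.2 hq) hV
    rwa [mX_ψ, mX_j] at this⟩

theorem LId.mono (h : LId N N' I V w) {V' : Set X.M} (op : IsOpen V') (hs : V' ⊆ V) :
    LId N N' I V' w :=
  ⟨op, hs.trans h.sub, h.uni.mono hs, h.LY, fun a q hq hV => h.m a q hq (hs hV)⟩

end id

/-! ### markings from identifications -/

section fam
variable {K : Type} [Finite K] {Xk : K → Mf 4} {Ak A₀ : K → Type} [∀ k, Finite (A₀ k)]
  {Mk : ∀ k, Mark (Xk k) (Ak k) κ} (Nk : ∀ k, ML (Mk k) lam) (I : ∀ k, MId M (Mk k) (A₀ k))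
  {V : K → Set X.M}

/-- the identifications `w k` induce the same markings -/
def Cpt (V : K → Set X.M) (w : K → X.M → Matrix lam lam ℂ) : Prop :=
  ∀ k l b c, (I k).f b = (I l).f c → ∀ x ∈ sl3 M ((I k).f b), x ∈ V k → x ∈ V l →
    mX (Nk k) ((I k).f' b) ((I k).ψ x) * w k x = mX (Nk l) ((I l).f' c) ((I l).ψ x) * w l x

/-- **a marked line from finitely many identifications**: every wall is covered or free -/
theorem exists_ml_lid (hV : ∀ k, IsOpen (V k)) (hs : ∀ k, V k ⊆ (I k).ψ.source)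
    {p : X.M → Matrix lam lam ℂ} (hp : Ln.On X.I ⟨p, 0⟩ univ) {w : K → X.M → Matrix lam lam ℂ}
    (hw : ∀ k, Uni X.I p (fun x => (Nk k).p ((I k).ψ x)) (w k) (V k)) (hc : Cpt Nk I V w)
    (LY : ∀ a, Ln (M.bn a).Y.E (M.bn a).Y.M lam) (okY : ∀ a, (LY a).On (M.bn a).Y.I univ)
    (cst : ∀ a, M.pin a → ∃ p₀, LY a = ⟨fun _ => p₀, 0⟩)
    (hL : ∀ k b, ((Nk k).LY ((I k).f' b)).pull (M.bn ((I k).f b)).Y.I ((Mk k).bn ((I k).f' b)).Y.I
      ((I k).g b) = LY ((I k).f b))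
    (h : ∀ a, (∀ x ∈ sl3 M a, ∃ k b, (I k).f b = a ∧ x ∈ V k) ∨
      ((∀ k b, (I k).f b = a → Disjoint (sl3 M a) (V k)) ∧
        ∃ v, Uni (M.bn a).Y.I (fun y => p ((M.bn a).j (y, 0))) (LY a).p v univ)) :
    ∃ N : ML M lam, N.p = p ∧ N.LY = LY ∧ (∀ k, LId N (Nk k) (I k) (V k) (w k)) ∧
      ((∀ k, Smo (Nk k)) → Smo N) := by
  have := M.cpt
  have key : ∀ a, ∃ m : (M.bn a).Y.M × ℝ → Matrix lam lam ℂ,
      Uni (IC (M.bn a).Y.I) (fun q => p ((M.bn a).j q)) (fun q => (LY a).p q.1) m {q | |q.2| ≤ 3} ∧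
      (∀ k b, (I k).f b = a → ∀ q, |q.2| ≤ 3 → (M.bn a).j q ∈ V k →
        mX (Nk k) ((I k).f' b) ((I k).ψ ((M.bn a).j q)) * w k ((M.bn a).j q) = m q) ∧
      ((∀ k, Smo (Nk k)) → ∀ q, MSm (IC (M.bn a).Y.I) m q) := by
    intro a
    rcases h a with h | ⟨h, v, hv⟩
    · obtain ⟨t, t1, t2⟩ := exists_patch_closed (I := X.I)
        (ι := {i : Σ k, A₀ k // (I i.1).f i.2 = a}) (C := sl3 M a)
        ((M.bn a).isCompact_slab isCompact_Icc).isClosed (U := fun i => V i.1.1) (fun i => hV _)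
        (fun x hx => let ⟨k, b, e, hk⟩ := h x hx; mem_iUnion.2 ⟨⟨⟨k, b⟩, e⟩, hk⟩)
        (fun i x => mX (Nk i.1.1) ((I i.1.1).f' i.1.2) ((I i.1.1).ψ x) * w i.1.1 x)
        fun i j x hx hi hj => hc _ _ _ _ (i.2.trans j.2.symm) x (i.2.symm ▸ hx) hi hj
      have sm : ∀ q, (|q.2| ≤ 3 ∨ ∀ k, Smo (Nk k)) →
          MSm (IC (M.bn a).Y.I) (fun q => t ((M.bn a).j q)) q := fun q hq =>
        MSm.comp (t1 _ <| by
          rintro ⟨⟨k, b⟩, rfl⟩ hk
          exact (msm_mX_ψ (Nk k) (I k) b (hq.elim (((Nk k).um _).sm (_, q.2)) fun s => s k _ _)).mul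
            ((hw k).sm _ hk)) ((M.bn a).oe.contMDiff q)
      refine ⟨fun q => t ((M.bn a).j q), ⟨fun q hq => sm q (.inl hq), fun q hq => ?_⟩,
        fun k b e q hq hk => (t2 _ (mem_sl3.2 hq) ⟨⟨k, b⟩, e⟩ hk).symm, fun s q => sm q (.inr s)⟩
      obtain ⟨k, b, rfl, hk⟩ := h _ (mem_sl3.2 hq)
      rw [t2 _ (mem_sl3.2 hq) ⟨⟨k, b⟩, rfl⟩ hk, ← hL k b]
      exact ((hw k).iso _ hk).trans (piso_mX_ψ (Nk k) (I k) b hq)
    · obtain ⟨m, h1, h2, -⟩ := exists_mark_band hp a hv 3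
      exact ⟨m, ⟨fun q _ => h1 q, h2⟩,
        fun k b e q hq hk => (disjoint_left.1 (h k b e) (mem_sl3.2 hq) hk).elim, fun _ => h1⟩
  choose m h1 h2 h3 using key
  exact ⟨⟨p, hp, LY, okY, cst, m, h1⟩, rfl, rfl, fun k => ⟨hV k, hs k, hw k, hL k,
    fun b q hq hk => by rw [← mX_ψ]; exact h2 _ k b rfl q hq hk⟩, fun s a => h3 a s⟩

end fam

/-- gluing local lines to a line with the index set `lam` -/
theorem exists_line_coc (ms : Ms2Stmt) (e : Fin 3 ↪ lam) {K : Type} [Fintype K] {V : K → Set X.M}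
    (hc : ∀ x, ∃ k, x ∈ V k) {u : K → K → X.M → Matrix lam lam ℂ}
    (h : Coc X.I (κ := fun _ => lam) V u) (tr : ∀ k, ∀ x ∈ V k, (u k k x).trace = 1) :
    ∃ (p : X.M → Matrix lam lam ℂ) (w : K → X.M → Matrix lam lam ℂ), Ln.On X.I ⟨p, 0⟩ univ ∧
      (∀ k, Uni X.I p (u k k) (w k) (V k)) ∧
      ∀ k l, ∀ x ∈ V k, x ∈ V l → u k l x * w l x = w k x := by
  classical
  have : LocallyCompactSpace X.H := X.I.locallyCompactSpace
  have : LocallyCompactSpace X.M := ChartedSpace.locallyCompactSpace X.H X.M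
  obtain ⟨P, a, h1, h2, h3, -⟩ := exists_glue h hc
  have oP : Ln.On X.I ⟨P, 0⟩ univ := ⟨fun x _ => (h1 x).1, fun x _ => (h1 x).2,
    fun x _ => let ⟨k, hk⟩ := hc x; (h2 k x hk).2.trace_eq.symm.trans (tr k x hk),
    fun _ _ => Dr59.cAt_zero, Dr59.Dg.zero⟩
  obtain ⟨q, b, hb⟩ := ms X _ P oP
  have oq : Ln.On X.I ⟨q, 0⟩ univ := ⟨fun x _ => ((hb.sm x trivial).mul (hb.sm x trivial).ct).congr
      (.of_forall fun y => (hb.iso y trivial).tgt.symm), fun x _ => (hb.iso x trivial).prj_tgt,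
    fun x _ => (hb.iso x trivial).trace_eq.symm.trans (oP.tr x trivial),
    fun _ _ => Dr59.cAt_zero, Dr59.Dg.zero⟩
  have he := Line51.em_iso e.injective
  have hu := hb.trans (oq.iso_cj isOpen_univ he).toUni
  refine ⟨_, fun k x => (a k x)ᴴ * (em e * q x * b x)ᴴ, oq.cj isOpen_univ he,
    fun k => (hu.symm.mono (subset_univ _)).trans
      (Uni.symm ⟨fun x hx => (h2 k x hx).1, fun x hx => (h2 k x hx).2⟩), fun k l x hk hl => ?_⟩
  beta_reduce
  rw [← Matrix.mul_assoc, ← (h3 l k x hl hk).2, conjTranspose_mul (a l x), h.ct l k x hl hk]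

end

end Crest.Agent.X212.Pj41
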