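import Crest.Agent.X212.Taub88.Tb
import Crest.Agent.X212.Pj41.Can

/-!
# X212 / TAUB (helper41): the leaves `ISO0` and `CAN0` as stated in `Taub88/Tb`
-/

set_option autoImplicit false
set_option linter.unusedSectionVars false

open scoped ContDiff Manifold

namespace Crest.Agent.X212.Pj41

open An

variable {E : Type} [NormedAddCommGroup E] [NormedSpace ℝ E] [FiniteDimensional ℝ E]
  [MeasurableSpace E] [BorelSpace E]
  {HM : Type} [TopologicalSpace HM] {I : ModelWithCorners ℝ E HM}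
  {M : Type} [TopologicalSpace M] [ChartedSpace HM M] [IsManifold I ∞ M]
  [MeasurableSpace M] {ι : Type} [Fintype ι] {lam : Type} [Fintype lam]

/-- **ISO0** -/
theorem isoStmt : Taub88.IsoStmt I M ι lam := fun _ _ _ _ _ _ _ hB T _ H H' h h' =>
  pure_iso hB T.cx T.sd H H' (fun x hx => ⟨h.sm x hx, h.one x hx, h.Q x hx⟩)
    fun x hx => ⟨h'.sm x hx, h'.one x hx, h'.Q x hx⟩

/-- **CAN0** -/
theorem canStmt [T2Space M] [CompactSpace M] : Taub88.CanStmt I M ι lam := fun _ _ hB T =>
  let ⟨m, u, a, b⟩ := pure_can hB T.cx T.sd T.sm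
  ⟨m, u, a, fun x hx => (b x hx).1, fun x hx => (b x hx).2.1, fun x hx => (b x hx).2.2⟩

end Crest.Agent.X212.Pj41
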