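import Crest.Agent.X212.Pj41.Iso

/-!
# X212 / PROJ (helper41), file Gl: gluing of projector bundles

* `Coc I U u` : a smooth unitary cocycle `u i j : p j → p i` (`p i = u i i`) on the opens `U i`;
* `exists_glue` : a global projector `P` in `⊕ 𝕜^(κ i)` with isomorphisms `a i : p i → P` over `U i`,
  `(a i)ᴴ a j = u i j`, intertwining all constant block diagonal matrices which commute with `u`;
* `exists_glue_two` : two pieces; `exists_patch` : compatible local fields patch;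
* `exists_smooth_iso` : a continuous isomorphism can be replaced by a smooth one (relative form).
-/

set_option autoImplicit false
set_option linter.unusedSectionVars false

open Set Function Filter Topology Matrix
open scoped ContDiff Manifold ComplexOrder MatrixOrder

namespace Crest.Agent.X212.Pj41

noncomputable section

variable {𝕜 : Type*} [RCLike 𝕜]
variable {E H : Type*} [NormedAddCommGroup E] [NormedSpace ℝ E] [TopologicalSpace H]
  {I : ModelWithCorners ℝ E H} {M : Type*} [TopologicalSpace M] [ChartedSpace H M]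

/-! ### patching of functions -/

theorem exists_patch {ι α : Type*} {U : ι → Set M} (hU : ∀ i, IsOpen (U i))
    (hc : ∀ x, ∃ i, x ∈ U i) (s : ι → M → α) (h : ∀ i j, ∀ x ∈ U i, x ∈ U j → s i x = s j x) :
    ∃ t : M → α, ∀ i, ∀ x ∈ U i, t =ᶠ[𝓝 x] s i := by
  choose c hc using hc
  exact ⟨fun x => s (c x) x, fun i x hx =>
    ((hU i).eventually_mem hx).mono fun y hy => h _ _ y (hc y) hy⟩

theorem exists_patch_sm {ι κ l : Type*} {U : ι → Set M} (hU : ∀ i, IsOpen (U i))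
    (hc : ∀ x, ∃ i, x ∈ U i) (s : ι → M → Matrix κ l 𝕜) (hs : ∀ i, ∀ x ∈ U i, MSm I (s i) x)
    (h : ∀ i j, ∀ x ∈ U i, x ∈ U j → s i x = s j x) :
    ∃ t : M → Matrix κ l 𝕜, (∀ x, MSm I t x) ∧ ∀ i, ∀ x ∈ U i, t x = s i x := by
  obtain ⟨t, ht⟩ := exists_patch hU hc s h
  refine ⟨t, fun x => ?_, fun i x hx => (ht i x hx).eq_of_nhds⟩
  obtain ⟨i, hi⟩ := hc x
  exact (hs i x hi).congr (ht i x hi)

/-! ### cocycles -/

section Coc

variable {ι : Type*} [Fintype ι] {κ : ι → Type*} [∀ i, Fintype (κ i)]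

variable (I) in
/-- a square partition of unity subordinate to `U` -/
structure SqP (U : ι → Set M) (χ : ι → M → ℝ) : Prop where
  sm : ∀ i x, FSm I (χ i) x
  supp : ∀ i, tsupport (χ i) ⊆ U i
  nonneg : ∀ i x, 0 ≤ χ i x
  sq : ∀ x, ∑ i, χ i x ^ 2 = 1

theorem exists_sqP [FiniteDimensional ℝ E] [IsManifold I ∞ M] [T2Space M] [SigmaCompactSpace M]
    {U : ι → Set M} (hU : ∀ i, IsOpen (U i)) (hc : ∀ x, ∃ i, x ∈ U i) :
    ∃ χ : ι → M → ℝ, SqP I U χ := by
  obtain ⟨f, hf⟩ := SmoothPartitionOfUnity.exists_isSubordinate I isClosed_univ U hU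
    (fun x _ => mem_iUnion.2 (hc x))
  have hpos : ∀ x, 0 < ∑ i, f i x ^ 2 := fun x => by
    obtain ⟨i, hi⟩ := f.exists_pos_of_mem (mem_univ x)
    exact Finset.sum_pos' (fun j _ => sq_nonneg _) ⟨i, Finset.mem_univ _, pow_pos hi 2⟩
  have hs : ∀ x, FSm I (fun y => ∑ i, f i y ^ 2) x := fun x =>
    FSm.sum' fun i _ => (contDiff_id.pow 2).contDiffAt.comp_contMDiffAt ((f i).contMDiff x)
  refine ⟨fun i x => f i x * (√(∑ j, f j x ^ 2))⁻¹, fun i x => ?_, fun i => ?_, fun i x => ?_,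
    fun x => ?_⟩
  · refine FSm.mul' (𝕜 := ℝ) ((f i).contMDiff x) (FSm.inv' (𝕜 := ℝ) ?_ (Real.sqrt_pos.2 (hpos x)).ne')
    exact (Real.contDiffAt_sqrt (hpos x).ne').comp_contMDiffAt (f := fun y => ∑ i, f i y ^ 2) (hs x)
  · exact (closure_mono (support_mul_subset_left _ _)).trans (hf i)
  · exact mul_nonneg (f.nonneg i x) (by positivity)
  · simp only [mul_pow, ← Finset.sum_mul, inv_pow, Real.sq_sqrt (hpos x).le]
    exact mul_inv_cancel₀ (hpos x).ne'

variable (I) in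
/-- a smooth unitary cocycle; the local bundles are `p i = u i i` -/
structure Coc (U : ι → Set M) (u : ∀ i j, M → Matrix (κ i) (κ j) 𝕜) : Prop where
  op : ∀ i, IsOpen (U i)
  sm : ∀ i j, ∀ x ∈ U i, x ∈ U j → MSm I (u i j) x
  ct : ∀ i j, ∀ x ∈ U i, x ∈ U j → (u i j x)ᴴ = u j i x
  mul : ∀ i j k, ∀ x ∈ U i, x ∈ U j → x ∈ U k → u i j x * u j k x = u i k x

variable {U : ι → Set M} {u : ∀ i j, M → Matrix (κ i) (κ j) 𝕜} {χ : ι → M → ℝ}

theorem Coc.piso (h : Coc I U u) {i j : ι} {x : M} (hi : x ∈ U i) (hj : x ∈ U j) :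
    PIso (u i j x) (u j j x) (u i i x) :=
  ⟨by rw [h.ct i j x hi hj, h.mul j i j x hj hi hj],
   by rw [h.ct i j x hi hj, h.mul i j i x hi hj hi], h.mul i j j x hi hj hj⟩

/-- the local isomorphisms into the glued bundle -/
def glA (χ : ι → M → ℝ) (u : ∀ i j, M → Matrix (κ i) (κ j) 𝕜) (i : ι) (x : M) :
    Matrix (Σ j, κ j) (κ i) 𝕜 := fun b c => (χ b.1 x • u b.1 i x) b.2 c

/-- the glued projector -/
def glP (χ : ι → M → ℝ) (u : ∀ i j, M → Matrix (κ i) (κ j) 𝕜) (x : M) :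
    Matrix (Σ j, κ j) (Σ j, κ j) 𝕜 := fun b c => ((χ b.1 x * χ c.1 x) • u b.1 c.1 x) b.2 c.2

theorem SqP.mem (hχ : SqP I U χ) {i : ι} {x : M} (h : χ i x ≠ 0) : x ∈ U i :=
  hχ.supp i (subset_tsupport _ h)

theorem glA_sm (h : Coc I U u) (hχ : SqP I U χ) {i : ι} {x : M} (hx : x ∈ U i) :
    MSm I (glA χ u i) x := fun b c =>
  MSm.cutoff (hχ.sm b.1 x) (hχ.supp b.1) (fun hb => h.sm b.1 i x hb hx) b.2 c

theorem glP_sm (h : Coc I U u) (hχ : SqP I U χ) (x : M) : MSm I (glP χ u) x := fun b c =>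
  MSm.cutoff (χ := fun y => χ b.1 y * χ c.1 y) (U := U b.1 ∩ U c.1)
    (FSm.mul' (𝕜 := ℝ) (hχ.sm b.1 x) (hχ.sm c.1 x))
    (subset_inter ((closure_mono (support_mul_subset_left _ _)).trans (hχ.supp b.1))
      ((closure_mono (support_mul_subset_right _ _)).trans (hχ.supp c.1)))
    (fun hb => h.sm b.1 c.1 x hb.1 hb.2) b.2 c.2

theorem glA_ct_mul (h : Coc I U u) (hχ : SqP I U χ) {i k : ι} {x : M} (hi : x ∈ U i)
    (hk : x ∈ U k) : (glA χ u i x)ᴴ * glA χ u k x = u i k x := by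
  have h1 : (glA χ u i x)ᴴ * glA χ u k x = ∑ j, (χ j x • u j i x)ᴴ * (χ j x • u j k x) := by
    ext b c
    simp only [Matrix.mul_apply, Matrix.sum_apply, Fintype.sum_sigma, Matrix.conjTranspose_apply,
      glA]
  have h2 : ∀ j, (χ j x • u j i x)ᴴ * (χ j x • u j k x) = χ j x ^ 2 • u i k x := fun j => by
    by_cases hj : χ j x = 0
    · simp [hj]
    · rw [Matrix.conjTranspose_smul, h.ct j i x (hχ.mem hj) hi, star_trivial, Matrix.smul_mul,
        Matrix.mul_smul, h.mul i j k x hi (hχ.mem hj) hk, smul_smul, sq]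
  rw [h1, Finset.sum_congr rfl fun j _ => h2 j, ← Finset.sum_smul, hχ.sq, one_smul]

theorem glA_mul (h : Coc I U u) (hχ : SqP I U χ) {i k : ι} {x : M} (hi : x ∈ U i)
    (hk : x ∈ U k) : glA χ u i x * u i k x = glA χ u k x := by
  ext b c
  have : (χ b.1 x • u b.1 i x) * u i k x = χ b.1 x • u b.1 k x := by
    by_cases hj : χ b.1 x = 0
    · simp [hj]
    · rw [Matrix.smul_mul, h.mul _ i k x (hχ.mem hj) hi hk]
  exact congrFun (congrFun this b.2) c

theorem glA_mul_ct (h : Coc I U u) (hχ : SqP I U χ) {i : ι} {x : M} (hi : x ∈ U i) :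
    glA χ u i x * (glA χ u i x)ᴴ = glP χ u x := by
  ext b c
  have : (χ b.1 x • u b.1 i x) * (χ c.1 x • u c.1 i x)ᴴ = (χ b.1 x * χ c.1 x) • u b.1 c.1 x := by
    by_cases hb : χ b.1 x = 0
    · simp [hb]
    by_cases hc : χ c.1 x = 0
    · simp [hc]
    rw [Matrix.conjTranspose_smul, h.ct _ i x (hχ.mem hc) hi, star_trivial, Matrix.smul_mul,
      Matrix.mul_smul, h.mul _ i _ x (hχ.mem hb) hi (hχ.mem hc), smul_smul]
  exact congrFun (congrFun this b.2) c.2

theorem glA_piso (h : Coc I U u) (hχ : SqP I U χ) {i : ι} {x : M} (hi : x ∈ U i) :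
    PIso (glA χ u i x) (u i i x) (glP χ u x) :=
  ⟨glA_ct_mul h hχ hi hi, glA_mul_ct h hχ hi, glA_mul h hχ hi hi⟩

theorem glA_block [DecidableEq ι] (hχ : SqP I U χ) (J : ∀ i, Matrix (κ i) (κ i) 𝕜)
    (hJ : ∀ i j, ∀ x ∈ U i, x ∈ U j → J i * u i j x = u i j x * J j) {i : ι} {x : M}
    (hi : x ∈ U i) : Matrix.blockDiagonal' J * glA χ u i x = glA χ u i x * J i := by
  ext b c
  have h1 : J b.1 * (χ b.1 x • u b.1 i x) = (χ b.1 x • u b.1 i x) * J i := by
    by_cases hj : χ b.1 x = 0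
    · simp [hj]
    · rw [Matrix.smul_mul, Matrix.mul_smul, hJ _ i x (hχ.mem hj) hi]
  have h2 : (Matrix.blockDiagonal' J * glA χ u i x) b c = (J b.1 * (χ b.1 x • u b.1 i x)) b.2 c := by
    obtain ⟨j, b⟩ := b
    simp only [Matrix.mul_apply, Fintype.sum_sigma]
    rw [Finset.sum_eq_single j]
    · simp only [Matrix.blockDiagonal'_apply_eq, glA]
    · intro k _ hk
      simp [Matrix.blockDiagonal'_apply_ne _ _ _ (Ne.symm hk)]
    · simp
  rw [h2, h1]
  rfl

/-- **gluing of bundles along a cocycle** -/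
theorem exists_glue [DecidableEq ι] [FiniteDimensional ℝ E] [IsManifold I ∞ M] [T2Space M]
    [SigmaCompactSpace M] (h : Coc I U u) (hc : ∀ x, ∃ i, x ∈ U i) :
    ∃ (P : M → Matrix (Σ j, κ j) (Σ j, κ j) 𝕜) (a : ∀ i, M → Matrix (Σ j, κ j) (κ i) 𝕜),
      (∀ x, MSm I P x ∧ Prj (P x)) ∧
      (∀ i, ∀ x ∈ U i, MSm I (a i) x ∧ PIso (a i x) (u i i x) (P x)) ∧
      (∀ i j, ∀ x ∈ U i, x ∈ U j → (a i x)ᴴ * a j x = u i j x ∧ a i x * u i j x = a j x) ∧
      ∀ J : ∀ i, Matrix (κ i) (κ i) 𝕜, (∀ i j, ∀ x ∈ U i, x ∈ U j → J i * u i j x = u i j x * J j) →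
        ∀ i, ∀ x ∈ U i, Matrix.blockDiagonal' J * a i x = a i x * J i := by
  obtain ⟨χ, hχ⟩ := exists_sqP (I := I) h.op hc
  refine ⟨glP χ u, glA χ u, fun x => ⟨glP_sm h hχ x, ?_⟩,
    fun i x hx => ⟨glA_sm h hχ hx, glA_piso h hχ hx⟩,
    fun i j x hi hj => ⟨glA_ct_mul h hχ hi hj, glA_mul h hχ hi hj⟩,
    fun J hJ i x hx => glA_block hχ J hJ hx⟩
  obtain ⟨i, hi⟩ := hc x
  exact (glA_piso h hχ hi).prj_tgt

/-- compatible local homomorphism fields between two glued bundles patch -/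
theorem exists_glue_hom {κ' : ι → Type*} [∀ i, Fintype (κ' i)] {K K' : Type*} [Fintype K]
    [Fintype K'] (hU : ∀ i, IsOpen (U i)) (hc : ∀ x, ∃ i, x ∈ U i)
    {a : ∀ i, M → Matrix K (κ i) 𝕜} {a' : ∀ i, M → Matrix K' (κ' i) 𝕜}
    {P : M → Matrix K K 𝕜} {P' : M → Matrix K' K' 𝕜} {p : ∀ i, M → Matrix (κ i) (κ i) 𝕜}
    {p' : ∀ i, M → Matrix (κ' i) (κ' i) 𝕜}
    (ha : ∀ i, ∀ x ∈ U i, MSm I (a i) x ∧ PIso (a i x) (p i x) (P x))
    (ha' : ∀ i, ∀ x ∈ U i, MSm I (a' i) x ∧ PIso (a' i x) (p' i x) (P' x))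
    (r : ∀ i, M → Matrix (κ' i) (κ i) 𝕜) (hr : ∀ i, ∀ x ∈ U i, MSm I (r i) x)
    (h : ∀ i j, ∀ x ∈ U i, x ∈ U j →
      (a' j x)ᴴ * a' i x * r i x = r j x * ((a j x)ᴴ * a i x)) :
    ∃ R : M → Matrix K' K 𝕜, (∀ x, MSm I R x) ∧
      ∀ i, ∀ x ∈ U i, R x = a' i x * r i x * (a i x)ᴴ := by
  refine exists_patch_sm hU hc (fun i x => a' i x * r i x * (a i x)ᴴ)
    (fun i x hx => ((ha' i x hx).1.mul (hr i x hx)).mul (ha i x hx).1.ct) fun i j x hi hj => ?_
  have h1 := (ha i x hi).2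
  have h2 := (ha j x hj).2
  have h3 := (ha' i x hi).2
  have h4 := (ha' j x hj).2
  calc a' i x * r i x * (a i x)ᴴ = a' j x * ((a' j x)ᴴ * a' i x * r i x) * (a i x)ᴴ := by
        rw [← Matrix.mul_assoc, ← Matrix.mul_assoc, h4.tgt, h3.left]
    _ = a' j x * r j x * (a j x)ᴴ := by
        rw [h i j x hi hj]
        simp only [Matrix.mul_assoc]
        rw [h1.tgt, h2.ct_right]

end Coc

/-! ### two pieces -/

section Two

variable {κ l : Type*} [Fintype κ] [Fintype l]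

theorem rows_ct_mul {k k' : Type*} (r t : ℝ) (A : Matrix κ k 𝕜)
    (B : Matrix l k 𝕜) (A' : Matrix κ k' 𝕜) (B' : Matrix l k' 𝕜) :
    (Matrix.fromRows (r • A) (t • B))ᴴ * Matrix.fromRows (r • A') (t • B') =
      (r * r) • (Aᴴ * A') + (t * t) • (Bᴴ * B') := by
  rw [Matrix.conjTranspose_fromRows_eq_fromCols_conjTranspose, Matrix.fromCols_mul_fromRows]
  simp only [Matrix.conjTranspose_smul, star_trivial, Matrix.smul_mul, Matrix.mul_smul, smul_smul]

/-- **gluing of two bundles** `p` on `U`, `q` on `V` along `u : p → q` on `U ∩ V` -/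
theorem exists_glue_two [FiniteDimensional ℝ E] [IsManifold I ∞ M] [T2Space M]
    [SigmaCompactSpace M] {U V : Set M} (hU : IsOpen U) (hV : IsOpen V) (hc : U ∪ V = univ)
    {p : M → Matrix κ κ 𝕜} {q : M → Matrix l l 𝕜} {u : M → Matrix l κ 𝕜}
    (hp : ∀ x ∈ U, MSm I p x ∧ Prj (p x)) (hq : ∀ x ∈ V, MSm I q x ∧ Prj (q x))
    (hu : ∀ x ∈ U, x ∈ V → MSm I u x ∧ PIso (u x) (p x) (q x)) :
    ∃ (P : M → Matrix (κ ⊕ l) (κ ⊕ l) 𝕜) (a : M → Matrix (κ ⊕ l) κ 𝕜)
      (b : M → Matrix (κ ⊕ l) l 𝕜), (∀ x, MSm I P x ∧ Prj (P x)) ∧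
      (∀ x ∈ U, MSm I a x ∧ PIso (a x) (p x) (P x)) ∧
      (∀ x ∈ V, MSm I b x ∧ PIso (b x) (q x) (P x)) ∧
      (∀ x ∈ U, x ∈ V → (b x)ᴴ * a x = u x ∧ b x * u x = a x) ∧
      ∀ (J : Matrix κ κ 𝕜) (J' : Matrix l l 𝕜), (∀ x ∈ U, J * p x = p x * J) →
        (∀ x ∈ V, J' * q x = q x * J') →
        (∀ x ∈ U, x ∈ V → J' * u x = u x * J ∧ J * (u x)ᴴ = (u x)ᴴ * J') →
        (∀ x ∈ U, Matrix.fromBlocks J 0 0 J' * a x = a x * J) ∧
        ∀ x ∈ V, Matrix.fromBlocks J 0 0 J' * b x = b x * J' := by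
  obtain ⟨χ, hχ⟩ := exists_sqP (I := I) (U := fun b : Bool => cond b U V)
    (by rintro (_ | _); exacts [hV, hU]) (fun x => by
      rcases (hc ▸ mem_univ x : x ∈ U ∪ V) with h | h
      exacts [⟨true, h⟩, ⟨false, h⟩])
  set c := χ true with hcd
  set s := χ false with hsd
  have hcs : ∀ x, c x * c x + s x * s x = 1 := fun x => by
    have := hχ.sq x
    rw [Fintype.sum_bool] at this
    rw [← this]; ring
  have mc : ∀ x, c x ≠ 0 → x ∈ U := fun x hx => hχ.mem (i := true) hx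
  have ms : ∀ x, s x ≠ 0 → x ∈ V := fun x hx => hχ.mem (i := false) hx
  let a : M → Matrix (κ ⊕ l) κ 𝕜 := fun x => Matrix.fromRows (c x • p x) (s x • u x)
  let b : M → Matrix (κ ⊕ l) l 𝕜 := fun x => Matrix.fromRows (c x • (u x)ᴴ) (s x • q x)
  have sa : ∀ x ∈ U, MSm I a x := fun x hx =>
    (MSm.rsmul (hχ.sm true x) (hp x hx).1).fromRows
      (MSm.cutoff (hχ.sm false x) (hχ.supp false) fun h => (hu x hx h).1)
  have sb : ∀ x ∈ V, MSm I b x := fun x hx =>
    (MSm.cutoff (hχ.sm true x) (hχ.supp true) fun h => (hu x h hx).1.ct).fromRows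
      (MSm.rsmul (hχ.sm false x) (hq x hx).1)
  have aa : ∀ x ∈ U, (a x)ᴴ * a x = p x ∧ a x * p x = a x := fun x hx => by
    have h1 := (hp x hx).2
    simp only [a]
    rw [rows_ct_mul, Matrix.fromRows_mul, Matrix.smul_mul, Matrix.smul_mul, h1.herm, h1.idem]
    by_cases h : s x = 0
    · have := hcs x
      rw [h, mul_zero, add_zero] at this
      simp [h, this]
    · rw [(hu x hx (ms x h)).2.src, (hu x hx (ms x h)).2.idem, ← add_smul, hcs, one_smul]
      exact ⟨rfl, rfl⟩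
  have bb : ∀ x ∈ V, (b x)ᴴ * b x = q x ∧ b x * q x = b x := fun x hx => by
    have h1 := (hq x hx).2
    simp only [b]
    rw [rows_ct_mul, Matrix.fromRows_mul, Matrix.smul_mul, Matrix.smul_mul, h1.herm, h1.idem]
    by_cases h : c x = 0
    · have := hcs x
      rw [h, mul_zero, zero_add] at this
      simp [h, this]
    · rw [(hu x (mc x h) hx).2.symm.src, (hu x (mc x h) hx).2.symm.idem, ← add_smul, hcs, one_smul]
      exact ⟨rfl, rfl⟩
  have ba : ∀ x ∈ U, x ∈ V → b x * u x = a x := fun x hx hx' => by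
    simp only [a, b]
    rw [Matrix.fromRows_mul, Matrix.smul_mul, Matrix.smul_mul, (hu x hx hx').2.src,
      (hu x hx hx').2.left]
  have pa : ∀ x ∈ U, PIso (a x) (p x) (a x * (a x)ᴴ) := fun x hx => ⟨(aa x hx).1, rfl, (aa x hx).2⟩
  have pb : ∀ x ∈ V, PIso (b x) (q x) (b x * (b x)ᴴ) := fun x hx => ⟨(bb x hx).1, rfl, (bb x hx).2⟩
  have ab : ∀ x ∈ U, x ∈ V → a x * (a x)ᴴ = b x * (b x)ᴴ := fun x hx hx' => by
    rw [← ba x hx hx']
    exact ((hu x hx hx').2.trans (pb x hx')).tgt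
  obtain ⟨P, hP, hP'⟩ := exists_patch_sm (I := I) (U := fun b : Bool => cond b U V)
    (by rintro (_ | _); exacts [hV, hU]) (fun x => by
      rcases (hc ▸ mem_univ x : x ∈ U ∪ V) with h | h
      exacts [⟨true, h⟩, ⟨false, h⟩])
    (fun i x => cond i (a x * (a x)ᴴ) (b x * (b x)ᴴ))
    (by
      rintro (_ | _) x hx
      exacts [(sb x hx).mul (sb x hx).ct, (sa x hx).mul (sa x hx).ct])
    (by
      rintro (_ | _) (_ | _) x h1 h2
      exacts [rfl, (ab x h2 h1).symm, ab x h1 h2, rfl])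
  have PU : ∀ x ∈ U, P x = a x * (a x)ᴴ := hP' true
  have PV : ∀ x ∈ V, P x = b x * (b x)ᴴ := hP' false
  refine ⟨P, a, b, fun x => ⟨hP x, ?_⟩, fun x hx => ⟨sa x hx, PU x hx ▸ pa x hx⟩,
    fun x hx => ⟨sb x hx, PV x hx ▸ pb x hx⟩, fun x hx hx' => ⟨?_, ba x hx hx'⟩,
    fun J J' h1 h2 h3 => ⟨fun x hx => ?_, fun x hx => ?_⟩⟩
  · rcases (hc ▸ mem_univ x : x ∈ U ∪ V) with h | h
    · rw [PU x h]; exact (pa x h).prj_tgt
    · rw [PV x h]; exact (pb x h).prj_tgt
  · rw [← ba x hx hx', ← Matrix.mul_assoc, (bb x hx').1, (hu x hx hx').2.left]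
  · simp only [a]
    rw [Matrix.fromBlocks_mul_fromRows, Matrix.fromRows_mul]
    simp only [Matrix.zero_mul, smul_zero, add_zero, zero_add, Matrix.mul_smul, Matrix.smul_mul, h1 x hx]
    by_cases h : s x = 0
    · simp [h]
    · rw [(h3 x hx (ms x h)).1]
  · simp only [b]
    rw [Matrix.fromBlocks_mul_fromRows, Matrix.fromRows_mul]
    simp only [Matrix.zero_mul, smul_zero, add_zero, zero_add, Matrix.mul_smul, Matrix.smul_mul, h2 x hx]
    by_cases h : c x = 0
    · simp [h]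
    · rw [(h3 x (mc x h) hx).2]

end Two

/-! ### smoothing, transport along open embeddings -/

section Smooth

variable {κ l : Type*} [Fintype κ] [Fintype l] [DecidableEq κ] [DecidableEq l]

/-- a continuous isomorphism, smooth near a closed set `C`, can be replaced by a smooth one which
agrees with it on `C` -/
theorem exists_smooth_iso [FiniteDimensional ℝ E] [IsManifold I ∞ M] [T2Space M]
    [SigmaCompactSpace M] {p : M → Matrix κ κ 𝕜} {q : M → Matrix l l 𝕜} {u : M → Matrix l κ 𝕜}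
    (hp : ∀ x, MSm I p x) (hq : ∀ x, MSm I q x) (hu : Continuous u)
    (h : ∀ x, PIso (u x) (p x) (q x)) {C W : Set M} (hC : IsClosed C) (hW : IsOpen W) (hCW : C ⊆ W)
    (hs : ∀ x ∈ W, MSm I u x) :
    ∃ v : M → Matrix l κ 𝕜, (∀ x, MSm I v x ∧ PIso (v x) (p x) (q x)) ∧ ∀ x ∈ C, v x = u x := by
  let G : M → Matrix l κ 𝕜 → Matrix κ κ 𝕜 := fun x c =>
    (u x)ᴴ * c * p x + p x * cᴴ * u x + (1 - p x)
  have Gu : ∀ x, (G x (u x)).PosDef := fun x => by
    have : G x (u x) = p x + 1 := by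
      simp only [G]
      rw [(h x).src, Matrix.mul_assoc, (h x).src, (h x).prj_src.idem]; abel
    rw [this]
    exact Matrix.PosDef.posSemidef_add (h x).prj_src.posSemidef Matrix.PosDef.one
  have Gh : ∀ x c, (G x c).IsHermitian := fun x c => by
    simp only [G, Matrix.IsHermitian, Matrix.conjTranspose_add, Matrix.conjTranspose_mul,
      Matrix.conjTranspose_sub, Matrix.conjTranspose_one, Matrix.conjTranspose_conjTranspose,
      (h x).prj_src.herm, Matrix.mul_assoc]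
    abel
  let t : M → Set (l → κ → 𝕜) := fun x =>
    {c | (G x (Matrix.of c)).PosDef ∧ (x ∈ C → Matrix.of c = u x)}
  have ht : ∀ x, Convex ℝ (t x) := fun x c hc d hd a b ha hb hab => by
    refine ⟨?_, fun hx => ?_⟩
    · have : G x (Matrix.of (a • c + b • d)) = a • G x (Matrix.of c) + b • G x (Matrix.of d) := by
        have e : (Matrix.of (a • c + b • d) : Matrix l κ 𝕜) = a • Matrix.of c + b • Matrix.of d := rfl
        have e1 : (1 - p x) = a • (1 - p x) + b • (1 - p x) := by rw [← add_smul, hab, one_smul]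
        simp only [G, e, Matrix.mul_add, Matrix.add_mul, Matrix.mul_smul, Matrix.smul_mul,
          Matrix.conjTranspose_add, Matrix.conjTranspose_smul, star_trivial, smul_add]
        nth_rw 1 [e1]
        abel
      rw [this]
      rcases ha.eq_or_lt with rfl | ha'
      · rw [zero_add] at hab
        rw [hab, zero_smul, zero_add, one_smul]; exact hd.1
      · exact (hc.1.smul ha').add_posSemidef (hd.1.posSemidef.smul hb)
    · have e : (Matrix.of (a • c + b • d) : Matrix l κ 𝕜) = a • Matrix.of c + b • Matrix.of d := rfl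
      rw [e, hc.2 hx, hd.2 hx, ← add_smul, hab, one_smul]
  obtain ⟨g, hg⟩ := exists_contMDiffMap_forall_mem_convex_of_local (n := ⊤) I ht (fun x => by
    by_cases hx : x ∈ C
    · exact ⟨W, hW.mem_nhds (hCW hx), fun y i j => u y i j,
        fun y hy => (MSm.iff_pi.1 (hs y hy)).contMDiffWithinAt, fun y _ => ⟨Gu y, fun _ => rfl⟩⟩
    · have hpc : Continuous p := continuous_iff_continuousAt.2 fun y => (hp y).continuousAt
      have hc : Continuous fun y => G y (u x) :=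
        (((hu.matrix_conjTranspose.matrix_mul continuous_const).matrix_mul hpc).add
          ((hpc.matrix_mul continuous_const).matrix_mul hu)).add (continuous_const.sub hpc)
      refine ⟨_, (posDef_eventually hc.continuousAt (Gu x)).and (hC.isOpen_compl.eventually_mem hx),
        fun _ i j => u x i j, contMDiffOn_const, fun y hy => ⟨hy.1 (Gh _ _), fun h' => ?_⟩⟩
      exact absurd h' hy.2)
  let c : M → Matrix l κ 𝕜 := fun x => q x * Matrix.of (g x) * p x
  have sc : ∀ x, MSm I c x := fun x =>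
    ((hq x).mul (MSm.iff_pi.2 (g.contMDiff x) : MSm I (fun y => Matrix.of (g y)) x)).mul (hp x)
  have hgr : ∀ x, (gram (p x) (c x)).PosDef := fun x => by
    refine gram_posDef (h x).prj_src fun v hv hc => ?_
    by_contra h0
    have h1 := (hg x).1.dotProduct_mulVec_pos h0
    have h2 : ((u x)ᴴ * Matrix.of (g x) * p x) *ᵥ v = 0 := by
      rw [← (h x).ct_right, Matrix.mul_assoc, Matrix.mul_assoc, ← Matrix.mul_assoc (q x),
        ← Matrix.mulVec_mulVec]
      exact (congrArg ((u x)ᴴ *ᵥ ·) hc).trans (Matrix.mulVec_zero _)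
    have h3 : star v ⬝ᵥ ((p x * (Matrix.of (g x))ᴴ * u x) *ᵥ v) = 0 := by
      have e : p x * (Matrix.of (g x))ᴴ * u x = ((u x)ᴴ * Matrix.of (g x) * p x)ᴴ := by
        simp only [Matrix.conjTranspose_mul, Matrix.conjTranspose_conjTranspose,
          (h x).prj_src.herm, Matrix.mul_assoc]
      rw [e, Matrix.dotProduct_mulVec, ← Matrix.star_mulVec, h2]
      simp
    simp only [G, Matrix.add_mulVec, dotProduct_add, h2, h3, Matrix.sub_mulVec, Matrix.one_mulVec,
      hv, sub_self, dotProduct_zero, add_zero] at h1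
    exact lt_irrefl _ h1
  refine ⟨fun x => nrm (p x) (c x), fun x => ⟨(hp x).nrm (sc x)
    (Eventually.of_forall fun y => (h y).prj_src) (hgr x),
    nrm_piso (h x).prj_src (h x).prj_tgt ?_ ?_ (hgr x) (h x).trace_eq⟩, fun x hx => ?_⟩
  · simp only [c]; rw [Matrix.mul_assoc, (h x).prj_src.idem]
  · simp only [c]; rw [← Matrix.mul_assoc, ← Matrix.mul_assoc, (h x).prj_tgt.idem]
  · simp only [c]; rw [(hg x).2 hx, (h x).left, (h x).idem]; exact nrm_of_piso (h x)

end Smooth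

section Emb

variable {E' H' : Type*} [NormedAddCommGroup E'] [NormedSpace ℝ E'] [TopologicalSpace H']
  {I' : ModelWithCorners ℝ E' H'} {N : Type*} [TopologicalSpace N] [ChartedSpace H' N]
  {κ l : Type*}

/-- smoothness is tested through a local diffeomorphism -/
theorem MSm.of_comp {j : N → M} {y : N} (hj : IsLocalDiffeomorphAt I' I ∞ j y)
    {a : M → Matrix κ l 𝕜} (ha : MSm I' (fun z => a (j z)) y) : MSm I a (j y) := by
  have h1 : MSm I' (fun z => a (j z)) (hj.localInverse (j y)) := by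
    rwa [hj.localInverse_left_inv hj.localInverse_mem_target]
  refine (h1.comp hj.localInverse_contMDiffAt).congr ?_
  filter_upwards [hj.localInverse_eventuallyEq_right] with z hz
  simp only [Function.comp_apply] at hz
  rw [hz]; rfl

/-- push forward of a matrix field along an injective local diffeomorphism -/
theorem MSm.extend {j : N → M} (hi : Injective j) {y : N} (hj : IsLocalDiffeomorphAt I' I ∞ j y)
    {a : N → Matrix κ l 𝕜} (ha : MSm I' a y) (b : M → Matrix κ l 𝕜) :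
    MSm I (Function.extend j a b) (j y) :=
  MSm.of_comp hj (by simpa only [hi.extend_apply] using ha)

end Emb

end

end Crest.Agent.X212.Pj41
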