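import Crest.Agent.X212.Pj41.Two

/-!
# X212 / MDG (helper41): making a configuration literally equal to a second one
-/

set_option autoImplicit false
set_option linter.unusedSectionVars false

open Set Function Filter Topology
open scoped ContDiff Manifold InnerProductSpace

namespace Crest.Agent.X212.Pj41

open An Sob92
open Tmp64 (AdmOn Eq0 admOn_univ)

noncomputable section

variable {E : Type} [NormedAddCommGroup E] [NormedSpace ℝ E] [FiniteDimensional ℝ E]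
  [MeasurableSpace E] [BorelSpace E]
  {HM : Type} [TopologicalSpace HM] {I : ModelWithCorners ℝ E HM}
  {M : Type} [TopologicalSpace M] [ChartedSpace HM M] [IsManifold I ∞ M]
  [MeasurableSpace M] {ι : Type} [Fintype ι] {lam : Type} [Fintype lam]
  {B : Base M ι lam} {G : Geo I M ι lam} {m m' : Md M ι lam} {O U : Set M} {r r' : ℕ}

theorem Sum2.rot {N₁ N₂ N : ℕ} {J₁ : En (Fin N₁)} {J₂ : En (Fin N₂)} {J : En (Fin N)}
    {i₁ : CL (Eu (Fin N₁)) (Eu (Fin N))} {i₂ : CL (Eu (Fin N₂)) (Eu (Fin N))}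
    (S : Sum2 J₁ J₂ J i₁ i₂) {p : En (Fin N₁)} {q : En (Fin N₂)} {u : CL (Eu (Fin N₁)) (Eu (Fin N₂))}
    (hu : CIso u p q) (h1 : J₁ * p = p * J₁) (h2 : J₂ ∘L u = u ∘L J₁) {c s : ℝ}
    (h : c ^ 2 + s ^ 2 = 1) :
    ad (c • (i₁ ∘L p) + s • (i₂ ∘L u)) ∘L (c • (i₁ ∘L p) + s • (i₂ ∘L u)) = p ∧
      J ∘L (c • (i₁ ∘L p) + s • (i₂ ∘L u)) = (c • (i₁ ∘L p) + s • (i₂ ∘L u)) ∘L J₁ := by
  have i11 : ∀ v, ad i₁ (i₁ v) = v := fun v => congrArg (fun L : En (Fin N₁) => L v) S.e₁.iso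
  have i22 : ∀ v, ad i₂ (i₂ v) = v := fun v => congrArg (fun L : En (Fin N₂) => L v) S.e₂.iso
  have i12 : ∀ v, ad i₁ (i₂ v) = 0 := fun v => DFunLike.congr_fun S.orth v
  have i21 : ∀ v, ad i₂ (i₁ v) = 0 := fun v => by
    have := congrArg ad S.orth
    rw [ad_comp, ad_ad, ad_zero] at this
    exact DFunLike.congr_fun this v
  have e1 : ∀ v, ad u (u v) = p v := fun v => DFunLike.congr_fun hu.src v
  have j1 : ∀ v, J (i₁ v) = i₁ (J₁ v) := fun v => DFunLike.congr_fun S.e₁.J v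
  have j2 : ∀ v, J (i₂ v) = i₂ (J₂ v) := fun v => DFunLike.congr_fun S.e₂.J v
  have j3 : ∀ v, J₁ (p v) = p (J₁ v) := fun v => DFunLike.congr_fun h1 v
  have j4 : ∀ v, J₂ (u v) = u (J₁ v) := fun v => DFunLike.congr_fun h2 v
  constructor <;> ext1 v
  · simp only [ad_add, ad_smul, ad_comp, hu.prj_src.herm, ContinuousLinearMap.comp_apply, add_apply,
      smul_apply, map_add, map_smul, i11, i12, i21, i22, smul_zero, add_zero, zero_add, map_zero,
      hu.prj_src.app, smul_smul, e1]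
    rw [← add_smul, ← sq, ← sq, h, one_smul]
  · simp only [ContinuousLinearMap.comp_apply, add_apply, smul_apply, map_add, map_smul, j1, j2, j3,
      j4]

theorem fsm_st {h : M → ℝ} (hh : Sm I h) (a b : ℝ) (x : M) :
    FSm I (fun y => Real.smoothTransition (a * h y + b)) x :=
  (Real.smoothTransition.contDiff.comp ((contDiff_const.mul contDiff_id).add
    contDiff_const)).contDiffAt.comp_contMDiffAt (hh x)

/-- rotation of a module into a second one -/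
theorem exists_rot (hm : m.OK I B) {u : M → CL m.V m'.V} (hu : Iso0 I m m' O u) {h : M → ℝ}
    (hh : Sm I h) (hs : ∀ x, 0 < h x → x ∈ O) {N : ℕ} {J : En (Fin N)}
    {i₁ : CL m.V (Eu (Fin N))} {i₂ : CL m'.V (Eu (Fin N))} (S : Sum2 m.J m'.J J i₁ i₂) :
    ∃ a : M → CL m.V (Eu (Fin N)), OKOn I B (cjM m J a) univ ∧ Iso0 I m (cjM m J a) univ a ∧
      (∀ x, h x ≤ 2 → a x = i₁ ∘L m.p x) ∧ ∀ x, 3 ≤ h x → a x = i₂ ∘L u x := by
  obtain ⟨θ, hθ⟩ : ∃ θ : M → ℝ, θ = fun x => Real.pi / 2 * Real.smoothTransition (1 * h x + -2) :=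
    ⟨_, rfl⟩
  have sθ : ∀ x, FSm I θ x := fun x => hθ ▸ contMDiffAt_const.mul (fsm_st hh _ _ x)
  obtain ⟨a, ha⟩ : ∃ a : M → CL m.V (Eu (Fin N)), a = fun x =>
    Real.cos (θ x) • (i₁ ∘L m.p x) + Real.sin (θ x) • (i₂ ∘L u x) := ⟨_, rfl⟩
  have a1 : ∀ x, h x ≤ 2 → a x = i₁ ∘L m.p x := fun x hx => by
    simp [ha, hθ, Real.smoothTransition.zero_of_nonpos (show h x + -2 ≤ 0 by linarith)]
  have a2 : ∀ x, 3 ≤ h x → a x = i₂ ∘L u x := fun x hx => by
    simp [ha, hθ, Real.smoothTransition.one_of_one_le (show 1 ≤ h x + -2 by linarith)]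
  have cs : ∀ x, h x < 2 ∨ x ∈ O := fun x => (lt_or_ge (h x) 2).imp_right fun k => hs x (by linarith)
  have sp : ∀ x, FSm I (fun x => i₁ ∘L m.p x) x := fun x => FSm.cc contMDiffAt_const (hm.sp x)
  have key : ∀ x, ad (a x) ∘L a x = m.p x ∧ J ∘L a x = a x ∘L m.J := fun x => by
    rcases cs x with hx | hx
    · have k := (OK.on hm univ).prj (mem_univ x)
      rw [a1 x hx.le, ad_comp, k.herm, ContinuousLinearMap.comp_assoc,
        ← ContinuousLinearMap.comp_assoc (ad i₁), S.e₁.iso, ← ContinuousLinearMap.comp_assoc J,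
        S.e₁.J]
      exact ⟨k.idem, congrArg (i₁ ∘L ·) (hm.Jp x)⟩
    · rw [ha]; exact S.rot (hu.iso x hx) (hm.Jp x) (hu.J x hx) (Real.cos_sq_add_sin_sq _)
  obtain ⟨k1, k2⟩ := cjM_ok (OK.on hm univ) isOpen_univ (J := J) (a := a) (fun x _ => by
      rcases cs x with hx | hx
      · exact (sp x).congr_of_eventuallyEq (eventually_of_mem
          ((isOpen_lt hh.continuous continuous_const).mem_nhds hx) fun y hy => a1 y (le_of_lt hy))
      · rw [ha]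
        exact (ContMDiffAt.smul (Real.contDiff_cos.contDiffAt.comp_contMDiffAt (sθ x)) (sp x)).add
          (ContMDiffAt.smul (Real.contDiff_sin.contDiffAt.comp_contMDiffAt (sθ x))
            (FSm.cc contMDiffAt_const (hu.su x hx))))
    (fun x _ => (key x).1) S.e₁.sq S.e₁.sk fun x _ => (key x).2
  exact ⟨a, k1, k2, a1, a2⟩

/-- where `a = i ∘ u` the conjugate module carries the stabilised configuration -/
theorem admOn_cj {c₂ : Cfg M ι lam r'} {u : M → CL m.V c₂.m.V} (hO : IsOpen O)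
    (h₂ : AdmOn c₂ B G O) (hu : Iso0 I m c₂.m O u) {N : ℕ} {J : En (Fin N)}
    {i : CL c₂.m.V (Eu (Fin N))} (hi : Emb c₂.m.J J i) {a : M → CL m.V (Eu (Fin N))}
    (ha : ∀ x ∈ O, a x = i ∘L u x) :
    AdmOn ⟨cjM m J a, (stab c₂ J i).W, (stab c₂ J i).Φ, c₂.z⟩ B G O :=
  admOn_same hO (fun x hx => by rw [ha x hx]; exact hu.cj_p hx _)
    (fun b x hx => by rw [ha x hx]; exact hu.cj_ρ h₂.ok hx _ b)
    (fun x hx => by rw [ha x hx]; exact hu.cj_j h₂.ok hx _) (stab_spec hi hO h₂).1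
    (fun _ _ _ => rfl) (fun _ _ => rfl) h₂.z

theorem par0_cj {c₂ : Cfg M ι lam r'} {u : M → CL m.V c₂.m.V} (hO : IsOpen O)
    (h₂ : AdmOn c₂ B G O) (hu : Iso0 I m c₂.m O u) {N : ℕ} {J : En (Fin N)}
    {i : CL c₂.m.V (Eu (Fin N))} (hi : Emb c₂.m.J J i) {a : M → CL m.V (Eu (Fin N))}
    (ha : ∀ x ∈ O, a x = i ∘L u x) {W : m.Cn} (hp : Par0 G.F W c₂.W O u) :
    Par0 G.F (m' := cjM m J a) W (stab c₂ J i).W O a :=
  have k := (stab_spec hi hO h₂).2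
  (hp.trans k.par hu.su k.iso.su).congr hO fun x hx => by
    beta_reduce
    rw [ha x hx, ContinuousLinearMap.comp_assoc, (hu.iso x hx).left]

theorem exists_cut {h : M → ℝ} (hh : Continuous h) {a b s t : ℝ} (e : ∀ x, a * h x + b ≤ 0 ∨ s ≤ t * h x)
    {s' : ℝ} (hs : s' < s) :
    tsupport (fun x => Real.smoothTransition (a * h x + b)) ⊆ {x | s' < t * h x} :=
  (closure_minimal (t := {x | s ≤ t * h x}) (fun x hx => (e x).resolve_left fun k =>
    mem_support.1 hx (Real.smoothTransition.zero_of_nonpos k))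
      (isClosed_le continuous_const (continuous_const.mul hh))).trans fun _ hx => hs.trans_le hx

/-- the two cut-off functions -/
theorem exists_cuts {h : M → ℝ} (hh : Sm I h) : ∃ χ₁ χ₂ : M → ℝ, (∀ x, FSm I χ₁ x) ∧
    (∀ x, FSm I χ₂ x) ∧ tsupport χ₁ ⊆ {x | h x < 2} ∧ tsupport χ₂ ⊆ {x | 3 < h x} ∧
    (∀ x, h x ≤ 1 → χ₁ x = 1 ∧ χ₂ x = 0) ∧ ∀ x, 4 ≤ h x → χ₂ x = 1 :=
  ⟨_, _, fsm_st hh (-2) 3, fsm_st hh 2 (-7),
    (exists_cut hh.continuous (s := -3 / 2) (t := -1) (s' := -2)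
      (fun x => (le_total _ _).imp_right fun k => by linarith) (by norm_num)).trans
      fun x hx => by simpa using hx,
    (exists_cut hh.continuous (s := 7 / 2) (t := 1) (s' := 3)
      (fun x => (le_total _ _).imp_right fun k => by linarith) (by norm_num)).trans
      fun x hx => by simpa using hx,
    fun x hx => ⟨Real.smoothTransition.one_of_one_le (by linarith),
      Real.smoothTransition.zero_of_nonpos (by linarith)⟩,
    fun x hx => Real.smoothTransition.one_of_one_le (by linarith)⟩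

theorem exists_mix {W₀ W₁ W₂ : m'.Cn} {U₁ U₂ : Set M} (h0 : ConnOn B G m' W₀ univ)
    (h1 : ConnOn B G m' W₁ U₁) (h2 : ConnOn B G m' W₂ U₂) {χ₁ χ₂ : M → ℝ} (q1 : ∀ x, FSm I χ₁ x)
    (q2 : ∀ x, FSm I χ₂ x) (t1 : tsupport χ₁ ⊆ U₁) (t2 : tsupport χ₂ ⊆ U₂) {W' : m.Cn}
    {u : M → CL m.V m'.V} (p0 : Par0 G.F W' W₀ univ u) (p1 : Par0 G.F W' W₁ U₁ u) :
    ∃ W : m'.Cn, ConnOn B G m' W univ ∧ (∀ b x, χ₁ x = 1 → χ₂ x = 0 → W b x = W₁ b x) ∧
      (∀ b x, χ₂ x = 1 → W b x = W₂ b x) ∧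
      ∀ U, Par0 G.F W' W₂ (U ∩ U₂) u → Par0 G.F W' W U u :=
  ⟨_, (h0.aff (h1.mono inter_subset_right) (fun x _ => q1 x) t1).aff
    (h2.mono inter_subset_right) (fun x _ => q2 x) t2,
    fun _ _ k1 k2 => (aff_zero k2).trans (aff_one k1), fun _ _ k => aff_one k,
    fun U k => ((p0.aff (p1.mono inter_subset_right) t1).mono (subset_univ U)).aff k t2⟩

/-- **a configuration is made literally equal to a second one** where `h ≥ 4` -/
theorem exists_lit (hG : G.F.P = B.P) {c : Cfg M ι lam r} (hc : c.Adm B G) {c₂ : Cfg M ι lam r'}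
    (h₂ : AdmOn c₂ B G O) {u : M → CL c.m.V c₂.m.V} (hu : Iso0 I c.m c₂.m O u) {h : M → ℝ}
    (hh : Sm I h) (hs : ∀ x, 0 < h x → x ∈ O) :
    ∃ (c' : Cfg M ι lam r) (i₁ : CL c.m.V c'.m.V) (i₂ : CL c₂.m.V c'.m.V)
      (a : M → CL c.m.V c'.m.V), Sum2 c.m.J c₂.m.J c'.m.J i₁ i₂ ∧ c'.Adm B G ∧
      Iso0 I c.m c'.m univ a ∧ (∀ x, h x ≤ 1 → LitAt c' c i₁ x x) ∧
      (∀ x, h x ≤ 2 → a x = i₁ ∘L c.m.p x) ∧ (∀ x, 3 ≤ h x → a x = i₂ ∘L u x) ∧
      (∀ x, 4 ≤ h x → LitAt c' c₂ i₂ x x) ∧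
      ∀ U, IsOpen U → Par0 G.F c.W c₂.W (U ∩ {x | 3 < h x}) u →
        (∀ x ∈ U, 3 < h x → c₂.Φ x = u x (c.Φ x)) → Eq0 G.F c c' U a := by
  obtain ⟨J, i₁, i₂, S⟩ := exists_sum2 hc.ok.Jsq hc.ok.Jsk h₂.ok.Jsq h₂.ok.Jsk
  obtain ⟨a, k1, k2, a1, a2⟩ := exists_rot hc.ok hu hh hs S
  have hc' := admOn_univ.2 hc
  have r0 := Iso0.refl hc'.ok
  have o1 : IsOpen {x | h x < 2} := isOpen_lt hh.continuous continuous_const
  have o2 : IsOpen {x | 3 < h x} := isOpen_lt continuous_const hh.continuous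
  have s2 : {x | 3 < h x} ⊆ O := fun x hx => hs x (lt_trans (by norm_num) hx)
  obtain ⟨χ₁, χ₂, q1, q2, t1, t2, z1, z2⟩ := exists_cuts hh
  have B1 := admOn_cj o1 (hc'.mono (subset_univ _)) (r0.mono (subset_univ _)) S.e₁
    fun x hx => a1 x (le_of_lt hx)
  have B2 := admOn_cj o2 (h₂.mono s2) (hu.mono s2) S.e₂ fun x hx => a2 x (le_of_lt hx)
  obtain ⟨W0, P0⟩ := conn_push k2 isOpen_univ hc'.ok k1 hG hc'.conn
  obtain ⟨W, W2, w1, w2, w3⟩ := exists_mix W0 B1.conn B2.conn q1 q2 t1 t2 P0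
    (par0_cj o1 (hc'.mono (subset_univ _)) (r0.mono (subset_univ _)) S.e₁
      (fun x hx => a1 x (le_of_lt hx)) (hc'.conn.par0_refl.mono (subset_univ _)))
  refine ⟨⟨cjM c.m J a, W, aff χ₂ (fun x => a x (c.Φ x)) fun x => i₂ (c₂.Φ x), c.z⟩, i₁, i₂, a, S,
    ⟨okOn_univ.1 k1, W2.isConn (okOn_univ.1 k1), fun x => FSm.aff (q2 x) t2
      ((k2.su x trivial).clm_apply (hc.sm x)) (B2.sm x), fun x => sub_eq_zero.1 ?_, hc.z⟩, k2,
    fun x hx => ?_, a1, a2, fun x hx => ?_, fun U hU hp hΦ => ⟨k2.mono (subset_univ _), ?_,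
      fun x hx => ?_, rfl⟩⟩
  · exact aff_lin (f := fun x => a x (c.Φ x)) (g := fun x => i₂ (c₂.Φ x))
      (((cjM c.m J a).pp B x).toLinearMap - LinearMap.id) t2
      (sub_eq_zero.2 ((k2.pp trivial _).trans (congrArg _ (hc.pos x))))
      fun k => sub_eq_zero.2 (B2.pos x k)
  · have e := a1 x (by linarith)
    refine ⟨?_, fun b => ?_, ?_, fun b => w1 b x (z1 x hx).1 (z1 x hx).2,
      (aff_zero (f := fun x => a x (c.Φ x)) (g := fun x => i₂ (c₂.Φ x)) (z1 x hx).2).trans ?_⟩ <;>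
      dsimp only <;> rw [e]
    exacts [r0.cj_p trivial _, r0.cj_ρ hc'.ok trivial _ b, r0.cj_j hc'.ok trivial _,
      congrArg i₁ (hc'.pΦ trivial)]
  · have e := a2 x (by linarith)
    have hO := hs x (by linarith)
    refine ⟨?_, fun b => ?_, ?_, fun b => w2 b x (z2 x hx),
      aff_one (f := fun x => a x (c.Φ x)) (g := fun x => i₂ (c₂.Φ x)) (z2 x hx)⟩ <;>
      dsimp only <;> rw [e]
    exacts [hu.cj_p hO _, hu.cj_ρ h₂.ok hO _ b, hu.cj_j h₂.ok hO _]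
  · exact w3 U (par0_cj (hU.inter o2) (h₂.mono fun _ k => s2 k.2)
      (hu.mono fun _ k => s2 k.2) S.e₂ (fun x hx => a2 x (le_of_lt hx.2)) hp)
  · exact aff_lin (f := fun x => a x (c.Φ x)) (g := fun x => i₂ (c₂.Φ x)) LinearMap.id t2 rfl
      fun k => by rw [a2 x (le_of_lt k), hΦ x hx k]; rfl

end

end Crest.Agent.X212.Pj41
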