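import Crest.Agent.X212.Pj41.Mid

/-!
# X212 / ML (helper41): cut and paste of marked lines, identifications from logarithms
-/

set_option autoImplicit false
set_option linter.unusedSectionVars false

open Set Function Filter Topology Matrix
open scoped ContDiff Manifold

namespace Crest.Agent.X212.Pj41

open Crest.Agent.X212.M Cyl58 Cyf70
open Line51 (Ln Uni em)
open Pic56 (HasLog Rk1)

noncomputable section

variable {X X' : Mf 4} {A A' A₀ κ lam lam' : Type} [Fintype κ] [Fintype lam] [Fintype lam']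
  {M : Mark X A κ} {M' : Mark X' A' κ}

/-! ### cut and paste -/

/-- every line can be moved into three given indices -/
theorem exists_spare (ms : Ms2Stmt) (e : Fin 3 ↪ lam) {p : X.M → Matrix lam' lam' ℂ}
    (hp : Ln.On X.I ⟨p, 0⟩ univ) : ∃ (p' : X.M → Matrix lam lam ℂ) (u : X.M → Matrix lam' lam ℂ),
      Ln.On X.I ⟨p', 0⟩ univ ∧ Uni X.I p' p u univ ∧ ∀ x, ∀ i ∉ range e, ∀ k, p' x i k = 0 := by
  classical
  obtain ⟨q, b, hb⟩ := ms X _ p hp
  have oq : Ln.On X.I ⟨q, 0⟩ univ := ⟨fun x _ => ((hb.sm x trivial).mul (hb.sm x trivial).ct).congr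
      (.of_forall fun y => (hb.iso y trivial).tgt.symm), fun x _ => (hb.iso x trivial).prj_tgt,
    fun x _ => (hb.iso x trivial).trace_eq.symm.trans (hp.tr x trivial),
    fun _ _ => Dr59.cAt_zero, Dr59.Dg.zero⟩
  have he := Line51.em_iso e.injective
  exact ⟨_, _, oq.cj isOpen_univ he, (hb.trans (oq.iso_cj isOpen_univ he).toUni).symm,
    fun x i hi k => by simp [Matrix.mul_apply, em_zero hi]⟩

/-- the line of a wall as a function on `X` -/
def pX (M : Mark X A κ) (LY : ∀ a, Ln (M.bn a).Y.E (M.bn a).Y.M lam) (a : A) :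
    X.M → Matrix lam lam ℂ := extend (M.bn a).j (fun q => (LY a).p q.1) 0

theorem pX_j (LY : ∀ a, Ln (M.bn a).Y.E (M.bn a).Y.M lam) (a : A) (q : (M.bn a).Y.M × ℝ) :
    pX M LY a ((M.bn a).j q) = (LY a).p q.1 := (M.bn a).oe.inj.extend_apply _ _ q

theorem piso_mX (N : ML M lam) {a : A} {x : X.M} (hx : x ∈ sl3 M a) :
    PIso (mX N a x) (N.p x) (pX M N.LY a x) := by
  obtain ⟨q, hq, rfl⟩ := hx
  rw [mX_j, pX_j]; exact (N.um a).iso q (abs_le.2 hq.2)

theorem uni_mX_ψ (N' : ML M' lam) (I : MId M M' A₀) {LY : ∀ a, Ln (M.bn a).Y.E (M.bn a).Y.M lam}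
    {b : A₀} (h : (N'.LY (I.f' b)).pull (M.bn (I.f b)).Y.I (M'.bn (I.f' b)).Y.I (I.g b) = LY (I.f b)) :
    Uni X.I (fun x => N'.p (I.ψ x)) (pX M LY (I.f b)) (fun x => mX N' (I.f' b) (I.ψ x))
      (sl3 M (I.f b)) := by
  constructor <;> rintro _ ⟨q, hq, rfl⟩
  · exact msm_mX_ψ N' I b ((N'.um _).sm (_, q.2) (abs_le.2 hq.2))
  · rw [pX_j, ← h]; exact piso_mX_ψ N' I b (abs_le.2 hq.2)

section cut
variable {K : Type} [Fintype K] {Xk : K → Mf 4} {Ak A₀ : K → Type} [∀ k, Finite (A₀ k)]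
  {Mk : ∀ k, Mark (Xk k) (Ak k) κ} (Nk : ∀ k, ML (Mk k) lam) (I : ∀ k, MId M (Mk k) (A₀ k))
  {V : K → Set X.M}

/-- an open cover whose members overlap only in pairs, inside of one common wall -/
structure Cut (V : K → Set X.M) : Prop where
  op : ∀ k, IsOpen (V k)
  sub : ∀ k, V k ⊆ (I k).ψ.source
  cov : ∀ x, ∃ k, x ∈ V k
  two : ∀ i j k, ∀ x ∈ V i, x ∈ V j → x ∈ V k → i = j ∨ j = k ∨ i = k
  ov : ∀ k l, k ≠ l → ∀ x ∈ V k, x ∈ V l → ∃ b c, (I k).f b = (I l).f c ∧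
    x ∈ (M.bn ((I k).f b)).slab (Ioo (-3) 3) ∧
    ∀ b' c', (I k).f b' = (I l).f c' → x ∈ sl3 M ((I k).f b') → b' = b

/-- **the line glued along the cut walls** -/
theorem exists_cpt (ms : Ms2Stmt) (e : Fin 3 ↪ lam) (h : Cut I V)
    (LY : ∀ a, Ln (M.bn a).Y.E (M.bn a).Y.M lam)
    (hL : ∀ k b, ((Nk k).LY ((I k).f' b)).pull (M.bn ((I k).f b)).Y.I ((Mk k).bn ((I k).f' b)).Y.I
      ((I k).g b) = LY ((I k).f b)) :
    ∃ (p : X.M → Matrix lam lam ℂ) (w : K → X.M → Matrix lam lam ℂ), Ln.On X.I ⟨p, 0⟩ univ ∧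
      (∀ k, Uni X.I p (fun x => (Nk k).p ((I k).ψ x)) (w k) (V k)) ∧ Cpt Nk I V w ∧
      ∀ x, ∀ i ∉ range e, ∀ k, p x i k = 0 := by
  classical
  let μ : ∀ k, A₀ k → X.M → Matrix lam lam ℂ := fun k b x => mX (Nk k) ((I k).f' b) ((I k).ψ x)
  let q : K → X.M → Matrix lam lam ℂ := fun k x => (Nk k).p ((I k).ψ x)
  have hμ : ∀ k b, Uni X.I (q k) (pX M LY ((I k).f b)) (μ k b) (sl3 M ((I k).f b)) :=
    fun k b => uni_mX_ψ (Nk k) (I k) (hL k b)
  let t : K → K → X.M → Matrix lam lam ℂ := fun k l x =>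
    if h : ∃ d : A₀ k × A₀ l, (I k).f d.1 = (I l).f d.2 ∧ x ∈ sl3 M ((I k).f d.1) then
      (μ k h.choose.1 x)ᴴ * μ l h.choose.2 x else 0
  have ht : ∀ k l, k ≠ l → ∀ x ∈ V k, x ∈ V l → ∀ b c, (I k).f b = (I l).f c →
      x ∈ sl3 M ((I k).f b) → t k l x = (μ k b x)ᴴ * μ l c x := by
    intro k l kl x hk hl b c e hx
    have h0 : ∃ d : A₀ k × A₀ l, (I k).f d.1 = (I l).f d.2 ∧ x ∈ sl3 M ((I k).f d.1) :=
      ⟨(b, c), e, hx⟩
    obtain ⟨b₀, -, -, -, u⟩ := h.ov k l kl x hk hl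
    have e1 : h0.choose.1 = b := (u _ _ h0.choose_spec.1 h0.choose_spec.2).trans (u _ _ e hx).symm
    have e2 : h0.choose.2 = c := (I l).f.injective (by rw [← h0.choose_spec.1, e1, e])
    simp only [t, dif_pos h0, e1, e2]
  have s3 : ∀ {a x}, x ∈ (M.bn a).slab (Ioo (-3) 3) → x ∈ sl3 M a :=
    fun hx => (M.bn _).slab_mono Ioo_subset_Icc_self hx
  have hq : ∀ k, ∀ x ∈ V k, MSm X.I (q k) x ∧ Prj (q k x) := fun k x hx =>
    ⟨msm_p_ψ (Nk k) (I k) (h.sub k hx), (Nk k).ok.prj _ trivial⟩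
  have coc := coc_of_graph h.op hq (t := t) (fun k l kl => ⟨fun x hx => ?_, fun x hx => ?_⟩)
    (fun k l kl x hk hl => ?_) h.two
  · obtain ⟨p₁, w, h1, h2, h3⟩ := exists_line_coc ms e h.cov coc fun k x _ => by
      rw [if_pos rfl]; exact (Nk k).ok.tr _ trivial
    obtain ⟨p, u, k1, k2, k3⟩ := exists_spare ms e h1
    refine ⟨p, fun k x => w k x * u x, k1, fun k => ?_, fun k l b c e x hx hk hl => ?_, k3⟩
    · have := (k2.mono (subset_univ _)).trans (h2 k)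
      rwa [if_pos rfl] at this
    · by_cases kl : k = l
      · subst kl
        rw [(I k).f.injective e]
      · show μ k b x * (w k x * u x) = μ l c x * (w l x * u x)
        rw [← h3 k l x hk hl, if_neg kl, ht k l kl x hk hl b c e hx, ← Matrix.mul_assoc,
          ← Matrix.mul_assoc, ← Matrix.mul_assoc, ((hμ k b).iso x hx).tgt, e,
          ((hμ l c).iso x (e ▸ hx)).left, Matrix.mul_assoc]
  · obtain ⟨b, c, e, hs, -⟩ := h.ov k l kl x hx.1 hx.2
    refine (((hμ k b).sm x (s3 hs)).ct.mul ((hμ l c).sm x (e ▸ s3 hs))).congr ?_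
    filter_upwards [(h.op k).mem_nhds hx.1, (h.op l).mem_nhds hx.2,
      ((M.bn _).isOpen_slab isOpen_Ioo).mem_nhds hs] with y h1 h2 h3
    exact ht k l kl y h1 h2 b c e (s3 h3)
  · obtain ⟨b, c, e, hs, -⟩ := h.ov k l kl x hx.1 hx.2
    rw [ht k l kl x hx.1 hx.2 b c e (s3 hs)]
    exact ((hμ l c).iso x (e ▸ s3 hs)).trans (e ▸ ((hμ k b).iso x (s3 hs)).symm)
  · obtain ⟨b, c, e, hs, -⟩ := h.ov k l kl x hk hl
    rw [ht k l kl x hk hl b c e (s3 hs), ht l k (Ne.symm kl) x hl hk c b e.symm (e ▸ s3 hs),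
      conjTranspose_mul, conjTranspose_conjTranspose]

/-- **cut and paste of marked lines**: a wall is covered, or a pinch wall off its pieces, or not
matched -/
theorem exists_ml_cut (ms : Ms2Stmt) (e : Fin 3 ↪ lam) (h : Cut I V)
    (LY : ∀ a, Ln (M.bn a).Y.E (M.bn a).Y.M lam) (okY : ∀ a, (LY a).On (M.bn a).Y.I univ)
    (cst : ∀ a, M.pin a → ∃ p₀, LY a = ⟨fun _ => p₀, 0⟩)
    (hL : ∀ k b, ((Nk k).LY ((I k).f' b)).pull (M.bn ((I k).f b)).Y.I ((Mk k).bn ((I k).f' b)).Y.I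
      ((I k).g b) = LY ((I k).f b))
    (hw : ∀ a, (∀ x ∈ sl3 M a, ∃ k b, (I k).f b = a ∧ x ∈ V k) ∨
      (M.pin a ∧ ∀ k b, (I k).f b = a → Disjoint (sl3 M a) (V k)) ∨
      (¬M.pin a ∧ ∀ k b, (I k).f b ≠ a)) :
    ∃ (N : ML M lam) (w : K → X.M → Matrix lam lam ℂ), (∀ k, LId N (Nk k) (I k) (V k) (w k)) ∧
      ((∀ k, Smo (Nk k)) → Smo N) ∧ (∀ x, ∀ i ∉ range e, ∀ k, N.p x i k = 0) ∧
      (∀ a, M.pin a ∨ (∃ k b, (I k).f b = a) → N.LY a = LY a) ∧
      ∀ a, ¬(M.pin a ∨ ∃ k b, (I k).f b = a) → N.LY a = coreL M N.p a := by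
  classical
  obtain ⟨p, w, h1, h2, h3, h4⟩ := exists_cpt Nk I ms e h LY hL
  obtain ⟨N, rfl, k2, k3, k4⟩ := exists_ml_lid Nk I h.op h.sub h1 h2 h3
    (fun a => if M.pin a ∨ ∃ k b, (I k).f b = a then LY a else coreL M p a)
    (fun a => by split_ifs; exacts [okY a, coreL_on h1 a])
    (fun a ha => by rw [if_pos (.inl ha)]; exact cst a ha)
    (fun k b => by rw [if_pos (.inr ⟨k, b, rfl⟩)]; exact hL k b) fun a => by
      rcases hw a with hw | hw | hw
      · exact .inl hw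
      · obtain ⟨p₀, e₀⟩ := cst a hw.1
        have := (okY a).rk1 (mem_univ (Classical.arbitrary _))
        rw [if_pos (.inl hw.1)]
        rw [e₀] at this ⊢
        exact .inr ⟨hw.2, uni_pin h1 hw.1 this⟩
      · rw [if_neg fun c => c.elim hw.1 fun ⟨k, b, c⟩ => hw.2 k b c]
        exact .inr ⟨fun k b c => (hw.2 k b c).elim, _, uni_coreL h1 a⟩
  exact ⟨N, w, k3, k4, h4, fun a ha => by rw [k2]; exact if_pos ha,
    fun a ha => by rw [k2]; exact if_neg ha⟩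

end cut

/-! ### logarithms -/

theorem rk1_sand {q d : Matrix lam lam ℂ} (hq : Rk1 q) (h : PIso d q q) :
    d = d.trace • q ∧ ‖d.trace‖ = 1 := by
  obtain ⟨e, he, rfl⟩ := hq
  obtain ⟨a, rfl⟩ : ∃ a : ℂ, d = a • vecMulVec e (star e) := by
    refine ⟨star e ⬝ᵥ (d *ᵥ e), ?_⟩
    conv_lhs => rw [← h.left, ← h.idem, mul_vecMulVec, vecMulVec_mul_vecMulVec]
    rw [vecMulVec_smul]
  have t : (vecMulVec e (star e)).trace = 1 := Rk1.trace_eq ⟨e, he, rfl⟩
  have := congrArg trace h.src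
  rw [conjTranspose_smul, Matrix.smul_mul, Matrix.mul_smul, h.prj_src.herm, h.prj_src.idem,
    trace_smul, trace_smul, t] at this
  rw [trace_smul, t, smul_eq_mul, mul_one]
  refine ⟨rfl, ?_⟩
  have := congrArg norm this
  simp only [smul_eq_mul, mul_one, norm_mul, norm_star, norm_one] at this
  nlinarith [norm_nonneg a]

theorem hasLog_image {Y Z : Type*} [TopologicalSpace Y] [TopologicalSpace Z] {j : Y → Z}
    (hj : IsEmbedding j) {φ : Z → ℂ} {T : Set Y} (h : HasLog (fun y => φ (j y)) T) :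
    HasLog φ (j '' T) := by
  obtain ⟨ψ, h1, h2⟩ := h
  refine ⟨extend j ψ 0, ?_, ?_⟩
  · rw [hj.isInducing.continuousOn_image_iff, Function.extend_comp hj.injective]; exact h1
  · rintro _ ⟨y, hy, rfl⟩
    rw [hj.injective.extend_apply]; exact h2 y hy

section arg
variable {E : Type*} [NormedAddCommGroup E] [NormedSpace ℝ E] [FiniteDimensional ℝ E]
  {H : Type*} [TopologicalSpace H] {I : ModelWithCorners ℝ E H}
  {Z : Type*} [TopologicalSpace Z] [ChartedSpace H Z] [IsManifold I ∞ Z] [T2Space Z]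
  [SigmaCompactSpace Z]

/-- a smooth argument on disjoint closed sets -/
theorem exists_arg {ι : Type*} [Finite ι] {C : ι → Set Z} (hC : ∀ i, IsClosed (C i)) {D : Set Z}
    (hD : IsClosed D) (hd : Pairwise (Disjoint on C)) (hCD : ∀ i, Disjoint (C i) D)
    {φ : ι → Z → ℂ} (sm : ∀ i, ∀ x ∈ C i, ∀ᶠ y in 𝓝 x, FSm I (φ i) y)
    (h1 : ∀ i, ∀ x ∈ C i, ‖φ i x‖ = 1) (hl : ∀ i, HasLog (φ i) (C i)) :
    ∃ F : Z → ℝ, ContMDiff I 𝓘(ℝ, ℝ) ∞ F ∧
      (∀ i, ∀ x ∈ C i, Complex.exp (F x * Complex.I) = φ i x) ∧ ∀ x ∈ D, F x = 0 := by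
  choose ψ c e using hl
  obtain ⟨F, hF⟩ := exists_contMDiffMap_forall_mem_convex_of_local (n := ⊤) I
    (t := fun x => {r : ℝ | (∀ i, x ∈ C i → r = (ψ i x).im) ∧ (x ∈ D → r = 0)})
    (fun x r hr s hs a b _ _ ab => ⟨fun i hi => by
      rw [hr.1 i hi, hs.1 i hi, ← add_smul, ab, one_smul], fun hx => by
      rw [hr.2 hx, hs.2 hx, ← add_smul, ab, one_smul]⟩) fun x => by
      by_cases hx : ∃ i, x ∈ C i
      · obtain ⟨i, hi⟩ := hx
        have n0 : φ i x ≠ 0 := by rw [e i x hi]; exact Complex.exp_ne_zero _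
        have e1 : ∀ᶠ y in 𝓝 x, φ i y / φ i x ∈ Complex.slitPlane :=
          ((sm i x hi).self_of_nhds.continuousAt.div_const _).eventually_mem
            (Complex.isOpen_slitPlane.mem_nhds (by simp [div_self n0]))
        have e2 : ∀ᶠ y in 𝓝 x, ∀ j, j ≠ i → y ∉ C j := eventually_all.2 fun j =>
          eventually_imp_distrib_left.2 fun ji =>
            (hC j).isOpen_compl.mem_nhds (disjoint_right.1 (hd ji) hi)
        have e3 : ∀ᶠ y in 𝓝 x, y ∈ C i → (ψ i y - ψ i x).im ∈ Ioo (-Real.pi) Real.pi :=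
          eventually_nhdsWithin_iff.1 ((Complex.continuous_im.continuousAt.comp_continuousWithinAt
            ((c i x hi).sub continuousWithinAt_const)).eventually_mem
              (Ioo_mem_nhds (by simp [Real.pi_pos]) (by simp [Real.pi_pos])))
        refine ⟨_, (sm i x hi).and (e1.and (e2.and (e3.and
          (hD.isOpen_compl.mem_nhds (disjoint_left.1 (hCD i) hi))))),
          fun y => (ψ i x).im + (Complex.log (φ i y / φ i x)).im, fun y hy => ?_,
          fun y hy => ⟨fun j hj => ?_, fun h => (hy.2.2.2.2 h).elim⟩⟩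
        · refine (contMDiffAt_const.add (Complex.imCLM.contMDiffAt.comp y
            (ContDiffAt.comp_contMDiffAt (f := fun y => φ i y / φ i x)
              ((Complex.contDiffAt_log hy.2.1).restrict_scalars ℝ) ?_))).contMDiffWithinAt
          simp only [div_eq_mul_inv]
          exact FSm.mul' hy.1 contMDiffAt_const
        · obtain rfl : j = i := by_contra fun ji => hy.2.2.1 j ji hj
          beta_reduce
          rw [e j y hj, e j x hi, ← Complex.exp_sub,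
            Complex.log_exp (hy.2.2.2.1 hj).1 (hy.2.2.2.1 hj).2.le]
          simp
      · exact ⟨_, (isClosed_iUnion_of_finite hC).isOpen_compl.mem_nhds (mt mem_iUnion.1 hx), 0,
          contMDiffOn_const, fun y hy => ⟨fun i hi => (hy (mem_iUnion.2 ⟨i, hi⟩)).elim, fun _ => rfl⟩⟩
  refine ⟨F, F.contMDiff, fun i x hx => ?_, fun x hx => (hF x).2 hx⟩
  have := h1 i x hx
  rw [e i x hx, Complex.norm_exp, Real.exp_eq_one_iff] at this
  rw [(hF x).1 i hx, e i x hx]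
  congr 1
  exact Complex.ext (by simp [this]) (by simp)

end arg

section log
variable (N : ML M lam) (N' : ML M' lam) (I : MId M M' A₀) (w : X.M → Matrix lam lam ℂ)

/-- the discrepancy of two markings -/
def dis (b : A₀) (x : X.M) : ℂ := (mX N' (I.f' b) (I.ψ x) * w x * (mX N (I.f b) x)ᴴ).trace

theorem dis_j (b : A₀) (q : (M.bn (I.f b)).Y.M × ℝ) : dis N N' I w b ((M.bn (I.f b)).j q) =
    (N'.m (I.f' b) (I.g b q.1, q.2) * w ((M.bn (I.f b)).j q) * (N.m (I.f b) q)ᴴ).trace := by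
  rw [dis, mX_ψ, mX_j]

variable {N N' I w} {V : Set X.M} (hw : Uni X.I N.p (fun x => N'.p (I.ψ x)) w V) {b : A₀}
  (hL : (N'.LY (I.f' b)).pull (M.bn (I.f b)).Y.I (M'.bn (I.f' b)).Y.I (I.g b) = N.LY (I.f b))
include hw hL

theorem dis_spec {x : X.M} (hx : x ∈ sl3 M (I.f b)) (hV : x ∈ V) :
    mX N' (I.f' b) (I.ψ x) * w x = dis N N' I w b x • mX N (I.f b) x ∧ ‖dis N N' I w b x‖ = 1 := by
  have h1 := piso_mX N hx
  have h2 := (hw.iso x hV).trans ((uni_mX_ψ N' I hL).iso x hx)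
  have h3 := rk1_sand (.of_trace h1.prj_tgt.herm h1.prj_tgt.idem
    (h1.trace_eq.symm.trans (N.ok.tr x trivial))) (h1.symm.trans h2)
  refine ⟨?_, h3.2⟩
  rw [← h2.idem, ← h1.src, ← Matrix.mul_assoc, h3.1, Matrix.smul_mul, h1.left]; rfl

theorem cont_dis (hV : sl3 M (I.f b) ⊆ V) : ContinuousOn (dis N N' I w b) (sl3 M (I.f b)) := by
  intro x hx
  have := (((uni_mX_ψ N' I hL).sm x hx).mul (hw.sm x (hV hx))).mul
    (MSm.ct (a := mX N (I.f b)) (by
      obtain ⟨q, hq, rfl⟩ := hx; exact msm_mX ((N.um _).sm q (abs_le.2 hq.2))))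
  exact this.trace.continuousAt.continuousWithinAt

/-- logarithms of the discrepancy pass from the core to the slab -/
theorem hasLog_dis (hV : sl3 M (I.f b) ⊆ V)
    (h : M.pin (I.f b) ∨ HasLog (fun y => dis N N' I w b ((M.bn (I.f b)).j (y, 0))) univ) :
    HasLog (dis N N' I w b) (sl3 M (I.f b)) := by
  have c := (cont_dis hw hL hV).comp (M.bn (I.f b)).oe.continuous.continuousOn
    (mapsTo_image _ (univ ×ˢ Icc (-3) 3))
  have n0 : ∀ q ∈ univ ×ˢ Icc (-3 : ℝ) 3, dis N N' I w b ((M.bn (I.f b)).j q) ≠ 0 :=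
    fun q hq k => by simpa [k] using (dis_spec hw hL ⟨q, hq, rfl⟩ (hV ⟨q, hq, rfl⟩)).2
  have z : ∀ y : (M.bn (I.f b)).Y.M, (y, (0 : ℝ)) ∈ univ ×ˢ Icc (-3 : ℝ) 3 :=
    fun y => ⟨trivial, by norm_num⟩
  have h0 : HasLog (fun y => dis N N' I w b ((M.bn (I.f b)).j (y, 0))) univ := by
    refine h.elim (fun hp => ?_) id
    obtain ⟨g, -⟩ := round_homeo (M.rnd _ hp)
    have := Pic56.hasLog_sphere (E := V4) (by simp)
      (φ := fun v => dis N N' I w b ((M.bn (I.f b)).j (g.symm v, 0)))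
      (c.comp_continuous (by fun_prop) fun v => z _) fun v => n0 _ (z _)
    simpa using this.comp g.continuous.continuousOn (mapsTo_univ _ univ)
  refine hasLog_image (M.bn _).oe.isOpenEmbedding.isEmbedding (HasLog.of_deform c n0
    (h := fun z => (z.2.1, z.1 * z.2.2)) (S₀ := {q | q.2 = 0}) (by fun_prop)
    (fun t ht q hq => ⟨trivial, ?_⟩) (fun q _ => zero_mul _) (fun q _ => by simp)
    ((h0.comp continuous_fst.continuousOn (mapsTo_univ _ _)).congr ?_))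
  · constructor <;> nlinarith [ht.1, ht.2, hq.2.1, hq.2.2]
  · rintro ⟨y, s⟩ (rfl : s = 0); rfl

end log

/-- **an identification of marked lines from an isometry**: the walls in `S` are repaired by a
phase, which is `1` on `D` -/
theorem lid_of_log [Finite A₀] {N : ML M lam} {N' : ML M' lam} {I : MId M M' A₀} {V : Set X.M}
    {w : X.M → Matrix lam lam ℂ} (sN : Smo N) (sN' : Smo N') (op : IsOpen V)
    (sub : V ⊆ I.ψ.source) (hw : Uni X.I N.p (fun x => N'.p (I.ψ x)) w V)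
    (hL : ∀ b, (N'.LY (I.f' b)).pull (M.bn (I.f b)).Y.I (M'.bn (I.f' b)).Y.I (I.g b) = N.LY (I.f b))
    (S : Set A₀) (hS : ∀ b ∈ S, sl3 M (I.f b) ⊆ V)
    (hd : ∀ b ∈ S, ∀ c, c ≠ b → Disjoint (sl3 M (I.f b)) (sl3 M (I.f c)))
    (hl : ∀ b ∈ S, M.pin (I.f b) ∨ HasLog (fun y => dis N N' I w b ((M.bn (I.f b)).j (y, 0))) univ)
    (hT : ∀ b ∉ S, ∀ x ∈ sl3 M (I.f b), x ∈ V → mX N' (I.f' b) (I.ψ x) * w x = mX N (I.f b) x)
    {D : Set X.M} (hD : IsClosed D) (hSD : ∀ b ∈ S, Disjoint (sl3 M (I.f b)) D) :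
    ∃ F : X.M → ℝ, ContMDiff X.I 𝓘(ℝ, ℝ) ∞ F ∧ (∀ x ∈ D, F x = 0) ∧
      LId N N' I V fun x => Complex.exp (-(F x * Complex.I)) • w x := by
  have := M.cpt
  have cl : ∀ a, IsClosed (sl3 M a) := fun a => ((M.bn a).isCompact_slab isCompact_Icc).isClosed
  obtain ⟨F, h1, h2, h3⟩ := exists_arg (I := X.I) (C := fun b : S => sl3 M (I.f b)) (fun _ => cl _)
    (hD.union (isClosed_iUnion_of_finite fun b : ↥Sᶜ => cl (I.f b)))
    (fun b c bc => hd b b.2 c fun e => bc (Subtype.ext e.symm))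
    (fun b => disjoint_union_right.2 ⟨hSD b b.2, disjoint_iUnion_right.2 fun c =>
      hd b b.2 c fun e => c.2 (e ▸ b.2)⟩) (φ := fun b => dis N N' I w b)
    (fun b x hx => by
      filter_upwards [op.mem_nhds (hS b b.2 hx),
        (M.bn (I.f b)).oe.isOpen_range.mem_nhds ((M.bn _).slab_subset _ hx)]
      rintro _ hV ⟨q, rfl⟩
      exact (((msm_mX_ψ N' I b (sN' _ _)).mul (hw.sm _ hV)).mul (msm_mX (sN _ q)).ct).trace)
    (fun b x hx => (dis_spec hw (hL b) hx (hS b b.2 hx)).2)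
    fun b => hasLog_dis hw (hL b) (hS b b.2) (hl b b.2)
  refine ⟨F, h1, fun x hx => h3 x (.inl hx), lid_of_mX op sub ⟨fun x hx => MSm.smul ?_ (hw.sm x hx),
    fun x hx => ?_⟩ hL fun b x hx hV => ?_⟩
  · exact ((Complex.contDiff_exp (𝕜 := ℝ)).contDiffAt).comp_contMDiffAt
      (FSm.mul' (FSm.ofReal (h1 x)) contMDiffAt_const).neg
  · have h := hw.iso x hx
    have u : star (Complex.exp (-(F x * Complex.I))) * Complex.exp (-(F x * Complex.I)) = 1 := by
      rw [Complex.star_def, ← Complex.exp_conj, ← Complex.exp_add]; simp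
    exact ⟨by rw [conjTranspose_smul, Matrix.smul_mul, Matrix.mul_smul, smul_smul, u, one_smul, h.src],
      by rw [conjTranspose_smul, Matrix.smul_mul, Matrix.mul_smul, smul_smul, mul_comm, u, one_smul,
        h.tgt], by rw [Matrix.smul_mul, h.idem]⟩
  · rw [Matrix.mul_smul]
    by_cases hb : b ∈ S
    · rw [(dis_spec hw (hL b) hx hV).1, ← h2 ⟨b, hb⟩ x hx, smul_smul, ← Complex.exp_add]; simp
    · rw [h3 x (.inr (mem_iUnion.2 ⟨⟨b, hb⟩, hx⟩)), hT b hb x hx hV]; simp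

end

end Crest.Agent.X212.Pj41
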