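import Crest.Agent.X212.Pj41.Clm
import Crest.Agent.X212.Sob92.Der

/-!
# X212 / PROJ (helper41), file Psh: push forward of connections along partial isometries

For `a : p → P = a a*` and a skew connection form `W` with `p` parallel, `pshW` is the skew connection
form with `a` parallel and vanishing on the complement of `P`.
-/

set_option autoImplicit false
set_option linter.unusedSectionVars false

open Set Function Filter Topology
open scoped ContDiff Manifold InnerProductSpace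

namespace Crest.Agent.X212.Pj41

open Sob92

noncomputable section

variable {E H : Type*} [NormedAddCommGroup E] [NormedSpace ℝ E] [TopologicalSpace H]
  {I : ModelWithCorners ℝ E H} {M : Type*} [TopologicalSpace M] [ChartedSpace H M]
variable {U V W : Type*} [NormedAddCommGroup U] [InnerProductSpace ℝ U] [FiniteDimensional ℝ U]
  [NormedAddCommGroup V] [InnerProductSpace ℝ V] [FiniteDimensional ℝ V]
  [NormedAddCommGroup W] [InnerProductSpace ℝ W] [FiniteDimensional ℝ W]

/-- the adjoint as a continuous linear map -/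
def adL : (V →L[ℝ] W) →L[ℝ] (W →L[ℝ] V) := LinearMap.toContinuousLinearMap
  { toFun := ad
    map_add' := fun A B => ad_eq fun w v => by simp [inner_add_left, inner_add_right, inner_ad_left]
    map_smul' := fun r A => ad_eq fun w v => by
      simp [inner_smul_left, inner_smul_right, inner_ad_left] }

theorem ad_add (A B : V →L[ℝ] W) : ad (A + B) = ad A + ad B := adL.map_add A B
theorem ad_sub (A B : V →L[ℝ] W) : ad (A - B) = ad A - ad B := adL.map_sub A B
theorem ad_neg (A : V →L[ℝ] W) : ad (-A) = -ad A := adL.map_neg A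
theorem ad_smul (r : ℝ) (A : V →L[ℝ] W) : ad (r • A) = r • ad A := adL.map_smul r A
theorem ad_zero : ad (0 : V →L[ℝ] W) = 0 := adL.map_zero
theorem ad_sum {ι : Type*} (s : Finset ι) (A : ι → V →L[ℝ] W) :
    ad (∑ i ∈ s, A i) = ∑ i ∈ s, ad (A i) := map_sum adL A s
theorem ad_one : ad (1 : V →L[ℝ] V) = 1 := ad_eq fun _ _ => rfl

theorem ad_skew {A : V →L[ℝ] V} : ad A = -A ↔ ∀ v w, ⟪A v, w⟫_ℝ = -⟪v, A w⟫_ℝ :=
  ⟨fun h v w => by rw [← inner_ad_right, h]; simp, fun h => ad_eq fun v w => by simp [h]⟩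

theorem ad_symm {A : V →L[ℝ] V} : ad A = A ↔ ∀ v w, ⟪A v, w⟫_ℝ = ⟪v, A w⟫_ℝ :=
  ⟨fun h v w => by rw [← inner_ad_right, h], fun h => ad_eq h⟩

theorem ad_eq_adjoint [CompleteSpace V] [CompleteSpace W] (A : V →L[ℝ] W) :
    ad A = ContinuousLinearMap.adjoint A :=
  ad_eq fun w v => ContinuousLinearMap.adjoint_inner_left A v w

theorem CIso.trace_eq {u : V →L[ℝ] W} {p : V →L[ℝ] V} {q : W →L[ℝ] W} (h : CIso u p q) :
    LinearMap.trace ℝ V p = LinearMap.trace ℝ W q := by
  rw [← h.src, ← h.tgt]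
  exact LinearMap.trace_comp_comm' (u : V →ₗ[ℝ] W) (ad u : W →ₗ[ℝ] V)

/-- an intertwiner of skew (symmetric) maps has an intertwining adjoint -/
theorem ad_itw_skew {a : V →L[ℝ] W} {J : V →L[ℝ] V} {J' : W →L[ℝ] W} (hJ : ad J = -J)
    (hJ' : ad J' = -J') (h : J' ∘L a = a ∘L J) : J ∘L ad a = ad a ∘L J' := by
  have := congrArg ad h
  rw [ad_comp, ad_comp, hJ, hJ'] at this
  simpa using this.symm

theorem ad_itw_symm {a : V →L[ℝ] W} {J : V →L[ℝ] V} {J' : W →L[ℝ] W} (hJ : ad J = J)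
    (hJ' : ad J' = J') (h : J' ∘L a = a ∘L J) : J ∘L ad a = ad a ∘L J' := by
  have := congrArg ad h
  rw [ad_comp, ad_comp, hJ, hJ'] at this
  exact this.symm

section dv

variable {e : (x : M) → TangentSpace I x} {x : M}

theorem FSm.md {F : Type*} [NormedAddCommGroup F] [NormedSpace ℝ F] {f : M → F}
    (h : FSm I f x) : MDifferentiableAt I 𝓘(ℝ, F) f x := h.mdifferentiableAt (by simp)

theorem dv_ad {a : M → V →L[ℝ] W} (h : FSm I a x) :
    dv I e (fun y => ad (a y)) x = ad (dv I e a x) := dv_clm adL h.md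

theorem dv_cc {a : M → V →L[ℝ] W} {b : M → U →L[ℝ] V} (h : FSm I a x) (h' : FSm I b x) :
    dv I e (fun y => a y ∘L b y) x = dv I e a x ∘L b x + a x ∘L dv I e b x :=
  dv_bil (ContinuousLinearMap.compL ℝ U V W) h.md h'.md

variable (I e) in
/-- `a W - D a` -/
def pshT (a : M → V →L[ℝ] W) (A : M → V →L[ℝ] V) (x : M) : V →L[ℝ] W :=
  a x ∘L A x - dv I e a x

variable (I e) in
/-- the push forward of the connection form `A` along `a` -/
def pshW (a : M → V →L[ℝ] W) (A : M → V →L[ℝ] V) (x : M) : W →L[ℝ] W :=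
  pshT I e a A x ∘L ad (a x) - (a x ∘L ad (pshT I e a A x)) ∘L (1 - a x ∘L ad (a x))

variable {a : M → V →L[ℝ] W} {p A : M → V →L[ℝ] V}

variable (I e) in
/-- the hypotheses at a point -/
structure PH (a : M → V →L[ℝ] W) (p A : M → V →L[ℝ] V) (x : M) : Prop where
  sa : FSm I a x
  sp : FSm I p x
  iso : ∀ᶠ y in 𝓝 x, CIso (a y) (p y) (a y ∘L ad (a y))
  sk : ad (A x) = -A x
  par : dv I e p x + (A x ∘L p x - p x ∘L A x) = 0

namespace PH

variable (h : PH I e a p A x)
include h

theorem iso' : CIso (a x) (p x) (a x ∘L ad (a x)) := h.iso.self_of_nhds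

theorem T_p : pshT I e a A x ∘L p x = pshT I e a A x := by
  have h1 : dv I e a x = dv I e a x ∘L p x + a x ∘L dv I e p x := by
    rw [← dv_cc h.sa h.sp]
    exact dv_congr (h.iso.mono fun y hy => hy.idem.symm)
  have h2 : dv I e p x = p x ∘L A x - A x ∘L p x := by
    rw [← sub_eq_zero, ← h.par]; abel
  rw [h2, ContinuousLinearMap.comp_sub, ← ContinuousLinearMap.comp_assoc, h.iso'.idem] at h1
  rw [pshT, ContinuousLinearMap.sub_comp, ContinuousLinearMap.comp_assoc]
  nth_rw 2 [h1]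
  abel

theorem W_a : pshW I e a A x ∘L a x = pshT I e a A x := by
  rw [pshW, ContinuousLinearMap.sub_comp, ContinuousLinearMap.comp_assoc, h.iso'.src, h.T_p,
    ContinuousLinearMap.comp_assoc, ContinuousLinearMap.sub_comp, h.iso'.left]
  have : (1 : W →L[ℝ] W) ∘L a x - a x = 0 := sub_self _
  rw [this]
  simp

/-- `a` is parallel -/
theorem para : dv I e a x + pshW I e a A x ∘L a x - a x ∘L A x = 0 := by
  rw [h.W_a, pshT]; abel

theorem aT : ad (a x) ∘L pshT I e a A x + ad (pshT I e a A x) ∘L a x = 0 := by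
  have h1 : dv I e p x = ad (dv I e a x) ∘L a x + ad (a x) ∘L dv I e a x := by
    rw [← dv_ad h.sa, ← dv_cc h.sa.ad h.sa]
    exact dv_congr (h.iso.mono fun y hy => hy.src.symm)
  have h2 := h.par
  rw [h1] at h2
  rw [pshT, ad_sub, ad_comp, h.sk, ContinuousLinearMap.comp_sub, ContinuousLinearMap.sub_comp,
    ← ContinuousLinearMap.comp_assoc, ContinuousLinearMap.comp_assoc (-A x), h.iso'.src,
    ContinuousLinearMap.neg_comp, ← neg_eq_zero, ← h2]
  abel

theorem skew : ad (pshW I e a A x) = -pshW I e a A x := by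
  set T := pshT I e a A x with hT
  have h1 : a x ∘L (ad (a x) ∘L T + ad T ∘L a x) ∘L ad (a x) = 0 := by rw [h.aT]; simp
  simp only [pshW, ← hT, ad_sub, ad_comp, ad_ad, ad_one]
  rw [← sub_eq_zero, ← h1]
  ext v
  simp only [ContinuousLinearMap.comp_apply, sub_apply,
    add_apply, neg_apply, one_apply_eq_self,
    map_sub, map_add]
  abel

theorem a_W : ad (a x) ∘L pshW I e a A x = -ad (pshT I e a A x) := by
  have := congrArg ad h.W_a
  rw [ad_comp, h.skew] at this
  rw [← this]; simp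

/-- conjugation by `a` commutes with the covariant derivative of endomorphisms -/
theorem conj {r : M → V →L[ℝ] V} (hr : FSm I r x) :
    dv I e (fun y => a y ∘L r y ∘L ad (a y)) x +
      (pshW I e a A x ∘L (a x ∘L r x ∘L ad (a x)) - (a x ∘L r x ∘L ad (a x)) ∘L pshW I e a A x) =
    a x ∘L (dv I e r x + (A x ∘L r x - r x ∘L A x)) ∘L ad (a x) := by
  rw [dv_cc h.sa (hr.cc h.sa.ad), dv_cc hr h.sa.ad, dv_ad h.sa, ← ContinuousLinearMap.comp_assoc
    (pshW I e a A x), h.W_a, ContinuousLinearMap.comp_assoc (a x),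
    ContinuousLinearMap.comp_assoc (r x), h.a_W, pshT, ad_sub, ad_comp, h.sk]
  ext v
  simp only [ContinuousLinearMap.comp_apply, sub_apply,
    add_apply, neg_apply, map_sub, map_add, map_neg]
  abel

theorem par' : dv I e (fun y => a y ∘L ad (a y)) x +
    (pshW I e a A x ∘L (a x ∘L ad (a x)) - (a x ∘L ad (a x)) ∘L pshW I e a A x) = 0 := by
  have h1 := h.conj h.sp
  rw [h.par, dv_congr (v := fun y => a y ∘L ad (a y))
    (h.iso.mono fun y hy => by simp only [hy.symm.left]), h.iso'.symm.left] at h1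
  simpa using h1

/-- constant complex structures -/
theorem commJ {J : V →L[ℝ] V} {J' : W →L[ℝ] W} (hJ : ad J = -J) (hJ' : ad J' = -J')
    (h1 : ∀ᶠ y in 𝓝 x, J' ∘L a y = a y ∘L J) (h2 : J ∘L A x = A x ∘L J) :
    J' ∘L pshW I e a A x = pshW I e a A x ∘L J' := by
  have e1 : J' ∘L dv I e a x = dv I e a x ∘L J := by
    have k1 := dv_cc (e := e) (a := fun _ => J') (contMDiffAt_const : FSm I _ x) h.sa
    have k2 := dv_cc (e := e) (b := fun _ => J) h.sa (contMDiffAt_const : FSm I _ x)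
    rw [dv_congr h1, k2] at k1
    simpa using k1.symm
  have e0 := h1.self_of_nhds
  have e2 : J' ∘L pshT I e a A x = pshT I e a A x ∘L J := by
    rw [pshT, ContinuousLinearMap.comp_sub, ContinuousLinearMap.sub_comp, e1,
      ← ContinuousLinearMap.comp_assoc, e0, ContinuousLinearMap.comp_assoc, h2,
      ContinuousLinearMap.comp_assoc]
  have e3 := ad_itw_skew hJ hJ' e0
  have e4 := ad_itw_skew hJ hJ' e2
  ext v
  have f0 := fun w => congrArg (fun L => L w) e0
  have f2 := fun w => congrArg (fun L => L w) e2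
  have f3 := fun w => congrArg (fun L => L w) e3
  have f4 := fun w => congrArg (fun L => L w) e4
  simp only [ContinuousLinearMap.comp_apply] at f0 f2 f3 f4
  simp only [pshW, ContinuousLinearMap.comp_apply, sub_apply,
    one_apply_eq_self, map_sub, f0, f2, f3, f4]

end PH

/-- change of the local model by a parallel isomorphism does not change the push forward -/
theorem pshW_eq {b : M → U →L[ℝ] W} {u : M → U →L[ℝ] V} {q B : M → U →L[ℝ] U}
    (h : PH I e a p A x) (hu : FSm I u x) (hi : CIso (u x) (q x) (p x))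
    (hb : ∀ᶠ y in 𝓝 x, b y = a y ∘L u y)
    (hp : dv I e u x + A x ∘L u x - u x ∘L B x = 0) : pshW I e b B x = pshW I e a A x := by
  have e1 : pshT I e b B x = pshT I e a A x ∘L u x := by
    have : u x ∘L B x = dv I e u x + A x ∘L u x := (sub_eq_zero.1 hp).symm
    rw [pshT, pshT, dv_congr hb, dv_cc h.sa hu, hb.self_of_nhds, ContinuousLinearMap.comp_assoc,
      this, ContinuousLinearMap.comp_add, ContinuousLinearMap.sub_comp,
      ContinuousLinearMap.comp_assoc]
    abel
  have e2 : pshT I e b B x ∘L ad (b x) = pshT I e a A x ∘L ad (a x) := by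
    rw [e1, hb.self_of_nhds, ad_comp, ContinuousLinearMap.comp_assoc,
      ← ContinuousLinearMap.comp_assoc (u x), hi.tgt, h.iso'.symm.left]
  have e3 : b x ∘L ad (pshT I e b B x) = a x ∘L ad (pshT I e a A x) := by
    have := congrArg ad e2
    rwa [ad_comp, ad_comp, ad_ad, ad_ad] at this
  have e4 : b x ∘L ad (b x) = a x ∘L ad (a x) := by
    rw [hb.self_of_nhds]; exact (hi.trans h.iso').tgt
  rw [pshW, pshW, e2, e3, e4]

theorem FSm.pshW [IsManifold I 1 M] (he : ContMDiffAt I I.tangent ∞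
      (fun x => (⟨x, e x⟩ : TangentBundle I M)) x) (ha : FSm I a x) (hA : FSm I A x) :
    FSm I (pshW I e a A) x := by
  have hT : FSm I (pshT I e a A) x := (ha.cc hA).sub (dv_smoothAt he ha)
  exact (hT.cc ha.ad).sub ((ha.cc hT.ad).cc (contMDiffAt_const.sub (ha.cc ha.ad)))

/-- linearity in the direction -/
theorem pshW_sum {ι : Type*} [Fintype ι] {f : ι → (x : M) → TangentSpace I x} {c : ι → ℝ}
    {B : ι → M → V →L[ℝ] V} (h1 : ∑ i, c i • f i x = e x) (h2 : ∑ i, c i • B i x = A x) :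
    ∑ i, c i • pshW I (f i) a (B i) x = pshW I e a A x := by
  have hT : ∑ i, c i • pshT I (f i) a (B i) x = pshT I e a A x := by
    simp only [pshT, smul_sub, Finset.sum_sub_distrib, dv, ← h1, ← h2, map_sum, map_smul,
      ContinuousLinearMap.comp_finsetSum, ContinuousLinearMap.comp_smul]
    rfl
  simp only [pshW, ← hT, smul_sub, Finset.sum_sub_distrib, ad_sum, ad_smul,
    ContinuousLinearMap.comp_finsetSum, ContinuousLinearMap.finsetSum_comp,
    ContinuousLinearMap.comp_smul, ContinuousLinearMap.smul_comp]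

end dv

/-- gluing with constant complex structures, into `ℝ^N` -/
theorem c_exists_glueJ [FiniteDimensional ℝ E] [IsManifold I ∞ M] [T2Space M] [SigmaCompactSpace M]
    {ι : Type*} [Fintype ι] {Vi : ι → Type*} [∀ i, NormedAddCommGroup (Vi i)]
    [∀ i, InnerProductSpace ℝ (Vi i)] [∀ i, FiniteDimensional ℝ (Vi i)] {O : ι → Set M}
    {u : ∀ i j, M → Vi j →L[ℝ] Vi i} (h : CCoc I O u) (hc : ∀ x, ∃ i, x ∈ O i)
    (J : ∀ i, Vi i →L[ℝ] Vi i) (h1 : ∀ i, J i * J i = -1) (h2 : ∀ i, ad (J i) = -J i)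
    (h3 : ∀ i j, ∀ x ∈ O i, x ∈ O j → J i ∘L u i j x = u i j x ∘L J j) :
    ∃ (N : ℕ) (J' : EuclideanSpace ℝ (Fin N) →L[ℝ] EuclideanSpace ℝ (Fin N))
      (a : ∀ i, M → Vi i →L[ℝ] EuclideanSpace ℝ (Fin N)), J' * J' = -1 ∧ ad J' = -J' ∧
      (∀ i, ∀ x ∈ O i, FSm I (a i) x ∧ ad (a i x) ∘L a i x = u i i x ∧
        J' ∘L a i x = a i x ∘L J i) ∧
      ∀ i j, ∀ x ∈ O i, x ∈ O j → ad (a i x) ∘L a j x = u i j x ∧ a i x ∘L u i j x = a j x := by
  classical
  let b := fun i => stdOrthonormalBasis ℝ (Vi i)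
  obtain ⟨P, a, -, k2, k3, k4⟩ := c_exists_glue b h hc
  let T := EuclideanSpace ℝ (Σ i, Fin (Module.finrank ℝ (Vi i)))
  let e : T ≃ₗᵢ[ℝ] EuclideanSpace ℝ (Fin (Module.finrank ℝ T)) := (stdOrthonormalBasis ℝ T).repr
  let f : T →L[ℝ] EuclideanSpace ℝ (Fin (Module.finrank ℝ T)) := e.toContinuousLinearEquiv
  let g : EuclideanSpace ℝ (Fin (Module.finrank ℝ T)) →L[ℝ] T := e.symm.toContinuousLinearEquiv
  have fg : ∀ v, f (g v) = v := e.apply_symm_apply
  have gf : ∀ v, g (f v) = v := e.symm_apply_apply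
  have af : ad f = g := ad_eq fun w v => by
    rw [← e.inner_map_map]; exact congrArg (⟪·, e v⟫_ℝ) (fg w)
  have ag : ad g = f := by rw [← af, ad_ad]
  have j1 : blk b J ∘L blk b J = -1 := by
    rw [blk_comp, ← blk_one b, ← blk_neg]
    exact congrArg (blk b) (funext h1)
  have j2 : ad (blk b J) = -blk b J := by rw [blk_ad, ← blk_neg]; exact congrArg (blk b) (funext h2)
  refine ⟨_, f ∘L blk b J ∘L g, fun i x => f ∘L a i x, ?_, ?_, fun i x hx => ⟨?_, ?_, ?_⟩,
    fun i j x hi hj => ⟨?_, ?_⟩⟩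
  · ext1 v
    have := congrArg (fun L => f (L (g v))) j1
    simpa [gf, fg] using this
  · rw [ad_comp, ad_comp, af, ag, j2]; ext1 v; simp
  · exact FSm.cc contMDiffAt_const (k2 i x hx).1
  · rw [ad_comp, af, ← (k2 i x hx).2.src]; ext1 v; simp [gf]
  · rw [ContinuousLinearMap.comp_assoc (f) (a i x), ← k4 J h3 i x hx]; ext1 v; simp [gf]
  · rw [ad_comp, af, ← (k3 i j x hi hj).1]; ext1 v; simp [gf]
  · rw [ContinuousLinearMap.comp_assoc, (k3 i j x hi hj).2]

end

end Crest.Agent.X212.Pj41
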